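import Crest.Agent.R054.Cyc

/-!
# R054 / Classify : bad cyclic patterns

`C` is a cyclic list of length `k + 1 + o` containing the clique `M` (`|M| = w`, `5 ≤ w ≤ 7`,
`k + 1 ≤ 2 w`), there is no cycle of length `k + 1`.  Deleting "deletable" sets of positions gives
shorter cycles, so only a few cyclic `0/1` patterns are possible.
-/

set_option autoImplicit false

namespace Crest.Agent.R054

open SimpleGraph

variable {V : Type*} {G : SimpleGraph V}

/-! ### Deleting a mask -/

/-- the elements whose mask bit is `false` -/
def keepList {α : Type*} : List α → List Bool → List α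
  | a :: l, d :: D => if d then keepList l D else a :: keepList l D
  | _, _ => []

/-- local condition: a kept position next to a deleted one is marked in `X` -/
def validLin : List Bool → List Bool → Bool
  | x :: x' :: X, d :: d' :: D =>
    ((d == d') || (if d then x' else x)) && validLin (x' :: X) (d' :: D)
  | _, _ => true

/-- the same for the pair (last, first) -/
def validEnd (X D : List Bool) : Bool :=
  (D.getLastD false == D.headD false) ||
    (if D.getLastD false then X.headD false else X.getLastD false)

theorem keepList_sublist {α : Type*} : ∀ (l : List α) (D : List Bool), (keepList l D).Sublist l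
  | [], D => by simp [keepList]
  | a :: l, [] => by simp [keepList]
  | a :: l, d :: D => by
    have ih := keepList_sublist l D
    unfold keepList
    split_ifs
    · exact ih.trans (List.sublist_cons_self _ _)
    · exact ih.cons_cons a

theorem length_keepList {α : Type*} : ∀ (l : List α) (D : List Bool), D.length = l.length →
    (keepList l D).length = D.count false
  | [], D, h => by
    have : D = [] := List.length_eq_zero_iff.1 (by simpa using h)
    subst this; simp [keepList]
  | a :: l, [], h => by simp at h
  | a :: l, d :: D, h => by
    have ih := length_keepList l D (by simpa using h)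
    unfold keepList
    cases d <;> simp [ih]

theorem keepList_chain {M : Set V} (hM : ∀ a ∈ M, ∀ b ∈ M, a ≠ b → G.Adj a b) [DecidablePred (· ∈ M)] :
    ∀ (C : List V) (D : List Bool), D.length = C.length → C.Nodup → C.IsChain G.Adj →
      validLin (C.map fun v => decide (v ∈ M)) D = true →
      (keepList C D).IsChain G.Adj ∧
      (∀ a ∈ (keepList C D).head?, (D.headD false = false ∧ C.head? = some a) ∨
        (D.headD false = true ∧ a ∈ M)) ∧
      (∀ a ∈ (keepList C D).getLast?, (D.getLastD false = false ∧ C.getLast? = some a) ∨
        (D.getLastD false = true ∧ a ∈ M))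
  | [], D, h, _, _, _ => by simp [keepList]
  | [a], [], h, _, _, _ => by simp at h
  | [a], [d], h, _, _, _ => by
    cases d <;> simp [keepList]
  | [a], d :: d' :: D, h, _, _, _ => by simp at h
  | a :: b :: C, [], h, _, _, _ => by simp at h
  | a :: b :: C, [d], h, _, _, _ => by simp at h
  | a :: b :: C, d :: d' :: D, h, hnd, hch, hv => by
    have hlen : (d' :: D).length = (b :: C).length := by simpa using h
    have hnd' : (b :: C).Nodup := (List.nodup_cons.1 hnd).2
    have hch' := List.isChain_cons_cons.1 hch
    have hv' : ((d == d') || (if d then decide (b ∈ M) else decide (a ∈ M))) = true ∧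
        validLin ((b :: C).map fun v => decide (v ∈ M)) (d' :: D) = true := by
      have := hv
      simp only [List.map_cons, validLin, Bool.and_eq_true] at this ⊢
      exact this
    obtain ⟨ih1, ih2, ih3⟩ := keepList_chain hM (b :: C) (d' :: D) hlen hnd' hch'.2 hv'.2
    have hlast : (d :: d' :: D).getLastD false = (d' :: D).getLastD false := by simp
    have hClast : (a :: b :: C).getLast? = (b :: C).getLast? := by simp
    cases d with
    | true =>
      have hk : keepList (a :: b :: C) (true :: d' :: D) = keepList (b :: C) (d' :: D) := by
        rw [keepList]; simp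
      rw [hk]
      refine ⟨ih1, fun x hx => ?_, fun x hx => ?_⟩
      · right
        refine ⟨by simp, ?_⟩
        rcases ih2 x hx with ⟨h1, h2⟩ | ⟨h1, h2⟩
        · have h3 : d' = false := by simpa using h1
          subst h3
          have h4 : b = x := by simpa using h2
          have := hv'.1
          simp at this
          rw [← h4]; exact this
        · exact h2
      · rw [hlast, hClast]; exact ih3 x hx
    | false =>
      have hk : keepList (a :: b :: C) (false :: d' :: D) = a :: keepList (b :: C) (d' :: D) := by
        rw [keepList]; simp
      rw [hk]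
      refine ⟨?_, fun x hx => ?_, fun x hx => ?_⟩
      · rcases hK : keepList (b :: C) (d' :: D) with _ | ⟨y, l⟩
        · exact List.isChain_singleton a
        · rw [hK] at ih1 ih2
          refine List.isChain_cons_cons.2 ⟨?_, ih1⟩
          rcases ih2 y (by simp) with ⟨h1, h2⟩ | ⟨h1, h2⟩
          · have h4 : b = y := by simpa using h2
            rw [← h4]; exact hch'.1
          · have h3 : d' = true := by simpa using h1
            subst h3
            have h5 := hv'.1
            simp at h5
            refine hM a h5 y h2 ?_
            rintro rfl
            have hmem : a ∈ keepList (b :: C) (true :: D) := by rw [hK]; simp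
            exact (List.nodup_cons.1 hnd).1 ((keepList_sublist _ _).subset hmem)
      · left
        simpa using hx
      · rw [hlast, hClast]
        rcases hK : keepList (b :: C) (d' :: D) with _ | ⟨y, l⟩
        · rw [hK] at hx
          have hxa : a = x := by simpa using hx
          subst hxa
          -- everything after `a` is deleted
          have hall : ∀ z ∈ (d' :: D), z = true := by
            have hlen2 := length_keepList (b :: C) (d' :: D) hlen
            rw [hK] at hlen2
            intro z hz
            by_contra hz'
            have hz'' : z = false := by simpa using hz'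
            subst hz''
            have := List.count_pos_iff.2 hz
            simp at hlen2
            omega
          right
          have h1 : d' = true := hall d' (by simp)
          refine ⟨?_, ?_⟩
          · rw [List.getLastD_eq_getLast?]
            have hne : (d' :: D) ≠ [] := by simp
            rw [List.getLast?_eq_getLast_of_ne_nil hne]
            exact hall _ (List.getLast_mem hne)
          · subst h1
            have h5 := hv'.1
            simpa using h5
        · rw [hK] at hx ih3
          refine ih3 x ?_
          rw [List.getLast?_cons_cons] at hx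
          exact hx

/-- Deleting a valid mask from a cyclic list. -/
theorem IsCyc.deleteMask {M : Set V} (hM : ∀ a ∈ M, ∀ b ∈ M, a ≠ b → G.Adj a b)
    [DecidablePred (· ∈ M)] {C : List V} (hC : IsCyc G C) {D : List Bool}
    (hD : D.length = C.length) (hv : validLin (C.map fun v => decide (v ∈ M)) D = true)
    (he : validEnd (C.map fun v => decide (v ∈ M)) D = true) (h2 : 2 ≤ D.count false) :
    IsCyc G (keepList C D) ∧ (keepList C D).length = D.count false ∧
      ∀ x ∈ keepList C D, x ∈ C := by
  obtain ⟨h1, hh, hl⟩ := keepList_chain hM C D hD hC.nodup hC.2.1 hv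
  have hlen := length_keepList C D hD
  have hnd : (keepList C D).Nodup := hC.nodup.sublist (keepList_sublist _ _)
  refine ⟨⟨hnd, h1, fun a ha b hb => ?_⟩, hlen, fun x hx => (keepList_sublist _ _).subset hx⟩
  have hne : a ≠ b := by
    rintro rfl
    rcases hK : keepList C D with _ | ⟨y, _ | ⟨z, l⟩⟩
    · rw [hK] at ha; simp at ha
    · rw [hK] at hlen; simp at hlen; omega
    · rw [hK] at ha hb hnd
      have hy : y = a := by simpa using hb
      subst hy
      rw [List.getLast?_cons_cons] at ha
      exact (List.nodup_cons.1 hnd).1 (List.mem_of_getLast? ha)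
  have he' := he
  unfold validEnd at he'
  rcases hl a ha with ⟨hl1, hl2⟩ | ⟨hl1, hl2⟩ <;> rcases hh b hb with ⟨hh1, hh2⟩ | ⟨hh1, hh2⟩
  · exact hC.2.2 a hl2 b hh2
  · rw [hl1, hh1] at he'
    have h3 : (C.map fun v => decide (v ∈ M)).getLastD false = true := by simpa using he'
    have h4 : a ∈ M := by
      rw [List.getLastD_eq_getLast?, List.getLast?_map, hl2] at h3
      simpa using h3
    exact hM a h4 b hh2 hne
  · rw [hl1, hh1] at he'
    have h3 : (C.map fun v => decide (v ∈ M)).headD false = true := by simpa using he'
    have h4 : b ∈ M := by
      rw [List.headD_eq_head?_getD, List.head?_map, hh2] at h3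
      simpa using h3
    exact hM a hl2 b h4 hne
  · exact hM a hl2 b hh2 hne

/-! ### Scanning all bit patterns -/

/-- indices of the `true` entries -/
def idxT : ℕ → List Bool → List ℕ
  | _, [] => []
  | i, b :: l => if b then i :: idxT (i + 1) l else idxT (i + 1) l

/-- the mask of length `L` with support `S` -/
def mkMask (L : ℕ) (S : List ℕ) : List Bool := (List.range L).map fun i => S.contains i

/-- positions between two `true` entries -/
def singles (X : List Bool) : List ℕ :=
  idxT 0 (List.zipWith (fun a b => a && b) (X.rotate (X.length - 1)) (X.rotate 1))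

/-- candidate masks of size `o` for the pattern `X` -/
def cands (o : ℕ) (X : List Bool) : List (List Bool) :=
  (if Nat.ble o (singles X).length then [mkMask X.length ((singles X).take o)] else []) ++
    (if Nat.beq o 3 then
      (singles X).flatMap fun u =>
        (idxT 0 (List.zipWith (fun a b => a && b) X (X.rotate 3))).map fun p =>
          mkMask X.length [u, (p + 1) % X.length, (p + 2) % X.length]
    else [])

/-- leaf check -/
def leafOK (o : ℕ) (T : List (List Bool)) (X : List Bool) : Bool :=
  ((cands o X).any fun D => validLin X D && validEnd X D && (D.length == X.length) &&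
    (D.count true == o)) ||
  T.any fun t => (List.range X.length).any fun n => X.rotate n == t || X.reverse.rotate n == t

/-- depth first search; `cnt` is the number of `true` in `suf`, `m = L - o - 2` -/
def scan (w o m : ℕ) (leaf : List Bool → Bool) : ℕ → ℕ → List Bool → Bool
  | 0, cnt, suf => !(Nat.beq cnt w) || leaf suf
  | n + 1, cnt, suf =>
    Nat.blt (cnt + (n + 1)) w || Nat.blt w cnt ||
      ((suf.getD o false || (Nat.ble n o && suf.getD m false) ||
          scan w o m leaf n (cnt + 1) (true :: suf)) &&
        scan w o m leaf n cnt (false :: suf))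

/-- no two `true` at cyclic distance `o + 1` -/
def NoDist (o : ℕ) (Y : List Bool) : Prop :=
  ∀ p < Y.length, Y.getD p false = true → Y.getD ((p + o + 1) % Y.length) false = false

theorem scan_sound {w o m : ℕ} {leaf : List Bool → Bool} : ∀ (n cnt : ℕ) (suf : List Bool),
    scan w o m leaf n cnt suf = true → cnt = suf.count true → ∀ pre : List Bool, pre.length = n →
      m + o + 2 = (pre ++ suf).length →
      NoDist o (pre ++ suf) → (pre ++ suf).count true = w → leaf (pre ++ suf) = true
  | 0, cnt, suf, h, hc, pre, hp, hm, hN, hw => by
    have hpre : pre = [] := List.length_eq_zero_iff.1 hp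
    subst hpre
    rw [List.nil_append] at hw ⊢
    unfold scan at h
    rw [hc, hw, Nat.beq_refl] at h
    simpa using h
  | n + 1, cnt, suf, h, hc, pre, hp, hm, hN, hw => by
    have hne : pre ≠ [] := by rintro rfl; simp at hp
    obtain ⟨pre', b, rfl⟩ : ∃ pre' b, pre = pre' ++ [b] :=
      ⟨pre.dropLast, pre.getLast hne, (List.dropLast_append_getLast hne).symm⟩
    have hp' : pre'.length = n := by simpa using hp
    have heq : pre' ++ [b] ++ suf = pre' ++ (b :: suf) := by simp
    have hcount : (pre' ++ [b]).count true + suf.count true = w := by
      rw [List.count_append] at hw; exact hw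
    have hle : (pre' ++ [b]).count true ≤ n + 1 := by
      have := List.count_le_length (a := true) (l := pre' ++ [b])
      rw [hp] at this; exact this
    unfold scan at h
    have h1 : Nat.blt (cnt + (n + 1)) w = false := by
      rw [Bool.eq_false_iff]
      intro h0
      rw [Nat.blt_eq] at h0
      omega
    have h2 : Nat.blt w cnt = false := by
      rw [Bool.eq_false_iff]
      intro h0
      rw [Nat.blt_eq] at h0
      omega
    rw [h1, h2] at h
    simp only [Bool.false_or, Bool.and_eq_true, Bool.or_eq_true] at h
    rw [heq] at hm hN hw ⊢
    have hsuf : ∀ j, (pre' ++ b :: suf).getD (n + 1 + j) false = suf.getD j false := by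
      intro j
      have : n + 1 + j = pre'.length + (j + 1) := by omega
      rw [this, List.getD_eq_getElem?_getD, List.getD_eq_getElem?_getD,
        List.getElem?_append_right (by omega)]
      simp
    have hb : (pre' ++ b :: suf).getD n false = b := by
      rw [← hp', List.getD_eq_getElem?_getD, List.getElem?_append_right (by omega)]
      simp
    have hlt : ∀ i, (pre' ++ b :: suf).getD i false = true → i < (pre' ++ b :: suf).length := by
      intro i hi
      by_contra hcon
      rw [List.getD_eq_default _ _ (not_lt.1 hcon)] at hi
      exact absurd hi (by simp)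
    cases b with
    | true =>
      refine scan_sound n (cnt + 1) (true :: suf) ?_ (by simp [hc]) pre' hp' hm hN hw
      rcases h.1 with (h3 | h3) | h3
      · exfalso
        have h5 := hsuf o
        rw [h3] at h5
        have h6 := hlt _ h5
        have h4 := hN n (by omega) hb
        rw [Nat.mod_eq_of_lt (by omega), show n + o + 1 = n + 1 + o by omega, h5] at h4
        exact absurd h4 (by simp)
      · exfalso
        have h5 := hsuf m
        rw [h3.2] at h5
        have h6 := hlt _ h5
        have h4 := hN _ h6 h5
        have h7 : (n + 1 + m + o + 1) % (pre' ++ true :: suf).length = n := by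
          rw [← hm, show n + 1 + m + o + 1 = n + (m + o + 2) by omega, Nat.add_mod_right]
          exact Nat.mod_eq_of_lt (by omega)
        rw [h7, hb] at h4
        exact absurd h4 (by simp)
      · exact h3
    | false =>
      exact scan_sound n cnt (false :: suf) h.2 (by simp [hc]) pre' hp' hm hN hw

theorem noDist_aux {M : Set V} (hM : ∀ a ∈ M, ∀ b ∈ M, a ≠ b → G.Adj a b)
    [DecidablePred (· ∈ M)] {C : List V} (hC : IsCyc G C) {k o : ℕ} (hlen : C.length = k + 1 + o)
    (hk : 2 ≤ k) (hno : ¬ HasCyc G (k + 1)) (p : ℕ)
    (hp : (C.map fun v => decide (v ∈ M)).getD p false = true)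
    (hq : (C.map fun v => decide (v ∈ M)).getD (p + o + 1) false = true) : False := by
  have hlt2 : p + o + 1 < C.length := by
    by_contra hge
    rw [List.getD_eq_default _ _ (by simpa using hge)] at hq
    exact absurd hq (by simp)
  have hlt1 : p < C.length := by omega
  have hpM : C[p] ∈ M := by
    rw [List.getD_eq_getElem _ _ (by simpa using hlt1)] at hp
    simpa using hp
  have hqM : C[p + o + 1] ∈ M := by
    rw [List.getD_eq_getElem _ _ (by simpa using hlt2)] at hq
    simpa using hq
  have hdec : C = C.take (p + 1) ++ (C.drop (p + 1)).take o ++ C.drop (p + o + 1) := by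
    have h1 : C.drop (p + o + 1) = (C.drop (p + 1)).drop o := by
      rw [List.drop_drop]; congr 1; omega
    rw [h1, List.append_assoc, List.take_append_drop, List.take_append_drop]
  have hA : C.take (p + 1) ≠ [] := by
    intro h0
    have := congrArg List.length h0
    rw [List.length_take, List.length_nil] at this
    omega
  have hB : C.drop (p + o + 1) ≠ [] := by
    intro h0
    have := congrArg List.length h0
    rw [List.length_drop, List.length_nil] at this
    omega
  have hne : C[p] ≠ C[p + o + 1] := by
    intro h0
    have := (List.Nodup.getElem_inj_iff hC.nodup).1 h0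
    omega
  rw [hdec] at hC
  have hcyc := hC.shortcut hA hB (by
    have e1 : (C.take (p + 1)).getLast hA = C[p] := by
      rw [List.getLast_eq_getElem]
      simp [Nat.min_eq_left (by omega : p + 1 ≤ C.length)]
    have e2 : (C.drop (p + o + 1)).head hB = C[p + o + 1] := by
      rw [List.head_drop]
    rw [e1, e2]
    exact hM _ hpM _ hqM hne)
  refine hno (hcyc.hasCyc' ?_ (by omega))
  rw [List.length_append, List.length_take, List.length_drop]
  omega

theorem noDist_of {M : Set V} (hM : ∀ a ∈ M, ∀ b ∈ M, a ≠ b → G.Adj a b)
    [DecidablePred (· ∈ M)] {C : List V} (hC : IsCyc G C) {k o : ℕ} (hlen : C.length = k + 1 + o)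
    (hk : 2 ≤ k) (hno : ¬ HasCyc G (k + 1)) : NoDist o (C.map fun v => decide (v ∈ M)) := by
  intro p hp hpt
  rw [List.length_map] at hp ⊢
  by_contra hcon
  have hq : (C.map fun v => decide (v ∈ M)).getD ((p + o + 1) % C.length) false = true := by
    simpa using hcon
  have hrot : IsCyc G (C.rotate p) := by
    rw [List.rotate_eq_drop_append_take_mod]
    refine IsCyc.rotate_append ?_
    rw [List.take_append_drop]
    exact hC
  have hpos : 0 < C.length := by omega
  refine noDist_aux hM hrot (k := k) (o := o) (by rw [List.length_rotate]; exact hlen) hk hno 0 ?_ ?_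
  · rw [List.getD_eq_getElem _ _ (by simpa using hp)] at hpt
    rw [List.getD_eq_getElem _ _ (by simpa using hpos)]
    simp only [List.getElem_map, List.getElem_rotate, zero_add, Nat.mod_eq_of_lt hp] at hpt ⊢
    exact hpt
  · rw [List.getD_eq_getElem _ _ (by simpa using Nat.mod_lt _ hpos)] at hq
    rw [List.getD_eq_getElem _ _ (by simp; omega)]
    simp only [List.getElem_map, List.getElem_rotate] at hq ⊢
    have : (0 + o + 1 + p) % C.length = (p + o + 1) % C.length := by congr 1; omega
    simp only [this]
    exact hq

/-- the main lemma: patterns from a successful scan -/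
theorem classify_of_scan {M : Set V} (hM : ∀ a ∈ M, ∀ b ∈ M, a ≠ b → G.Adj a b)
    [DecidablePred (· ∈ M)] {C : List V} (hC : IsCyc G C) {k o w : ℕ} {T : List (List Bool)}
    (hlen : C.length = k + 1 + o) (hk : 2 ≤ k)
    (hw : (C.map fun v => decide (v ∈ M)).count true = w)
    (hw0 : 0 < w) (hscan : scan w o (k - 1) (leafOK o T) (k + o) 1 [true] = true) :
    HasCyc G (k + 1) ∨ ∃ cs : List V, IsCyc G cs ∧ cs.Perm C ∧
      (cs.map fun v => decide (v ∈ M)) ∈ T := by
  by_cases hno : HasCyc G (k + 1)
  · exact Or.inl hno
  right
  -- rotate so that the last vertex lies in `M`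
  obtain ⟨B, x, hx, hBC, hBcyc⟩ : ∃ (B : List V) (x : V), x ∈ M ∧ (B ++ [x]).Perm C ∧
      IsCyc G (B ++ [x]) := by
    have h1 : true ∈ (C.map fun v => decide (v ∈ M)) := by
      rw [← List.count_pos_iff, hw]; exact hw0
    obtain ⟨x, hxC, hx⟩ := List.mem_map.1 h1
    obtain ⟨A, B, hAB⟩ := List.append_of_mem hxC
    have e : C = (A ++ [x]) ++ B := by rw [hAB]; simp
    refine ⟨B ++ A, x, by simpa using hx, ?_, ?_⟩
    · rw [e, List.append_assoc]
      exact List.perm_append_comm
    · rw [List.append_assoc]
      exact IsCyc.rotate_append (e ▸ hC)
  have hlen' : (B ++ [x]).length = k + 1 + o := by rw [hBC.length_eq]; exact hlen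
  have hBlen : B.length = k + o := by simp at hlen'; omega
  have hmap : ((B ++ [x]).map fun v => decide (v ∈ M)) =
      (B.map fun v => decide (v ∈ M)) ++ [true] := by simp [hx]
  have hw' : ((B ++ [x]).map fun v => decide (v ∈ M)).count true = w := by
    rw [← hw]; exact (hBC.map _).count_eq _
  have hN := noDist_of hM hBcyc hlen' hk hno
  rw [hmap] at hw' hN
  have hleaf := scan_sound (k + o) 1 [true] hscan (by simp) (B.map fun v => decide (v ∈ M))
    (by simpa using hBlen) (by simp; omega) hN hw'
  rw [← hmap] at hleaf
  clear hN hw' hmap
  suffices H : ∃ cs : List V, IsCyc G cs ∧ cs.Perm (B ++ [x]) ∧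
      (cs.map fun v => decide (v ∈ M)) ∈ T by
    obtain ⟨cs, h1, h2, h3⟩ := H
    exact ⟨cs, h1, h2.trans hBC, h3⟩
  generalize B ++ [x] = C at hBcyc hlen' hleaf ⊢
  clear hC
  have hC := hBcyc
  unfold leafOK at hleaf
  rw [Bool.or_eq_true] at hleaf
  rcases hleaf with h | h
  · exfalso
    obtain ⟨D, -, hD⟩ := List.any_eq_true.1 h
    simp only [Bool.and_eq_true, beq_iff_eq] at hD
    obtain ⟨⟨⟨h1, h2⟩, h3⟩, h4⟩ := hD
    have h3' : D.length = C.length := by simpa using h3
    have h5 : D.count false = k + 1 := by
      have := List.count_false_add_count_true D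
      omega
    obtain ⟨g1, g2, -⟩ := hC.deleteMask hM h3' h1 h2 (by omega)
    exact hno (g1.hasCyc' (g2.trans h5) (by omega))
  · obtain ⟨t, ht, h⟩ := List.any_eq_true.1 h
    obtain ⟨n, -, h⟩ := List.any_eq_true.1 h
    rw [Bool.or_eq_true, beq_iff_eq, beq_iff_eq] at h
    have hrot : ∀ C' : List V, IsCyc G C' → IsCyc G (C'.rotate n) := by
      intro C' hC'
      rw [List.rotate_eq_drop_append_take_mod]
      refine IsCyc.rotate_append ?_
      rw [List.take_append_drop]
      exact hC'
    rcases h with h | h
    · refine ⟨C.rotate n, hrot C hC, List.rotate_perm C n, ?_⟩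
      rw [List.map_rotate, h]
      exact ht
    · refine ⟨C.reverse.rotate n, hrot _ hC.reverse,
        (List.rotate_perm _ n).trans (List.reverse_perm C), ?_⟩
      rw [List.map_rotate, List.map_reverse, h]
      exact ht

/-! ### The classification -/

/-- the surviving patterns (`X3 … X11` of `PatData`), `o` = overshoot -/
def templates : ℕ → ℕ → ℕ → List (List Bool)
  | 8, 5, 2 => [[true, true, true, false, false, false, true, true, false, false, false]]
  | 9, 5, 2 => [[true, true, true, false, false, false, true, true, false, false, false, false]]
  | 13, 7, 2 => [[true, true, true, false, false, false, true, true, false, false, false, true,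
      true, false, false, false]]
  | 9, 5, 3 => [
      [true, true, true, true, false, false, false, false, true, false, false, false, false],
      [true, true, true, false, false, false, false, true, true, false, false, false, false]]
  | 10, 6, 3 => [
      [true, true, true, true, false, false, false, false, true, true, false, false, false, false],
      [true, true, true, false, false, false, false, true, true, true, false, false, false, false]]
  | 11, 6, 3 => [
      [true, true, true, true, false, false, false, false, true, true, false, false, false, false,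
        false],
      [true, true, true, false, false, false, false, true, true, true, false, false, false, false,
        false]]
  | _, _, _ => []

theorem scan_all : ∀ w ∈ [5, 6, 7], ∀ k ∈ List.range 14, w < k → k + 1 ≤ 2 * w → ∀ o ∈ [2, 3],
    scan w o (k - 1) (leafOK o (templates k w o)) (k + o) 1 [true] = true := by
  decide +kernel

theorem count_map_mem [DecidableEq V] {M : Finset V} {C : List V} (hnd : C.Nodup)
    (hMC : ∀ x ∈ M, x ∈ C) : (C.map fun v => decide (v ∈ M)).count true = M.card := by
  have h1 : (C.map fun v => decide (v ∈ M)).count true = (C.filter fun v => decide (v ∈ M)).length := by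
    rw [List.count, List.countP_map, List.countP_eq_length_filter]
    congr 1
    refine List.filter_congr fun x _ => ?_
    simp
  have h2 : (C.filter fun v => decide (v ∈ M)).toFinset = M := by
    ext x
    simp only [List.mem_toFinset, List.mem_filter, decide_eq_true_eq]
    exact ⟨fun h => h.2, fun h => ⟨hMC x h, h⟩⟩
  rw [h1, ← List.toFinset_card_of_nodup (hnd.filter _), h2]

/-- **Classification**: a cyclic list of length `k + 1 + o`, `o ∈ {2, 3}`, containing a clique `M`
with `5 ≤ |M| ≤ 7`, `|M| < k`, `k + 1 ≤ 2 |M|`, either produces a cycle of length `k + 1` or has (up to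
rotation and reflection) one of the patterns in `templates k |M| o`. -/
theorem classify [DecidableEq V] {M : Finset V}
    (hM : ∀ a ∈ M, ∀ b ∈ M, a ≠ b → G.Adj a b) {C : List V} (hC : IsCyc G C)
    (hMC : ∀ x ∈ M, x ∈ C) {k o : ℕ} (h5 : 5 ≤ M.card) (h7 : M.card ≤ 7) (hMk : M.card < k)
    (hk : k + 1 ≤ 2 * M.card) (ho : o = 2 ∨ o = 3) (hlen : C.length = k + 1 + o) :
    HasCyc G (k + 1) ∨ ∃ cs : List V, IsCyc G cs ∧ cs.Perm C ∧
      (cs.map fun x => decide (x ∈ M)) ∈ templates k M.card o := by
  have hscan := scan_all M.card (by
      have : M.card = 5 ∨ M.card = 6 ∨ M.card = 7 := by omega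
      simpa using this) k (List.mem_range.2 (by omega)) hMk hk o (by simpa using ho)
  exact classify_of_scan (M := (M : Set V)) (fun a ha b hb => hM a ha b hb) hC hlen (by omega)
    (by simpa using count_map_mem hC.nodup hMC) (by omega) hscan

end Crest.Agent.R054
private theorem rz_c5d7da2882 : type_of% @_root_.Crest.Agent.R054.keepList.eq_def := @_root_.Crest.Agent.R054.keepList.eq_def -- L22
private theorem rz_357701480c : type_of% @_root_.Crest.Agent.R054.keepList.eq_1 := @_root_.Crest.Agent.R054.keepList.eq_1 -- L22
private theorem rz_1b916d2f48 : type_of% @_root_.Crest.Agent.R054.scan.eq_def := @_root_.Crest.Agent.R054.scan.eq_def -- L224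
private theorem rz_5b4aa21e3c : type_of% @_root_.Crest.Agent.R054.validLin.eq_def := @_root_.Crest.Agent.R054.validLin.eq_def -- L27
private theorem rz_e93d262bc6 : type_of% @_root_.Crest.Agent.R054.validLin.eq_1 := @_root_.Crest.Agent.R054.validLin.eq_1 -- L27
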