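import Crest.Agent.R054.Balls
import Crest.Agent.R054.Cyc

-- ▼ part R054/ThmASetup
section

/-!
# R054 / ThmASetup : maximal M-cycles exist, exclusion of `K_k`
-/

set_option autoImplicit false

open Finset

set_option linter.unusedSectionVars false

namespace Crest.Agent.R054

universe u

variable {V : Type u} [Fintype V] [DecidableEq V] {G : SimpleGraph V} {k : ℕ}

/-- A clique is the vertex set of a (cyclic) list. -/
theorem exists_isCyc_clique {M : Finset V} (hM : ∀ a ∈ M, ∀ b ∈ M, a ≠ b → G.Adj a b)
    (h2 : 2 ≤ M.card) : ∃ L : List V, IsCyc G L ∧ L.length = M.card ∧ ∀ x, x ∈ L ↔ x ∈ M := by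
  obtain ⟨L, hL, hlen, -, hsub⟩ := exists_isCyc_of_blocks (G := G) hM [] (by simp) (by simp)
    (n := M.card) (by simp) (by simp) h2
  refine ⟨L, hL, hlen, ?_⟩
  have hs : L.toFinset ⊆ M := by
    intro x hx
    have := hsub x (List.mem_toFinset.1 hx)
    simpa using this
  have he : L.toFinset = M := by
    apply eq_of_subset_of_card_le hs
    rw [List.toFinset_card_of_nodup hL.nodup, hlen]
  intro x
  rw [← he, List.mem_toFinset]

/-- Existence of a maximum clique. -/
theorem exists_max_clique (G : SimpleGraph V) : ∃ M : Finset V,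
    (∀ a ∈ M, ∀ b ∈ M, a ≠ b → G.Adj a b) ∧
      ∀ K : Finset V, (∀ a ∈ K, ∀ b ∈ K, a ≠ b → G.Adj a b) → K.card ≤ M.card := by
  classical
  let S : Finset (Finset V) := univ.filter (fun K => ∀ a ∈ K, ∀ b ∈ K, a ≠ b → G.Adj a b)
  have hne : S.Nonempty := ⟨∅, by simp [S]⟩
  obtain ⟨M, hM, hmax⟩ := S.exists_max_image card hne
  exact ⟨M, (mem_filter.1 hM).2, fun K hK => hmax K (mem_filter.2 ⟨mem_univ _, hK⟩)⟩

/-- Existence of a maximal M-cycle of length at most `k`. -/
theorem MinCE.exists_maxCyc (h : MinCE k G) {M : Finset V}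
    (hM : ∀ a ∈ M, ∀ b ∈ M, a ≠ b → G.Adj a b)
    (hmaxM : ∀ K : Finset V, (∀ a ∈ K, ∀ b ∈ K, a ≠ b → G.Adj a b) → K.card ≤ M.card)
    (h2 : 2 ≤ M.card) (hMk : M.card ≤ k) : ∃ C, MaxCyc k G M C := by
  classical
  obtain ⟨L, hL, hLl, hLm⟩ := exists_isCyc_clique hM h2
  let p : ℕ → Prop := fun n => ∃ C, IsCyc G C ∧ (∀ a ∈ M, a ∈ C) ∧ C.length = n
  have hp : p M.card := ⟨L, hL, fun a ha => (hLm a).2 ha, hLl⟩
  obtain ⟨C, hC, hMC, hCl⟩ := Nat.findGreatest_spec (P := p) hMk hp
  refine ⟨C, h.proper, h.card_eq, h.alp_le, h.free, by have := h.hk; omega, hM, hmaxM, hC, hMC, ?_, ?_⟩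
  · rw [hCl]; exact Nat.findGreatest_le k
  · intro C' hC' hMC' hl
    rw [hCl]
    exact Nat.le_findGreatest hl ⟨C', hC', hMC', rfl⟩

/-- An outside path joining two different clique vertices: all lengths. -/
theorem hasCyc_of_ear {M : Finset V} (hM : ∀ a ∈ M, ∀ b ∈ M, a ≠ b → G.Adj a b) {u w : V}
    (hu : u ∈ M) (hw : w ∈ M) (huw : u ≠ w) {Q : List V} (hQ : IsPth G Q) (hQn : Q ≠ [])
    (hd : ∀ x ∈ Q, x ∉ M) (h1 : G.Adj u (Q.head hQn)) (h2 : G.Adj (Q.getLast hQn) w) {n : ℕ}
    (hn1 : Q.length + 2 ≤ n) (hn2 : n ≤ Q.length + M.card) : HasCyc G n := by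
  have hP : IsPth G ([u] ++ (Q ++ [w])) := by
    rw [isPth_append, isPth_append]
    refine ⟨isPth_singleton u, ⟨hQ, isPth_singleton w, ?_, ?_⟩, ?_, ?_⟩
    · intro x hx hx'
      rw [List.mem_singleton] at hx'
      subst hx'
      exact hd x hx hw
    · intro x hx y hy
      rw [List.getLast?_eq_getLast_of_ne_nil hQn] at hx
      simp only [Option.mem_def, Option.some.injEq, List.head?_cons] at hx hy
      subst hx; subst hy; exact h2
    · intro x hx hx'
      rw [List.mem_singleton] at hx
      subst hx
      rcases List.mem_append.1 hx' with hx' | hx'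
      · exact hd x hx' hu
      · rw [List.mem_singleton] at hx'; exact huw hx'
    · intro x hx y hy
      rw [List.head?_append_of_ne_nil _ hQn, List.head?_eq_some_head hQn] at hy
      simp only [List.getLast?_singleton, Option.mem_def, Option.some.injEq] at hx hy
      subst hx; subst hy; exact h1
  have hlen : ([u] ++ (Q ++ [w])).length = Q.length + 2 := by
    simp only [List.length_append, List.length_cons, List.length_nil]; omega
  have hQpos : 0 < Q.length := List.length_pos_iff.2 hQn
  refine hasCyc_of_blocks hM [[u] ++ (Q ++ [w])] ?_ ?_ (n := n) ?_ ?_ (by omega)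
  · intro b hb
    rw [List.mem_singleton] at hb
    subst hb
    refine ⟨hP.2, ?_, ?_⟩
    · intro a ha
      simp only [List.cons_append, List.head?_cons, Option.mem_def, Option.some.injEq] at ha
      subst ha; exact hu
    · intro a ha
      rw [← List.append_assoc, List.getLast?_append_of_ne_nil _ (by simp)] at ha
      simp only [List.getLast?_singleton, Option.mem_def, Option.some.injEq] at ha
      subst ha; exact hw
  · simpa using hP.1
  · simp only [List.flatten_cons, List.flatten_nil, List.append_nil]
    omega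
  · simp only [List.flatten_cons, List.flatten_nil, List.append_nil]
    have : M ∩ ([u] ++ (Q ++ [w])).toFinset ⊆ {u, w} := by
      intro x hx
      rw [mem_inter, List.mem_toFinset] at hx
      simp only [List.mem_append, List.mem_singleton] at hx
      rw [mem_insert, mem_singleton]
      rcases hx.2 with h' | h' | h'
      · exact Or.inl h'
      · exact absurd hx.1 (hd x h')
      · exact Or.inr h'
    have h3 := card_le_card this
    have h4 : ({u, w} : Finset V).card ≤ 2 := card_le_two
    have h5 := card_sdiff_add_card_inter M ([u] ++ (Q ++ [w])).toFinset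
    omega

/-- There is no `K_k` in a minimal counterexample (`k ≥ 4`). -/
theorem MinCE.no_clique_k (h : MinCE k G) (hk : 4 ≤ k) {M : Finset V}
    (hM : ∀ a ∈ M, ∀ b ∈ M, a ≠ b → G.Adj a b) (hMk : M.card = k) : False := by
  classical
  obtain ⟨I, hI, hIc, hIav⟩ := exists_max_indep_avoid h.proper h.card_eq M (by omega)
  have hex : ∀ u ∈ M, ∃ x ∈ I, G.Adj u x := fun u hu =>
    exists_adj_of_max hI hIc (fun hh => hIav u hh hu)
  choose! f hf using hex
  have hone : ∀ x, x ∉ M → ∀ u ∈ M, ∀ w ∈ M, u ≠ w → G.Adj u x → G.Adj w x → False := by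
    intro x hx u hu w hw huw h1 h2
    exact h.free (hasCyc_of_ear hM hu hw huw (Q := [x]) (isPth_singleton x) (by simp)
      (by simpa using hx) (by simpa using h1) (by simpa using h2.symm) (by simp; omega)
      (by simp; omega))
  have hinj : ∀ u ∈ M, ∀ w ∈ M, u ≠ w → f u ≠ f w := by
    intro u hu w hw huw he
    exact hone (f u) (hIav _ (hf u hu).1) u hu w hw huw (hf u hu).2 (he ▸ (hf w hw).2)
  have hdisj : ∀ u ∈ M, ∀ w ∈ M, u ≠ w → Disjoint (nbC G {f u}) (nbC G {f w}) := by
    intro u hu w hw huw
    rw [disjoint_left]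
    intro y hy1 hy2
    rw [mem_nbC_singleton] at hy1 hy2
    have hnadj := hI _ (hf u hu).1 _ (hf w hw).1
    rcases hy1 with rfl | hy1
    · rcases hy2 with hy2 | hy2
      · exact hinj u hu w hw huw hy2
      · exact hnadj hy2.symm
    · rcases hy2 with rfl | hy2
      · exact hnadj hy1
      · by_cases hyM : y ∈ M
        · have h1 : y = u := by
            by_contra hne
            exact hone _ (hIav _ (hf u hu).1) y hyM u hu hne hy1.symm (hf u hu).2
          have h2 : y = w := by
            by_contra hne
            exact hone _ (hIav _ (hf w hw).1) y hyM w hw hne hy2.symm (hf w hw).2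
          exact huw (h1.symm.trans h2)
        · refine h.free (hasCyc_of_ear hM hu hw huw (Q := [f u, y, f w]) ⟨?_, ?_⟩ (by simp) ?_
            (by simpa using (hf u hu).2) (by simpa using (hf w hw).2.symm) (by simp; omega)
            (by simp; omega))
          · simp only [List.nodup_cons, List.mem_cons, List.not_mem_nil, or_false, not_or,
              not_false_eq_true, List.nodup_nil, and_true]
            exact ⟨⟨hy1.ne, hinj u hu w hw huw⟩, hy2.ne'⟩
          · simp only [List.isChain_cons_cons, List.isChain_singleton, and_true]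
            exact ⟨hy1, hy2.symm⟩
          · intro z hz
            simp only [List.mem_cons, List.not_mem_nil, or_false] at hz
            rcases hz with rfl | rfl | rfl
            · exact hIav _ (hf u hu).1
            · exact hyM
            · exact hIav _ (hf w hw).1
  have h1 : (M.biUnion (fun u => nbC G {f u})).card = ∑ u ∈ M, (nbC G {f u}).card := by
    apply card_biUnion
    intro u hu w hw huw
    exact hdisj u hu w hw huw
  have h2 : ∑ u ∈ M, (k + 1) ≤ ∑ u ∈ M, (nbC G {f u}).card :=
    sum_le_sum fun u _ => card_nbC_singleton_ge h.proper h.card_eq (f u)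
  rw [sum_const, smul_eq_mul, hMk, ← h1] at h2
  have h3 := card_le_univ (M.biUnion (fun u => nbC G {f u}))
  have h4 := h.card_eq
  have h5 : k * alp G univ ≤ k * k := Nat.mul_le_mul_left k h.alp_le
  have h6 : k * (k + 1) = k * k + k := by ring
  omega

end Crest.Agent.R054
end

-- ▼ part R054/Drop

/-!
# R054 : deleting vertices from a cycle through a clique (Drop lemma)
-/

set_option autoImplicit false

namespace Crest.Agent.R054

open Finset

section ListDel

variable {α : Type*}

/-- filtering a chain -/
theorem chain_filter_head {R : α → α → Prop} {M : α → Prop} (D : α → Bool)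
    (hM : ∀ x y, M x → M y → x ≠ y → R x y) :
    ∀ L : List α, L.Nodup →
      L.IsChain (fun x y => R x y ∧ (D x = true → D y = false → M y) ∧
        (D x = false → D y = true → M x)) →
      (L.filter (fun x => !D x)).IsChain R ∧
      (∀ x ∈ L.head?, D x = true → ∀ y ∈ (L.filter (fun x => !D x)).head?, M y) := by
  intro L
  induction L with
  | nil => intro _ _; simp
  | cons x L ih =>
    intro hnd hch
    have hnd' := (List.nodup_cons.1 hnd)
    have hch' : L.IsChain _ := hch.tail
    obtain ⟨ih1, ih2⟩ := ih hnd'.2 hch'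
    by_cases hx : D x = true
    · rw [List.filter_cons_of_neg (by simp [hx])]
      refine ⟨ih1, ?_⟩
      intro x' hx' _ y hy
      match L, hch, ih2, hy with
      | [], _, _, hy => simp at hy
      | z :: L', hch, ih2, hy =>
        rw [List.isChain_cons_cons] at hch
        by_cases hz : D z = true
        · exact ih2 z (by simp) hz y hy
        · have hz' : D z = false := by simpa using hz
          rw [List.filter_cons_of_pos (by simp [hz'])] at hy
          simp only [List.head?_cons, Option.mem_def, Option.some.injEq] at hy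
          subst hy
          exact hch.1.2.1 hx hz'
    · have hx' : D x = false := by simpa using hx
      rw [List.filter_cons_of_pos (by simp [hx'])]
      refine ⟨?_, ?_⟩
      · match hf : L.filter (fun x => !D x) with
        | [] => simp
        | y :: l =>
          rw [List.isChain_cons_cons]
          rw [hf] at ih1
          refine ⟨?_, ih1⟩
          match L, hch, ih2, hf, hnd' with
          | [], _, _, hf, _ => simp at hf
          | z :: L', hch, ih2, hf, hnd' =>
            rw [List.isChain_cons_cons] at hch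
            by_cases hz : D z = true
            · have h1 := hch.1.2.2 hx' hz
              have h2 := ih2 z (by simp) hz y (by rw [hf]; simp)
              refine hM x y h1 h2 ?_
              rintro rfl
              have : x ∈ (z :: L').filter (fun x => !D x) := by rw [hf]; simp
              exact hnd'.1 (List.mem_of_mem_filter this)
            · have hz' : D z = false := by simpa using hz
              rw [List.filter_cons_of_pos (by simp [hz'])] at hf
              simp only [List.cons.injEq] at hf
              rw [← hf.1]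
              exact hch.1.1
      · intro x' hx'' hDx'
        simp only [List.head?_cons, Option.mem_def, Option.some.injEq] at hx''
        subst hx''
        rw [hx'] at hDx'
        exact absurd hDx' (by simp)

theorem chain_filter_last {R : α → α → Prop} {M : α → Prop} (D : α → Bool)
    (hR : ∀ x y, R x y → R y x)
    (hM : ∀ x y, M x → M y → x ≠ y → R x y) (L : List α) (hnd : L.Nodup)
    (hch : L.IsChain (fun x y => R x y ∧ (D x = true → D y = false → M y) ∧
        (D x = false → D y = true → M x))) :
      (∀ x ∈ L.getLast?, D x = true → ∀ y ∈ (L.filter (fun x => !D x)).getLast?, M y) := by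
  have h := (chain_filter_head D hM L.reverse (List.nodup_reverse.2 hnd) (by
    rw [List.isChain_reverse]
    exact hch.imp (fun a b hab => ⟨hR _ _ hab.1, fun h1 h2 => hab.2.2 h2 h1,
      fun h1 h2 => hab.2.1 h2 h1⟩))).2
  rw [List.head?_reverse, List.filter_reverse, List.head?_reverse] at h
  exact h

end ListDel

variable {V : Type*} {G : SimpleGraph V}

/-- Deleting a set `D` of vertices from a cyclic list, where all cyclic neighbours of `D` outside `D`
are in a clique. -/
theorem IsCyc.delete {M : V → Prop} (hM : ∀ x y, M x → M y → x ≠ y → G.Adj x y) (D : V → Bool)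
    {L : List V} (h : IsCyc G L)
    (hD : L.IsChain (fun x y => (D x = true → D y = false → M y) ∧
        (D x = false → D y = true → M x)))
    (hD' : ∀ x ∈ L.getLast?, ∀ y ∈ L.head?, (D x = true → D y = false → M y) ∧
        (D x = false → D y = true → M x))
    (h2 : 2 ≤ (L.filter (fun x => !D x)).length) :
    IsCyc G (L.filter (fun x => !D x)) := by
  obtain ⟨hnd, hch, hcl⟩ := h
  have hch2 : L.IsChain (fun x y => G.Adj x y ∧ (D x = true → D y = false → M y) ∧
        (D x = false → D y = true → M x)) := by
    rw [List.isChain_iff_getElem] at hch hD ⊢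
    intro i hi
    exact ⟨hch i hi, hD i hi⟩
  obtain ⟨hA, hB⟩ := chain_filter_head D hM L hnd hch2
  have hC := chain_filter_last D (fun x y h => h.symm) hM L hnd hch2
  refine ⟨hnd.filter _, hA, ?_⟩
  intro a ha b hb
  have hne : L ≠ [] := by rintro rfl; simp at h2
  have hab : a ≠ b := by
    rintro rfl
    match hf : L.filter (fun x => !D x), h2 with
    | x :: y :: l, _ =>
      rw [hf] at ha hb
      have hnd2 : (x :: y :: l).Nodup := by rw [← hf]; exact hnd.filter _
      simp only [List.head?_cons, Option.mem_def, Option.some.injEq] at hb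
      subst hb
      rw [List.getLast?_cons_of_ne_nil (by simp)] at ha
      exact (List.nodup_cons.1 hnd2).1 (List.mem_of_getLast? ha)
  have hlast : L.getLast hne ∈ L.getLast? := by
    rw [List.getLast?_eq_getLast_of_ne_nil hne]; simp
  have hhead : L.head hne ∈ L.head? := by rw [List.head?_eq_some_head hne]; simp
  have key := hD' _ hlast _ hhead
  by_cases h1 : D (L.head hne) = true
  · have hMb : M b := hB _ hhead h1 b hb
    by_cases h3 : D (L.getLast hne) = true
    · exact hM a b (hC _ hlast h3 a ha) hMb hab
    · have h3' : D (L.getLast hne) = false := by simpa using h3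
      have : a = L.getLast hne := by
        have hL : L = L.dropLast ++ [L.getLast hne] := (List.dropLast_append_getLast hne).symm
        rw [hL, List.filter_append] at ha
        simp only [List.filter_cons, List.filter_nil, h3', Bool.not_false, if_true] at ha
        rw [List.getLast?_append] at ha
        simp at ha
        exact ha.symm
      exact hM a b (this ▸ key.2 h3' h1) hMb hab
  · have h1' : D (L.head hne) = false := by simpa using h1
    have hbh : b = L.head hne := by
      have hL : L = L.head hne :: L.tail := (List.cons_head_tail hne).symm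
      rw [hL, List.filter_cons_of_pos (by simp [h1'])] at hb
      simp only [List.head?_cons, Option.mem_def, Option.some.injEq] at hb
      exact hb.symm
    by_cases h3 : D (L.getLast hne) = true
    · exact hM a b (hC _ hlast h3 a ha) (hbh ▸ key.1 h3 h1') hab
    · have h3' : D (L.getLast hne) = false := by simpa using h3
      have : a = L.getLast hne := by
        have hL : L = L.dropLast ++ [L.getLast hne] := (List.dropLast_append_getLast hne).symm
        rw [hL, List.filter_append] at ha
        simp only [List.filter_cons, List.filter_nil, h3', Bool.not_false, if_true] at ha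
        rw [List.getLast?_append] at ha
        simp at ha
        exact ha.symm
      rw [this, hbh]
      exact hcl _ hlast _ hhead

/-! ### Cyclic positions -/

section Positions

variable {n : ℕ}

/-- cyclic list from a function on `ZMod n` -/
theorem isCyc_of_zmod [NeZero n] {c : ZMod n → V} (hinj : Function.Injective c)
    (hadj : ∀ i, G.Adj (c i) (c (i + 1))) :
    IsCyc G ((List.range n).map (fun i : ℕ => c (i : ZMod n))) := by
  have hn : 0 < n := Nat.pos_of_ne_zero (NeZero.ne n)
  refine ⟨?_, ?_, ?_⟩
  · rw [List.nodup_map_iff_inj_on List.nodup_range]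
    intro i hi j hj hij
    rw [List.mem_range] at hi hj
    have h1 := hinj hij
    have h2 := congrArg ZMod.val h1
    rwa [ZMod.val_natCast_of_lt hi, ZMod.val_natCast_of_lt hj] at h2
  · rw [List.isChain_map, List.isChain_iff_getElem]
    intro i hi
    simp only [List.getElem_range]
    have := hadj (i : ZMod n)
    push_cast
    exact this
  · intro a ha b hb
    obtain ⟨m, rfl⟩ : ∃ m, n = m + 1 := ⟨n - 1, by omega⟩
    have ha' : a = c (m : ZMod (m + 1)) := by
      rw [List.range_succ, List.map_append, List.getLast?_append] at ha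
      simp at ha
      exact ha.symm
    have hb' : b = c 0 := by
      simp [List.range_succ_eq_map] at hb
      exact hb.symm
    rw [ha', hb']
    have := hadj (m : ZMod (m + 1))
    have e : (m : ZMod (m + 1)) + 1 = 0 := by
      have : ((m + 1 : ℕ) : ZMod (m + 1)) = 0 := ZMod.natCast_self _
      push_cast at this
      exact this
    rwa [e] at this

theorem mem_zmod_list [NeZero n] {c : ZMod n → V} {v : V} :
    v ∈ ((List.range n).map (fun i : ℕ => c (i : ZMod n))) ↔ ∃ i, c i = v := by
  simp only [List.mem_map, List.mem_range]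
  constructor
  · rintro ⟨a, _, h⟩; exact ⟨_, h⟩
  · rintro ⟨i, h⟩
    exact ⟨i.val, ZMod.val_lt i, by rw [ZMod.natCast_zmod_val]; exact h⟩

/-- function on `ZMod n` from a cyclic list of length `n` -/
theorem IsCyc.exists_zmod [NeZero n] {L : List V} (h : IsCyc G L) (hn : L.length = n) :
    ∃ c : ZMod n → V, Function.Injective c ∧ (∀ i, G.Adj (c i) (c (i + 1))) ∧
      (∀ i, c i = L[i.val]'(by rw [hn]; exact ZMod.val_lt i)) ∧ ∀ v, v ∈ L ↔ ∃ i, c i = v := by
  obtain ⟨hnd, hch, hcl⟩ := h
  have hn0 : 0 < n := Nat.pos_of_ne_zero (NeZero.ne n)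
  have hne : L ≠ [] := by rintro rfl; simp at hn; omega
  refine ⟨fun i => L[i.val]'(by rw [hn]; exact ZMod.val_lt i), ?_, ?_, fun i => rfl, ?_⟩
  · intro i j hij
    exact ZMod.val_injective n ((List.Nodup.getElem_inj_iff hnd).1 hij)
  · intro i
    have hi := ZMod.val_lt i
    rw [List.isChain_iff_getElem] at hch
    by_cases hlast : i.val + 1 < n
    · have e : (i + 1).val = i.val + 1 := by
        have h1 : i = ((i.val : ℕ) : ZMod n) := (ZMod.natCast_zmod_val i).symm
        have h2 : i + 1 = ((i.val + 1 : ℕ) : ZMod n) := by push_cast; rw [← h1]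
        rw [h2, ZMod.val_natCast_of_lt hlast]
      have := hch i.val (by omega)
      simp only [e]
      exact this
    · have e : (i + 1).val = 0 := by
        have h1 : i = ((i.val : ℕ) : ZMod n) := (ZMod.natCast_zmod_val i).symm
        have h3 : i.val + 1 = n := by omega
        have h2 : i + 1 = ((i.val + 1 : ℕ) : ZMod n) := by push_cast; rw [← h1]
        rw [h2, h3, ZMod.natCast_self, ZMod.val_zero]
      simp only [e]
      have e2 : i.val = L.length - 1 := by omega
      simp only [e2]
      refine hcl _ ?_ _ ?_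
      · rw [List.getLast?_eq_getLast_of_ne_nil hne, List.getLast_eq_getElem]; simp
      · rw [List.head?_eq_some_head hne, List.head_eq_getElem]; simp
  · intro v
    rw [List.mem_iff_getElem]
    constructor
    · rintro ⟨i, hi, rfl⟩
      refine ⟨(i : ZMod n), ?_⟩
      have : ((i : ZMod n)).val = i := ZMod.val_natCast_of_lt (by omega)
      simp only [this]
    · rintro ⟨i, rfl⟩
      exact ⟨i.val, by rw [hn]; exact ZMod.val_lt i, rfl⟩

/-- Deleting a set of positions. -/
theorem delete_positions [NeZero n] {c : ZMod n → V} (hinj : Function.Injective c)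
    (hadj : ∀ i, G.Adj (c i) (c (i + 1))) {M : V → Prop}
    (hM : ∀ x y, M x → M y → x ≠ y → G.Adj x y) (D : Finset (ZMod n))
    (hD : ∀ i, i ∉ D → (i + 1 ∈ D ∨ i - 1 ∈ D) → M (c i)) (h2 : 2 + D.card ≤ n) :
    ∃ L : List V, IsCyc G L ∧ L.length + D.card = n ∧ ∀ i, c i ∈ L ↔ i ∉ D := by
  classical
  have hn : 0 < n := Nat.pos_of_ne_zero (NeZero.ne n)
  set D' : V → Bool := fun v => decide (∃ i ∈ D, c i = v) with hD'
  have hDc : ∀ i, D' (c i) = true ↔ i ∈ D := by
    intro i
    simp only [hD', decide_eq_true_eq]
    constructor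
    · rintro ⟨j, hj, hji⟩; rwa [← hinj hji]
    · intro h; exact ⟨i, h, rfl⟩
  have hDc' : ∀ i, D' (c i) = false ↔ i ∉ D := by
    intro i
    rw [← hDc i]; simp
  set L := (List.range n).map (fun i : ℕ => c (i : ZMod n)) with hL
  have hcyc : IsCyc G L := isCyc_of_zmod hinj hadj
  have hmem : ∀ i, c i ∈ L := fun i => mem_zmod_list.2 ⟨i, rfl⟩
  have hmem' : ∀ i, c i ∈ L.filter (fun x => !D' x) ↔ i ∉ D := by
    intro i
    rw [List.mem_filter]
    simp [hmem i, hDc' i]
  have hlen : (L.filter (fun x => !D' x)).length + D.card = n := by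
    have h1 : (L.filter (fun x => !D' x)).toFinset = (univ \ D).image c := by
      ext v
      rw [List.mem_toFinset, mem_image]
      constructor
      · intro hv
        obtain ⟨i, rfl⟩ := mem_zmod_list.1 (List.mem_of_mem_filter hv)
        exact ⟨i, by simpa using (hmem' i).1 hv, rfl⟩
      · rintro ⟨i, hi, rfl⟩
        exact (hmem' i).2 (by simpa using hi)
    rw [← List.toFinset_card_of_nodup (hcyc.1.filter _), h1, card_image_of_injective _ hinj,
      card_sdiff_of_subset (subset_univ D), card_univ, ZMod.card]
    have : D.card ≤ n := by omega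
    omega
  refine ⟨L.filter (fun x => !D' x), ?_, hlen, hmem'⟩
  have hstep : ∀ i : ZMod n, (D' (c i) = true → D' (c (i + 1)) = false → M (c (i + 1))) ∧
      (D' (c i) = false → D' (c (i + 1)) = true → M (c i)) := by
    intro i
    rw [hDc, hDc', hDc', hDc]
    refine ⟨fun h1 h2 => hD _ h2 (Or.inr (by simpa using h1)), fun h1 h2 => hD _ h1 (Or.inl h2)⟩
  refine hcyc.delete hM D' ?_ ?_ (by omega)
  · rw [hL, List.isChain_map, List.isChain_iff_getElem]
    intro i hi
    simp only [List.getElem_range]
    have := hstep (i : ZMod n)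
    push_cast
    exact this
  · intro a ha b hb
    obtain ⟨m, rfl⟩ : ∃ m, n = m + 1 := ⟨n - 1, by omega⟩
    have ha' : a = c (m : ZMod (m + 1)) := by
      rw [hL, List.range_succ, List.map_append, List.getLast?_append] at ha
      simp at ha
      exact ha.symm
    have hb' : b = c 0 := by
      simp [hL, List.range_succ_eq_map] at hb
      exact hb.symm
    rw [ha', hb']
    have := hstep (m : ZMod (m + 1))
    have e : (m : ZMod (m + 1)) + 1 = 0 := by
      have : ((m + 1 : ℕ) : ZMod (m + 1)) = 0 := ZMod.natCast_self _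
      push_cast at this
      exact this
    rwa [e] at this

end Positions

/-! ### Shift counting -/

section Shift

variable {n : ℕ} [NeZero n]

/-- shifted set -/
def sh (X : Finset (ZMod n)) (a : ZMod n) : Finset (ZMod n) := univ.filter (fun i => i - a ∈ X)

theorem mem_sh {X : Finset (ZMod n)} {a i : ZMod n} : i ∈ sh X a ↔ i - a ∈ X := by
  simp [sh]

theorem card_sh (X : Finset (ZMod n)) (a : ZMod n) : (sh X a).card = X.card := by
  apply card_bij (fun i _ => i - a)
  · intro i hi; exact mem_sh.1 hi
  · intro i _ j _ hij; exact sub_left_injective hij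
  · intro j hj; exact ⟨j + a, mem_sh.2 (by simpa using hj), by simp⟩

theorem card_le_n (X : Finset (ZMod n)) : X.card ≤ n := by
  have := card_le_univ X
  rwa [ZMod.card] at this

/-- overshoot three -/
theorem shift_count3 {X : Finset (ZMod n)} (h4 : ∀ i ∈ X, i - 4 ∉ X)
    (hU : (X.filter (fun i => i - 2 ∈ X)).card ≤ 2) : 3 * X.card ≤ n + 4 := by
  set U := X.filter (fun i => i - 2 ∈ X) with hUdef
  have hB : (sh X 2 \ X).card = X.card - U.card := by
    have h1 : (sh X 2 \ X) = sh X 2 \ U := by
      ext i
      simp only [mem_sdiff, mem_sh, hUdef, mem_filter]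
      tauto
    rw [h1, card_sdiff_of_subset, card_sh]
    intro i hi
    rw [hUdef, mem_filter] at hi
    exact mem_sh.2 hi.2
  have hUX : U.card ≤ X.card := card_le_card (filter_subset _ _)
  have hAB : (sh X 4 ∩ (sh X 2 \ X)).card ≤ U.card := by
    rw [← card_sh U 2]
    apply card_le_card
    intro i hi
    simp only [mem_inter, mem_sdiff, mem_sh] at hi
    rw [mem_sh, hUdef, mem_filter]
    refine ⟨hi.2.1, ?_⟩
    have e : i - 2 - 2 = i - 4 := by ring
    rw [e]; exact hi.1
  have h1 := card_union_add_card_inter (sh X 4) (sh X 2 \ X)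
  rw [card_sh, hB] at h1
  have h2 : Disjoint X (sh X 4 ∪ (sh X 2 \ X)) := by
    rw [disjoint_left]
    intro i hi hi'
    rcases mem_union.1 hi' with h | h
    · exact h4 i hi (mem_sh.1 h)
    · exact (mem_sdiff.1 h).2 hi
  have h3 := card_le_n (X ∪ (sh X 4 ∪ (sh X 2 \ X)))
  rw [card_union_of_disjoint h2] at h3
  omega

theorem two_mul_card_Y {X : Finset (ZMod n)} :
    2 * (X.filter (fun i => i - 1 ∈ X)).card ≤ X.card + (X.filter (fun i => i - 2 ∈ X)).card := by
  set U := X.filter (fun i => i - 2 ∈ X) with hUdef
  set Y := X.filter (fun i => i - 1 ∈ X) with hYdef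
  have h1 := card_union_add_card_inter Y (sh Y (-1))
  rw [card_sh] at h1
  have h2 : (Y ∪ sh Y (-1)).card ≤ X.card := by
    apply card_le_card
    intro i hi
    rcases mem_union.1 hi with h | h
    · exact (mem_filter.1 h).1
    · rw [mem_sh, hYdef, mem_filter] at h
      have e : i - -1 - 1 = i := by ring
      rw [e] at h; exact h.2
  have h3 : (Y ∩ sh Y (-1)).card ≤ U.card := by
    rw [← card_sh U (-1)]
    apply card_le_card
    intro i hi
    simp only [mem_inter, mem_sh, hYdef, mem_filter] at hi
    rw [mem_sh, hUdef, mem_filter]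
    refine ⟨hi.2.1, ?_⟩
    have e : i - -1 - 2 = i - 1 := by ring
    rw [e]; exact hi.1.2
  omega

theorem shift_count23 {X : Finset (ZMod n)} (h3 : ∀ i ∈ X, i - 3 ∉ X) :
    3 * X.card ≤ n + (X.filter (fun i => i - 2 ∈ X)).card +
      (X.filter (fun i => i - 1 ∈ X)).card := by
  set U := X.filter (fun i => i - 2 ∈ X) with hUdef
  set Y := X.filter (fun i => i - 1 ∈ X) with hYdef
  have hB : (sh X 2 \ X).card = X.card - U.card := by
    have h1 : (sh X 2 \ X) = sh X 2 \ U := by
      ext i
      simp only [mem_sdiff, mem_sh, hUdef, mem_filter]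
      tauto
    rw [h1, card_sdiff_of_subset, card_sh]
    intro i hi
    rw [hUdef, mem_filter] at hi
    exact mem_sh.2 hi.2
  have hUX : U.card ≤ X.card := card_le_card (filter_subset _ _)
  have hAB : (sh X 3 ∩ (sh X 2 \ X)).card ≤ Y.card := by
    rw [← card_sh Y 2]
    apply card_le_card
    intro i hi
    simp only [mem_inter, mem_sdiff, mem_sh] at hi
    rw [mem_sh, hYdef, mem_filter]
    refine ⟨hi.2.1, ?_⟩
    have e : i - 2 - 1 = i - 3 := by ring
    rw [e]; exact hi.1
  have h1 := card_union_add_card_inter (sh X 3) (sh X 2 \ X)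
  rw [card_sh, hB] at h1
  have h2 : Disjoint X (sh X 3 ∪ (sh X 2 \ X)) := by
    rw [disjoint_left]
    intro i hi hi'
    rcases mem_union.1 hi' with h | h
    · exact h3 i hi (mem_sh.1 h)
    · exact (mem_sdiff.1 h).2 hi
  have h3 := card_le_n (X ∪ (sh X 3 ∪ (sh X 2 \ X)))
  rw [card_union_of_disjoint h2] at h3
  omega

/-- overshoot two -/
theorem shift_count2 {X : Finset (ZMod n)} (h3 : ∀ i ∈ X, i - 3 ∉ X)
    (hU : (X.filter (fun i => i - 2 ∈ X)).card ≤ 1) (hn : n ≤ 2 * X.card + 2) : X.card ≤ 7 := by
  have h1 := shift_count23 h3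
  have h2 := two_mul_card_Y (X := X)
  omega

/-- overshoot one -/
theorem shift_count1 {X : Finset (ZMod n)} (h2 : ∀ i ∈ X, i - 2 ∉ X) (h3 : ∀ i ∈ X, i - 3 ∉ X)
    (hn : n ≤ 2 * X.card + 1) : X.card ≤ 2 := by
  have h1 := shift_count23 h3
  have h4 := two_mul_card_Y (X := X)
  have h5 : (X.filter (fun i => i - 2 ∈ X)).card = 0 := by
    rw [card_eq_zero, filter_eq_empty_iff]
    exact fun i hi => h2 i hi
  omega

end Shift

/-! ### Deletions at positions -/

section Deletions

variable {n : ℕ} [NeZero n] {c : ZMod n → V}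

theorem card_interval (p : ZMod n) {m : ℕ} (hm : m ≤ n) :
    ((range m).image (fun j : ℕ => p + 1 + (j : ZMod n))).card = m := by
  rw [card_image_of_injOn, card_range]
  intro i hi j hj hij
  simp only [coe_range, Set.mem_Iio] at hi hj
  have h1 : (i : ZMod n) = j := by simpa using hij
  have h2 := congrArg ZMod.val h1
  rwa [ZMod.val_natCast_of_lt (by omega), ZMod.val_natCast_of_lt (by omega)] at h2

/-- Deleting the `m` vertices between two clique vertices of the cycle. -/
theorem delete_interval (hinj : Function.Injective c)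
    (hadj : ∀ i, G.Adj (c i) (c (i + 1))) {M : V → Prop}
    (hM : ∀ x y, M x → M y → x ≠ y → G.Adj x y) {p : ZMod n} {m : ℕ} (hm : m + 2 ≤ n)
    (h1 : M (c p)) (h2 : M (c (p + 1 + m))) :
    ∃ L : List V, IsCyc G L ∧ L.length + m = n ∧ ∀ i, c i ∈ L ↔ ∀ j < m, i ≠ p + 1 + (j : ZMod n) := by
  obtain ⟨L, hL, hlen, hmem⟩ := delete_positions hinj hadj hM
    ((range m).image (fun j : ℕ => p + 1 + (j : ZMod n))) (by
      intro i hi hor
      rcases hor with h | h
      · obtain ⟨j, hj, hji⟩ := mem_image.1 h
        rw [mem_range] at hj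
        rcases j with _ | j
        · have : i = p := by simpa using hji.symm
          rw [this]; exact h1
        · exfalso; apply hi
          refine mem_image.2 ⟨j, mem_range.2 (by omega), ?_⟩
          push_cast at hji
          have := add_right_cancel (b := (1 : ZMod n)) (a := p + 1 + (j : ZMod n)) (c := i)
            (by rw [← hji]; ring)
          exact this
      · obtain ⟨j, hj, hji⟩ := mem_image.1 h
        rw [mem_range] at hj
        have hi' : i = p + 1 + ((j + 1 : ℕ) : ZMod n) := by
          have : i = (i - 1) + 1 := by ring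
          rw [this, ← hji]; push_cast; ring
        rcases Nat.lt_or_ge (j + 1) m with hlt | hge
        · exact absurd (mem_image.2 ⟨j + 1, mem_range.2 hlt, hi'.symm⟩) hi
        · have : j + 1 = m := by omega
          rw [hi', this]; exact h2)
    (by rw [card_interval p (by omega)]; omega)
  rw [card_interval p (by omega)] at hlen
  refine ⟨L, hL, hlen, ?_⟩
  intro i
  rw [hmem]
  constructor
  · intro h j hj hij
    exact h (mem_image.2 ⟨j, mem_range.2 hj, hij.symm⟩)
  · intro h hmem'
    obtain ⟨j, hj, hji⟩ := mem_image.1 hmem'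
    exact h j (mem_range.1 hj) hji.symm

/-- Deleting single vertices, each between two clique vertices. -/
theorem delete_singles (hinj : Function.Injective c)
    (hadj : ∀ i, G.Adj (c i) (c (i + 1))) {M : V → Prop}
    (hM : ∀ x y, M x → M y → x ≠ y → G.Adj x y) (U : Finset (ZMod n))
    (hU : ∀ i ∈ U, M (c i) ∧ M (c (i - 2))) (h2 : 2 + U.card ≤ n) :
    ∃ L : List V, IsCyc G L ∧ L.length + U.card = n ∧ ∀ i, c i ∈ L ↔ i + 1 ∉ U := by
  obtain ⟨L, hL, hlen, hmem⟩ := delete_positions hinj hadj hM (sh U (-1)) (by
      intro i _ hor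
      rcases hor with h | h
      · rw [mem_sh] at h
        have := (hU _ h).2
        have e : i + 1 - -1 - 2 = i := by ring
        rwa [e] at this
      · rw [mem_sh] at h
        have := (hU _ h).1
        have e : i - 1 - -1 = i := by ring
        rwa [e] at this)
    (by rw [card_sh]; exact h2)
  rw [card_sh] at hlen
  refine ⟨L, hL, hlen, ?_⟩
  intro i
  rw [hmem, mem_sh]
  have e : i - -1 = i + 1 := by ring
  rw [e]

end Deletions

/-! ### The drop lemma -/

/-- overshoot two or three, large clique -/
theorem drop_of_eight [DecidableEq V] {M : Finset V}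
    (hM : ∀ a ∈ M, ∀ b ∈ M, a ≠ b → G.Adj a b) {k o : ℕ} (hk : 3 ≤ k) (h8 : 8 ≤ M.card)
    (hw : k + 1 ≤ 2 * M.card) {L : List V} (hL : IsCyc G L) (hML : ∀ x ∈ M, x ∈ L)
    (hlen : L.length = k + 1 + o) (ho : o = 2 ∨ o = 3) : HasCyc G (k + 1) := by
  by_contra hcon
  haveI : NeZero (k + 1 + o) := ⟨by omega⟩
  obtain ⟨c, hinj, hadj, -, hcm⟩ := hL.exists_zmod hlen
  set X : Finset (ZMod (k + 1 + o)) := univ.filter (fun i => c i ∈ M) with hX
  have hXm : ∀ i, i ∈ X ↔ c i ∈ M := by intro i; simp [hX]
  have hXc : X.card = M.card := by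
    apply card_bij (fun i _ => c i)
    · intro i hi; exact (hXm i).1 hi
    · intro i _ j _ hij; exact hinj hij
    · intro v hv
      obtain ⟨i, hi⟩ := (hcm v).1 (hML v hv)
      exact ⟨i, (hXm i).2 (by rw [hi]; exact hv), hi⟩
  have hM' : ∀ x y, x ∈ M → y ∈ M → x ≠ y → G.Adj x y := fun x y hx hy => hM x hx y hy
  -- no interval
  have hint : ∀ i ∈ X, i - (o + 1 : ℕ) ∉ X := by
    intro i hi hi'
    obtain ⟨L', hL', hlen', -⟩ := delete_interval (M := fun v => v ∈ M) hinj hadj hM'
      (p := i - (o + 1 : ℕ)) (m := o) (by omega) ((hXm _).1 hi')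
      (by
        have e : i - (o + 1 : ℕ) + 1 + (o : ZMod (k + 1 + o)) = i := by push_cast; ring
        rw [e]; exact (hXm _).1 hi)
    exact hcon (hL'.hasCyc' (by omega) (by omega))
  have hU : (X.filter (fun i => i - 2 ∈ X)).card ≤ o - 1 := by
    by_contra hgt
    obtain ⟨U, hUs, hUc⟩ := exists_subset_card_eq
      (s := X.filter (fun i => i - 2 ∈ X)) (n := o) (by omega)
    obtain ⟨L', hL', hlen', -⟩ := delete_singles (M := fun v => v ∈ M) hinj hadj hM' U
      (fun i hi => by
        have := mem_filter.1 (hUs hi)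
        exact ⟨(hXm _).1 this.1, (hXm _).1 this.2⟩) (by omega)
    exact hcon (hL'.hasCyc' (by omega) (by omega))
  rcases ho with rfl | rfl
  · have := shift_count2 (X := X) (fun i hi => by
      have := hint i hi
      norm_num at this
      exact this) (by simpa using hU) (by omega)
    omega
  · have := shift_count3 (X := X) (fun i hi => by
      have := hint i hi
      norm_num at this
      exact this) (by simpa using hU)
    omega

/-- overshoot one: either a cycle of length `k + 1`, or a cycle of length `k` through the clique -/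
theorem drop_one [DecidableEq V] {M : Finset V}
    (hM : ∀ a ∈ M, ∀ b ∈ M, a ≠ b → G.Adj a b) {k : ℕ} (hk : 3 ≤ k) (h3 : 3 ≤ M.card)
    (hw : k + 1 ≤ 2 * M.card) {L : List V} (hL : IsCyc G L) (hML : ∀ x ∈ M, x ∈ L)
    (hlen : L.length = k + 2) :
    HasCyc G (k + 1) ∨ ∃ L' : List V, IsCyc G L' ∧ L'.length = k ∧ ∀ x ∈ M, x ∈ L' := by
  by_contra hcon
  rw [not_or] at hcon
  obtain ⟨hcon1, hcon2⟩ := hcon
  haveI : NeZero (k + 2) := ⟨by omega⟩
  obtain ⟨c, hinj, hadj, -, hcm⟩ := hL.exists_zmod hlen
  set X : Finset (ZMod (k + 2)) := univ.filter (fun i => c i ∈ M) with hX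
  have hXm : ∀ i, i ∈ X ↔ c i ∈ M := by intro i; simp [hX]
  have hXc : X.card = M.card := by
    apply card_bij (fun i _ => c i)
    · intro i hi; exact (hXm i).1 hi
    · intro i _ j _ hij; exact hinj hij
    · intro v hv
      obtain ⟨i, hi⟩ := (hcm v).1 (hML v hv)
      exact ⟨i, (hXm i).2 (by rw [hi]; exact hv), hi⟩
  have hM' : ∀ x y, x ∈ M → y ∈ M → x ≠ y → G.Adj x y := fun x y hx hy => hM x hx y hy
  have h2 : ∀ i ∈ X, i - 2 ∉ X := by
    intro i hi hi'
    obtain ⟨L', hL', hlen', -⟩ := delete_interval (M := fun v => v ∈ M) hinj hadj hM'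
      (p := i - 2) (m := 1) (by omega) ((hXm _).1 hi')
      (by
        have e : i - 2 + 1 + ((1 : ℕ) : ZMod (k + 2)) = i := by push_cast; ring
        rw [e]; exact (hXm _).1 hi)
    exact hcon1 (hL'.hasCyc' (by omega) (by omega))
  have h3' : ∀ i ∈ X, i - 3 ∉ X := by
    intro i hi hi'
    obtain ⟨L', hL', hlen', hmem⟩ := delete_interval (M := fun v => v ∈ M) hinj hadj hM'
      (p := i - 3) (m := 2) (by omega) ((hXm _).1 hi')
      (by
        have e : i - 3 + 1 + ((2 : ℕ) : ZMod (k + 2)) = i := by push_cast; ring
        rw [e]; exact (hXm _).1 hi)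
    apply hcon2
    refine ⟨L', hL', by omega, ?_⟩
    intro x hx
    obtain ⟨j, rfl⟩ := (hcm x).1 (hML x hx)
    rw [hmem]
    intro m hm hjm
    have hjX : j ∈ X := (hXm j).2 hx
    interval_cases m
    · -- j = i - 2
      apply h2 i hi
      have : i - 2 = j := by rw [hjm]; push_cast; ring
      rw [this]; exact hjX
    · -- j = i - 1
      apply h2 j hjX
      have : j - 2 = i - 3 := by rw [hjm]; push_cast; ring
      rw [this]; exact hi'
  have := shift_count1 h2 h3' (by omega)
  omega

end Crest.Agent.R054
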