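import Mathlib
import Crest.Agent.R054.Alpha
import Crest.Agent.R054.Cyc
import Crest.Agent.R054.Basic

-- ▼ part R054/LemCYC
section

/-!
R054: Lemma CYC.  An inclusion-minimal finset `Z` with `2|Z| > c·alp Z` which is not a clique contains
a cycle with at least `c+1` vertices, with a chord at its first vertex (if `6 ≤ c`).
-/

set_option autoImplicit false
set_option linter.unusedSectionVars false

open Finset

namespace Crest.Agent.R054

variable {V : Type*} [DecidableEq V] {G : SimpleGraph V}

variable (G) in
/-- Inclusion-minimal finsets with `2|Z| > c·alp Z`. -/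
structure MinDense (c : ℕ) (Z : Finset V) : Prop where
  dense : c * alp G Z < 2 * Z.card
  min : ∀ Y ⊂ Z, 2 * Y.card ≤ c * alp G Y

theorem exists_minDense {c : ℕ} (Z : Finset V) (h : c * alp G Z < 2 * Z.card) :
    ∃ Y ⊆ Z, MinDense G c Y := by
  induction Z using Finset.strongInduction with
  | H Z ih =>
    by_cases hm : ∀ Y ⊂ Z, 2 * Y.card ≤ c * alp G Y
    · exact ⟨Z, subset_rfl, h, hm⟩
    · push Not at hm
      obtain ⟨Y, hY, hlt⟩ := hm
      obtain ⟨X, hX, hmin⟩ := ih Y hY hlt
      exact ⟨X, hX.trans hY.1, hmin⟩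

variable (G) in
/-- Closed neighbourhood inside `Z` of a finset `I`. -/
noncomputable def nbZ (Z I : Finset V) : Finset V :=
  by classical exact Z.filter (fun x => x ∈ I ∨ ∃ y ∈ I, G.Adj y x)

theorem mem_nbZ {Z I : Finset V} {x : V} :
    x ∈ nbZ G Z I ↔ x ∈ Z ∧ (x ∈ I ∨ ∃ y ∈ I, G.Adj y x) := by
  classical
  simp [nbZ]

theorem alp_sdiff_nbZ {Z I : Finset V} (hI : Indep G I) (hIZ : I ⊆ Z) :
    alp G (Z \ nbZ G Z I) + I.card ≤ alp G Z := by
  obtain ⟨T, hT, hTI, hTc⟩ := exists_indep G (Z \ nbZ G Z I)
  rw [← hTc, ← card_union_of_disjoint]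
  · refine (hTI.union hI ?_).card_le_alp ?_
    · intro x hx y hy hxy
      have := mem_sdiff.1 (hT hx)
      exact this.2 (mem_nbZ.2 ⟨this.1, Or.inr ⟨y, hy, hxy.symm⟩⟩)
    · exact union_subset (hT.trans sdiff_subset) hIZ
  · rw [disjoint_left]
    intro x hx hxI
    have := mem_sdiff.1 (hT hx)
    exact this.2 (mem_nbZ.2 ⟨this.1, Or.inl hxI⟩)

namespace MinDense

variable {c : ℕ} {Z : Finset V}

theorem card_nbZ (h : MinDense G c Z) {I : Finset V} (hI : Indep G I) (hIZ : I ⊆ Z)
    (hne : I.Nonempty) : c * I.card < 2 * (nbZ G Z I).card := by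
  have hsub : nbZ G Z I ⊆ Z := fun x hx => (mem_nbZ.1 hx).1
  have hss : Z \ nbZ G Z I ⊂ Z := by
    refine ⟨sdiff_subset, fun hcon => ?_⟩
    obtain ⟨x, hx⟩ := hne
    exact (mem_sdiff.1 (hcon (hIZ hx))).2 (mem_nbZ.2 ⟨hIZ hx, Or.inl hx⟩)
  have h1 := h.min _ hss
  have h2 := alp_sdiff_nbZ hI hIZ
  have h3 := h.dense
  have h4 : (Z \ nbZ G Z I).card + (nbZ G Z I).card = Z.card := by
    rw [card_sdiff_add_card_eq_card hsub]
  have h5 : c * alp G (Z \ nbZ G Z I) + c * I.card ≤ c * alp G Z := by
    rw [← mul_add]; exact Nat.mul_le_mul_left c h2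
  omega

theorem conn (h : MinDense G c Z) :
    ∀ A ⊆ Z, A.Nonempty → A ≠ Z → ∃ x ∈ A, ∃ y ∈ Z, y ∉ A ∧ G.Adj x y := by
  intro A hA hne hAZ
  by_contra hcon
  push Not at hcon
  have h1 := h.min A ⟨hA, fun hcon' => hAZ (hA.antisymm hcon')⟩
  have h2 := h.min (Z \ A) ⟨sdiff_subset, fun hcon' => by
    obtain ⟨x, hx⟩ := hne
    exact (mem_sdiff.1 (hcon' (hA hx))).2 hx⟩
  have h3 : alp G A + alp G (Z \ A) ≤ alp G Z := by
    have := alp_add_le (G := G) (A := A) (B := Z \ A) disjoint_sdiff
      (fun x hx y hy => hcon x hx y (mem_sdiff.1 hy).1 (mem_sdiff.1 hy).2)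
    rwa [union_sdiff_of_subset hA] at this
  have h4 := h.dense
  have h5 : (Z \ A).card + A.card = Z.card := card_sdiff_add_card_eq_card hA
  have h6 : c * alp G A + c * alp G (Z \ A) ≤ c * alp G Z := by
    rw [← mul_add]; exact Nat.mul_le_mul_left c h3
  omega

/-- Not 2-colourable. -/
theorem not_proper (h : MinDense G c Z) (hc : 4 ≤ c) (lam : V → Bool) :
    ∃ x ∈ Z, ∃ y ∈ Z, G.Adj x y ∧ lam x = lam y := by
  by_contra hcon
  push Not at hcon
  have key : ∀ b : Bool, Indep G (Z.filter (fun x => lam x = b)) := by
    intro b x hx y hy hxy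
    rw [mem_filter] at hx hy
    exact hcon x hx.1 y hy.1 hxy (hx.2.trans hy.2.symm)
  have h1 := (key true).card_le_alp (S := Z) (filter_subset _ _)
  have h2 := (key false).card_le_alp (S := Z) (filter_subset _ _)
  have h3 : (Z.filter (fun x => lam x = true)).card + (Z.filter (fun x => lam x = false)).card
      = Z.card := by
    have := Finset.card_filter_add_card_filter_not (s := Z) (fun x => lam x = true)
    simpa using this
  have h4 := h.dense
  have : 4 * alp G Z ≤ c * alp G Z := Nat.mul_le_mul_right _ hc
  omega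

/-- No cut vertex. -/
theorem no_cut (h : MinDense G c Z) (hc : 2 ≤ c) {A B : Finset V} {z : V} (hA : A.Nonempty)
    (hB : B.Nonempty) (hzA : z ∉ A) (hzB : z ∉ B) (hd : Disjoint A B) (hAB : NoAdj G A B)
    (hZ : Z = insert z (A ∪ B)) : False := by
  have hcard : Z.card = A.card + B.card + 1 := by
    rw [hZ, card_insert_of_notMem (by simp [hzA, hzB]), card_union_of_disjoint hd]
  have hadd := alp_add_le hd hAB
  have hsub : A ∪ B ⊆ Z := by rw [hZ]; exact subset_insert _ _
  have hmono := alp_mono (G := G) hsub
  have hAs : A ⊂ Z := by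
    refine ⟨subset_union_left.trans hsub, fun hcon => hzA (hcon ?_)⟩
    rw [hZ]; exact mem_insert_self _ _
  have hBs : B ⊂ Z := by
    refine ⟨subset_union_right.trans hsub, fun hcon => hzB (hcon ?_)⟩
    rw [hZ]; exact mem_insert_self _ _
  have hAz : insert z A ⊂ Z := by
    obtain ⟨b, hb⟩ := hB
    refine ⟨?_, fun hcon => ?_⟩
    · rw [hZ]; exact insert_subset_insert _ subset_union_left
    · have hbZ : b ∈ insert z A := hcon (hsub (mem_union_right _ hb))
      rcases mem_insert.1 hbZ with rfl | hbA
      · exact hzB hb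
      · exact disjoint_left.1 hd hbA hb
  have hBz : insert z B ⊂ Z := by
    obtain ⟨a, ha⟩ := hA
    refine ⟨?_, fun hcon => ?_⟩
    · rw [hZ]; exact insert_subset_insert _ subset_union_right
    · have haZ : a ∈ insert z B := hcon (hsub (mem_union_left _ ha))
      rcases mem_insert.1 haZ with rfl | haB
      · exact hzA ha
      · exact disjoint_left.1 hd ha haB
  have m1 := h.min A hAs
  have m2 := h.min B hBs
  have m3 := h.min _ hAz
  have m4 := h.min _ hBz
  rw [card_insert_of_notMem hzA] at m3
  rw [card_insert_of_notMem hzB] at m4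
  have hdn := h.dense
  have key : c * alp G A + c * alp G B ≤ c * alp G Z := by
    rw [← mul_add]; exact Nat.mul_le_mul_left c (hadd.trans hmono)
  have eA : alp G (insert z A) = alp G A + 1 := by
    have h1 := alp_insert_le (G := G) z A
    have h2 := alp_mono (G := G) (subset_insert z A)
    by_contra hne
    have : alp G (insert z A) = alp G A := by omega
    rw [this] at m3
    omega
  have eB : alp G (insert z B) = alp G B + 1 := by
    have h1 := alp_insert_le (G := G) z B
    have h2 := alp_mono (G := G) (subset_insert z B)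
    by_contra hne
    have : alp G (insert z B) = alp G B := by omega
    rw [this] at m4
    omega
  obtain ⟨S, hS, hSI, hSc⟩ := exists_indep G (insert z A)
  obtain ⟨T, hT, hTI, hTc⟩ := exists_indep G (insert z B)
  have hzS : z ∈ S := by
    by_contra hz
    have : S ⊆ A := fun x hx => by
      rcases mem_insert.1 (hS hx) with rfl | hxA
      · exact absurd hx hz
      · exact hxA
    have := hSI.card_le_alp this
    omega
  have hzT : z ∈ T := by
    by_contra hz
    have : T ⊆ B := fun x hx => by
      rcases mem_insert.1 (hT hx) with rfl | hxB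
      · exact absurd hx hz
      · exact hxB
    have := hTI.card_le_alp this
    omega
  have hU : Indep G (S ∪ T) := by
    intro x hx y hy hxy
    rcases mem_union.1 hx with hx | hx <;> rcases mem_union.1 hy with hy | hy
    · exact hSI x hx y hy hxy
    · rcases mem_insert.1 (hS hx) with rfl | hxA
      · exact hTI _ hzT y hy hxy
      · rcases mem_insert.1 (hT hy) with rfl | hyB
        · exact hSI x hx _ hzS hxy
        · exact hAB x hxA y hyB hxy
    · rcases mem_insert.1 (hT hx) with rfl | hxB
      · exact hSI _ hzS y hy hxy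
      · rcases mem_insert.1 (hS hy) with rfl | hyA
        · exact hTI x hx _ hzT hxy
        · exact hAB y hyA x hxB hxy.symm
    · exact hTI x hx y hy hxy
  have hSTi : S ∩ T = {z} := by
    ext x
    rw [mem_inter, mem_singleton]
    constructor
    · rintro ⟨hx, hx'⟩
      rcases mem_insert.1 (hS hx) with rfl | hxA
      · rfl
      · rcases mem_insert.1 (hT hx') with rfl | hxB
        · rfl
        · exact absurd hxB (disjoint_left.1 hd hxA)
    · rintro rfl; exact ⟨hzS, hzT⟩
  have hcU : (S ∪ T).card + 1 = S.card + T.card := by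
    have := card_union_add_card_inter S T
    rw [hSTi, card_singleton] at this
    exact this
  have hUZ : S ∪ T ⊆ Z := union_subset (hS.trans hAz.1) (hT.trans hBz.1)
  have hfin := hU.card_le_alp hUZ
  have hge : alp G A + alp G B + 1 ≤ alp G Z := by omega
  have hge' : c * alp G A + c * alp G B + c ≤ c * alp G Z := by
    calc c * alp G A + c * alp G B + c = c * (alp G A + alp G B + 1) := by ring
      _ ≤ _ := Nat.mul_le_mul_left c hge
  omega

end MinDense

/-! ### Longest paths and rotations -/

theorem IsPth.take {L : List V} (h : IsPth G L) (n : ℕ) : IsPth G (L.take n) :=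
  ⟨h.1.sublist (List.take_sublist n L), h.2.take n⟩

theorem IsPth.drop {L : List V} (h : IsPth G L) (n : ℕ) : IsPth G (L.drop n) :=
  ⟨h.1.sublist (List.drop_sublist n L), h.2.drop n⟩

/-- Pósa rotation. -/
theorem IsPth.rot {L : List V} (h : IsPth G L) {i : ℕ} {a b : V} (hi : 1 ≤ i)
    (ha : L[0]? = some a) (hb : L[i]? = some b) (hab : G.Adj a b) :
    IsPth G ((L.take i).reverse ++ L.drop i) := by
  rw [isPth_append]
  refine ⟨(h.take i).reverse, h.drop i, ?_, ?_⟩
  · intro x hx hx'
    rw [List.mem_reverse] at hx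
    have hnd := h.1
    rw [← List.take_append_drop i L, List.nodup_append'] at hnd
    exact hnd.2.2 hx hx'
  · intro x hx y hy
    rw [List.getLast?_reverse, List.head?_take] at hx
    rw [List.head?_drop] at hy
    rw [if_neg (by omega), List.head?_eq_getElem?, ha] at hx
    rw [hb] at hy
    simp only [Option.mem_def, Option.some.injEq] at hx hy
    subst hx; subst hy; exact hab

theorem rot_length {L : List V} {i : ℕ} :
    ((L.take i).reverse ++ L.drop i).length = L.length := by
  simp [List.length_append, List.length_take, List.length_drop]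
  omega

theorem rot_mem {L : List V} {i : ℕ} {x : V} :
    x ∈ ((L.take i).reverse ++ L.drop i) ↔ x ∈ L := by
  rw [List.mem_append, List.mem_reverse, ← List.mem_append, List.take_append_drop]

theorem rot_getElem?_of_le {L : List V} {i t : ℕ} (hi : i ≤ L.length) (ht : i ≤ t) :
    ((L.take i).reverse ++ L.drop i)[t]? = L[t]? := by
  rw [List.getElem?_append_right (by simp; omega)]
  simp only [List.length_reverse, List.length_take, List.getElem?_drop]
  congr 1
  omega

theorem rot_getElem?_zero {L : List V} {i : ℕ} (hi : i ≤ L.length) (h1 : 1 ≤ i) :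
    ((L.take i).reverse ++ L.drop i)[0]? = L[i - 1]? := by
  rw [List.getElem?_append_left (by simp; omega)]
  rw [List.getElem?_reverse (by simp; omega)]
  simp only [List.length_take, List.getElem?_take]
  rw [if_pos (by omega)]
  congr 1
  omega

theorem MinDense.exists_cyc {c : ℕ} {Z : Finset V} (h : MinDense G c Z) (hc : 2 ≤ c)
    (h2 : 2 ≤ alp G Z) :
    ∃ L : List V, IsCyc G L ∧ c + 1 ≤ L.length ∧ (∀ x ∈ L, x ∈ Z) ∧
      (6 ≤ c → ∃ r, 2 ≤ r ∧ r + 2 ≤ L.length ∧
        ∃ a b, L[0]? = some a ∧ L[r]? = some b ∧ G.Adj a b) := by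
  classical
  have hZc : c + 1 ≤ Z.card := by
    have h1 := h.dense
    have h3 : c * 2 ≤ c * alp G Z := Nat.mul_le_mul_left c h2
    omega
  -- longest path
  let P : ℕ → Prop := fun n => ∃ L : List V, IsPth G L ∧ (∀ x ∈ L, x ∈ Z) ∧ L.length = n
  have hPbd : ∀ L : List V, IsPth G L → (∀ x ∈ L, x ∈ Z) → L.length ≤ Z.card := by
    intro L hL hLZ
    rw [← List.toFinset_card_of_nodup hL.1]
    apply card_le_card
    intro x hx
    exact hLZ x (List.mem_toFinset.1 hx)
  have hP0 : P 0 := ⟨[], isPth_nil, by simp, rfl⟩
  obtain ⟨n0, hn0, hn0max⟩ : ∃ n, P n ∧ ∀ m, P m → m ≤ n := by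
    refine ⟨Nat.findGreatest P Z.card, ?_, ?_⟩
    · exact Nat.findGreatest_spec (P := P) (Nat.zero_le _) hP0
    · intro m hm
      apply Nat.le_findGreatest _ hm
      obtain ⟨L, hL, hLZ, hLm⟩ := hm
      rw [← hLm]; exact hPbd L hL hLZ
  -- the head's neighbours lie on a longest path
  have hhead : ∀ L : List V, IsPth G L → (∀ x ∈ L, x ∈ Z) → L.length = n0 → ∀ a, L[0]? = some a →
      ∀ z ∈ Z, G.Adj a z → z ∈ L := by
    intro L hL hLZ hLn a ha z hz haz
    by_contra hzL
    have hpath : IsPth G (z :: L) := by
      refine ⟨List.nodup_cons.2 ⟨hzL, hL.1⟩, ?_⟩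
      match L, hL, ha with
      | b :: L, hL, ha =>
        simp only [List.getElem?_cons_zero, Option.some.injEq] at ha
        subst ha
        exact List.isChain_cons_cons.2 ⟨haz.symm, hL.2⟩
    have := hn0max (n0 + 1) ⟨z :: L, hpath, by
      intro x hx
      rcases List.mem_cons.1 hx with rfl | hx
      · exact hz
      · exact hLZ x hx, by simp [hLn]⟩
    omega
  let Q : ℕ → Prop := fun j => ∃ L : List V, IsPth G L ∧ (∀ x ∈ L, x ∈ Z) ∧ L.length = n0 ∧
    ∃ a b, L[0]? = some a ∧ L[j]? = some b ∧ G.Adj a b
  have hQbd : ∀ j, Q j → j ≤ n0 := by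
    rintro j ⟨L, -, -, hLn, a, b, -, hb, -⟩
    have := (List.getElem?_eq_some_iff.1 hb).1
    omega
  -- any longest path gives some `Q j`, `1 ≤ j`
  have hexQ : ∃ j, 1 ≤ j ∧ Q j := by
    obtain ⟨L, hL, hLZ, hLn⟩ := hn0
    have hn1 : 1 ≤ n0 := by
      obtain ⟨z, hz⟩ := card_pos.1 (show 0 < Z.card by omega)
      exact hn0max 1 ⟨[z], isPth_singleton z, by simpa using hz, rfl⟩
    obtain ⟨a, ha⟩ : ∃ a, L[0]? = some a := by
      refine ⟨L[0], List.getElem?_eq_getElem (by omega)⟩
    have haL : a ∈ L := List.mem_of_getElem? ha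
    have haZ := hLZ a haL
    have hcn := h.card_nbZ (indep_singleton a) (I := {a}) (by simpa using haZ) (by simp)
    rw [card_singleton] at hcn
    have : 1 < (nbZ G Z {a}).card := by omega
    obtain ⟨b, hb, hba⟩ := exists_mem_ne this a
    rw [mem_nbZ] at hb
    obtain ⟨hbZ, hb | ⟨y, hy, hyb⟩⟩ := hb
    · exact absurd (mem_singleton.1 hb) hba
    · rw [mem_singleton] at hy; subst hy
      have hbL := hhead L hL hLZ hLn _ ha b hbZ hyb
      obtain ⟨j, hj⟩ := List.mem_iff_getElem?.1 hbL
      refine ⟨j, ?_, L, hL, hLZ, hLn, _, b, ha, hj, hyb⟩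
      rcases Nat.eq_zero_or_pos j with rfl | hj0
      · rw [ha] at hj
        exact absurd (Option.some.inj hj).symm hba
      · exact hj0
  obtain ⟨j1, hj1, hQj1⟩ := hexQ
  obtain ⟨j0, hQj0, hj0max⟩ : ∃ j, Q j ∧ ∀ m, Q m → m ≤ j := by
    refine ⟨Nat.findGreatest Q n0, ?_, ?_⟩
    · exact Nat.findGreatest_spec (P := Q) (hQbd _ hQj1) hQj1
    · intro m hm
      exact Nat.le_findGreatest (hQbd m hm) hm
  have hj01 : 1 ≤ j0 := hj1.trans (hj0max _ hQj1)
  obtain ⟨L, hL, hLZ, hLn, a, b, ha, hb, hab⟩ := hQj0
  have hj0L : j0 < L.length := (List.getElem?_eq_some_iff.1 hb).1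
  -- the key rotation property
  have key : ∀ i y b', 1 ≤ i → L[i]? = some b' → G.Adj a b' → L[i - 1]? = some y →
      ∀ z ∈ Z, G.Adj y z → z ∈ L.take (j0 + 1) := by
    intro i y b' hi hb' hab' hy z hz hyz
    have hiL : i < L.length := (List.getElem?_eq_some_iff.1 hb').1
    have hij : i ≤ j0 := hj0max i ⟨L, hL, hLZ, hLn, a, b', ha, hb', hab'⟩
    have hrot := hL.rot hi ha hb' hab'
    have h0 := rot_getElem?_zero (L := L) hiL.le hi
    rw [hy] at h0
    have hmem : z ∈ ((L.take i).reverse ++ L.drop i) :=
      hhead _ hrot (fun x hx => hLZ x (rot_mem.1 hx)) (by rw [rot_length, hLn]) y h0 z hz hyz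
    have hzL := rot_mem.1 hmem
    obtain ⟨t, ht⟩ := List.mem_iff_getElem?.1 hzL
    have htj : t ≤ j0 := by
      rcases Nat.lt_or_ge t i with hti | hti
      · omega
      · apply hj0max t
        refine ⟨_, hrot, fun x hx => hLZ x (rot_mem.1 hx), by rw [rot_length, hLn], y, z, h0, ?_, hyz⟩
        rw [rot_getElem?_of_le hiL.le hti]; exact ht
    rw [List.mem_iff_getElem?]
    refine ⟨t, ?_⟩
    rw [List.getElem?_take, if_pos (by omega)]
    exact ht
  -- the cycle
  have hcyc : IsCyc G (L.take (j0 + 1)) := by
    refine ⟨(hL.take _).1, (hL.take _).2, ?_⟩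
    intro x hx y hy
    rw [List.getLast?_take, if_neg (by omega)] at hx
    rw [List.head?_take, if_neg (by omega), List.head?_eq_getElem?, ha] at hy
    have h1 : L[j0 + 1 - 1]? = some b := by simpa using hb
    rw [h1] at hx
    simp only [Option.some_or, Option.mem_def, Option.some.injEq] at hx hy
    subst hx; subst hy; exact hab.symm
  have hlen : (L.take (j0 + 1)).length = j0 + 1 := by
    rw [List.length_take]; omega
  have htZ : ∀ x ∈ L.take (j0 + 1), x ∈ Z := fun x hx => hLZ x (List.mem_of_mem_take hx)
  -- chord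
  have haZ : a ∈ Z := hLZ a (List.mem_of_getElem? ha)
  have hchord : 6 ≤ c → ∃ r, 2 ≤ r ∧ r + 2 ≤ (L.take (j0 + 1)).length ∧
        ∃ a b, (L.take (j0 + 1))[0]? = some a ∧ (L.take (j0 + 1))[r]? = some b ∧ G.Adj a b := by
    intro hc6
    by_contra hcon
    push Not at hcon
    have hsub : nbZ G Z {a} ⊆ {a} ∪ ((L[1]?).toFinset ∪ {b}) := by
      intro x hx
      rw [mem_nbZ] at hx
      obtain ⟨hxZ, hx | ⟨y, hy, hyx⟩⟩ := hx
      · rw [mem_union]; exact Or.inl hx
      · rw [mem_singleton] at hy; subst hy
        have hxL := hhead L hL hLZ hLn _ ha x hxZ hyx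
        obtain ⟨t, ht⟩ := List.mem_iff_getElem?.1 hxL
        have htj : t ≤ j0 := hj0max t ⟨L, hL, hLZ, hLn, _, x, ha, ht, hyx⟩
        rcases Nat.lt_or_ge t 2 with ht2 | ht2
        · interval_cases t
          · rw [ha] at ht
            have := Option.some.inj ht
            subst this
            simp
          · rw [mem_union, mem_union]
            right; left
            rw [ht]; simp
        · rcases eq_or_lt_of_le htj with rfl | htj'
          · rw [hb] at ht
            have := Option.some.inj ht
            subst this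
            simp
          · exfalso
            refine hcon t ht2 (by rw [hlen]; omega) _ x ?_ ?_ hyx
            · rw [List.getElem?_take, if_pos (by omega)]; exact ha
            · rw [List.getElem?_take, if_pos (by omega)]; exact ht
    have hc1 := card_le_card hsub
    have hc2 : ({a} ∪ ((L[1]?).toFinset ∪ {b}) : Finset V).card ≤ 3 := by
      refine (card_union_le _ _).trans ?_
      have h1 := card_union_le (L[1]?).toFinset ({b} : Finset V)
      have h3 : (L[1]?).toFinset.card ≤ 1 := by
        cases L[1]? <;> simp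
      rw [card_singleton] at h1 ⊢
      omega
    have hcn := h.card_nbZ (indep_singleton a) (I := {a}) (by simpa using haZ) (by simp)
    rw [card_singleton] at hcn
    omega
  by_cases hcase : ∃ i i' y y' d d', 1 ≤ i ∧ 1 ≤ i' ∧ L[i]? = some d ∧ G.Adj a d ∧
      L[i']? = some d' ∧ G.Adj a d' ∧ L[i - 1]? = some y ∧ L[i' - 1]? = some y' ∧ y ≠ y' ∧
      ¬ G.Adj y y'
  · obtain ⟨i, i', y, y', d, d', hi, hi', hd, had, hd', had', hy, hy', hne, hnadj⟩ := hcase
    have hyZ : y ∈ Z := hLZ y (List.mem_of_getElem? hy)
    have hyZ' : y' ∈ Z := hLZ y' (List.mem_of_getElem? hy')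
    have hij : i ≤ j0 := hj0max i ⟨L, hL, hLZ, hLn, a, d, ha, hd, had⟩
    have hij' : i' ≤ j0 := hj0max i' ⟨L, hL, hLZ, hLn, a, d', ha, hd', had'⟩
    have hcn := h.card_nbZ (indep_pair hnadj) (by
      intro z hz
      rcases mem_insert.1 hz with rfl | hz
      · exact hyZ
      · rw [mem_singleton] at hz; subst hz; exact hyZ') (by simp)
    rw [card_pair hne] at hcn
    have hsub : nbZ G Z {y, y'} ⊆ (L.take (j0 + 1)).toFinset := by
      intro x hx
      rw [List.mem_toFinset]
      rw [mem_nbZ] at hx
      obtain ⟨hxZ, hx | ⟨w, hw, hwx⟩⟩ := hx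
      · rw [List.mem_iff_getElem?]
        rcases mem_insert.1 hx with rfl | hx
        · exact ⟨i - 1, by rw [List.getElem?_take, if_pos (by omega)]; exact hy⟩
        · rw [mem_singleton] at hx; subst hx
          exact ⟨i' - 1, by rw [List.getElem?_take, if_pos (by omega)]; exact hy'⟩
      · rcases mem_insert.1 hw with rfl | hw
        · exact key i _ d hi hd had hy x hxZ hwx
        · rw [mem_singleton] at hw; subst hw
          exact key i' _ d' hi' hd' had' hy' x hxZ hwx
    have hc1 := card_le_card hsub
    rw [List.toFinset_card_of_nodup (hL.take _).1, hlen] at hc1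
    exact ⟨L.take (j0 + 1), hcyc, by rw [hlen]; omega, htZ, hchord⟩
  · push Not at hcase
    -- all `L[t]`, `t < j0`, are in the clique `W`
    have hall : ∀ t, t < j0 → ∃ d, L[t + 1]? = some d ∧ G.Adj a d := by
      intro t ht
      -- downward induction
      obtain ⟨s, rfl⟩ : ∃ s, t = j0 - 1 - s := ⟨j0 - 1 - t, by omega⟩
      induction s with
      | zero =>
        refine ⟨b, ?_, hab⟩
        rw [show j0 - 1 - 0 + 1 = j0 by omega]; exact hb
      | succ s ih =>
        rcases Nat.lt_or_ge s (j0 - 1) with hs | hs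
        · obtain ⟨d, hd, had⟩ := ih (by omega)
          have h1L : 1 < L.length := by omega
          have hd1 : L[1]? = some L[1] := List.getElem?_eq_getElem h1L
          have ha0 : L[0]? = some L[0] := List.getElem?_eq_getElem (by omega)
          have haeq : L[0] = a := by rw [ha] at ha0; exact (Option.some.inj ha0).symm
          have hadj1 : G.Adj a L[1] := by
            have := List.isChain_iff_getElem.1 hL.2 0 (by omega)
            rw [haeq] at this
            exact this
          have hyt : L[j0 - 1 - (s + 1) + 1]? = some (L[j0 - 1 - (s + 1) + 1]'(by omega)) :=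
            List.getElem?_eq_getElem (by omega)
          refine ⟨_, hyt, ?_⟩
          have hne : a ≠ L[j0 - 1 - (s + 1) + 1]'(by omega) := by
            rw [← haeq]
            intro heq
            have := (List.Nodup.getElem_inj_iff hL.1).1 heq
            omega
          by_contra hnadj
          refine hnadj (hcase 1 (j0 - 1 - s + 1) a _ L[1] d le_rfl (by omega) hd1 hadj1 hd had ha ?_ hne)
          rw [show j0 - 1 - s + 1 - 1 = j0 - 1 - (s + 1) + 1 by omega]
          exact hyt
        · -- `s + 1 ≥ j0`, index 0 - fine: value at index 1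
          have hz : j0 - 1 - (s + 1) = 0 := by omega
          have hz' : j0 - 1 - s = 0 := by omega
          rw [hz]
          have := ih (by omega)
          rw [hz'] at this
          exact this
    have hnb : ∀ t y, t < j0 → L[t]? = some y → ∀ z ∈ Z, G.Adj y z → z ∈ L.take (j0 + 1) := by
      intro t y ht hy z hz hyz
      obtain ⟨d, hd, had⟩ := hall t ht
      exact key (t + 1) y d (by omega) hd had (by simpa using hy) z hz hyz
    by_cases hB : Z ⊆ (L.take (j0 + 1)).toFinset
    · have hc1 := card_le_card hB
      rw [List.toFinset_card_of_nodup (hL.take _).1, hlen] at hc1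
      exact ⟨L.take (j0 + 1), hcyc, by rw [hlen]; omega, htZ, hchord⟩
    · exfalso
      obtain ⟨q, hqZ, hq⟩ := not_subset.1 hB
      have hnd := hL.1
      have hbnot : b ∉ L.take j0 := by
        intro hmem
        obtain ⟨t, ht⟩ := List.mem_iff_getElem?.1 hmem
        have htlt : t < (L.take j0).length := (List.getElem?_eq_some_iff.1 ht).1
        rw [List.length_take] at htlt
        rw [List.getElem?_take, if_pos (by omega)] at ht
        have h1 := List.getElem?_eq_some_iff.1 ht
        have h3 := List.getElem?_eq_some_iff.1 hb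
        obtain ⟨h1a, h1b⟩ := h1
        obtain ⟨h3a, h3b⟩ := h3
        have := (List.Nodup.getElem_inj_iff hnd).1 (h1b.trans h3b.symm)
        omega
      have htake : L.take (j0 + 1) = L.take j0 ++ [b] := by
        rw [List.take_add_one, hb]; rfl
      refine h.no_cut hc (A := (L.take j0).toFinset) (B := Z \ (L.take (j0 + 1)).toFinset) (z := b)
        ?_ ⟨q, mem_sdiff.2 ⟨hqZ, hq⟩⟩ ?_ ?_ ?_ ?_ ?_
      · refine ⟨a, ?_⟩
        rw [List.mem_toFinset, List.mem_iff_getElem?]
        exact ⟨0, by rw [List.getElem?_take, if_pos (by omega)]; exact ha⟩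
      · rw [List.mem_toFinset]; exact hbnot
      · intro hbm
        refine (mem_sdiff.1 hbm).2 ?_
        rw [List.mem_toFinset, htake]; simp
      · rw [disjoint_left]
        intro x hx hx'
        refine (mem_sdiff.1 hx').2 ?_
        rw [List.mem_toFinset] at hx ⊢
        rw [htake]; exact List.mem_append_left _ hx
      · intro x hx y hy hxy
        rw [List.mem_toFinset] at hx
        obtain ⟨t, ht⟩ := List.mem_iff_getElem?.1 hx
        have htlt : t < (L.take j0).length := (List.getElem?_eq_some_iff.1 ht).1
        rw [List.length_take] at htlt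
        rw [List.getElem?_take, if_pos (by omega)] at ht
        have := hnb t x (by omega) ht y (mem_sdiff.1 hy).1 hxy
        exact (mem_sdiff.1 hy).2 (List.mem_toFinset.2 this)
      · ext x
        rw [mem_insert, mem_union, mem_sdiff, List.mem_toFinset, List.mem_toFinset, htake]
        constructor
        · intro hx
          by_cases hx1 : x ∈ L.take j0 ++ [b]
          · rcases List.mem_append.1 hx1 with hx1 | hx1
            · exact Or.inr (Or.inl hx1)
            · left; simpa using hx1
          · exact Or.inr (Or.inr ⟨hx, hx1⟩)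
        · rintro (rfl | hx | hx)
          · exact hLZ _ (List.mem_of_getElem? hb)
          · exact hLZ _ (List.mem_of_mem_take hx)
          · exact hx.1

end Crest.Agent.R054
end

-- ▼ part R054/LemAB
section

/-!
# A–B paths of every length (Bondy–Simonovits / Verstraëte lemma)

`exists_seqPath` : let `Z` be a connected set of vertices of a graph containing a cycle
`c` of length `n` that has a chord, and let `lam` be a two-labelling of `Z` which is not
constant and is not a proper colouring.  Then for every `1 ≤ t < n` there is a path in `Z`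
with exactly `t` edges whose ends have different labels.
-/

set_option autoImplicit false

namespace Crest.Agent.R054

variable {V : Type*} {G : SimpleGraph V}

/-- `q 0, ..., q t` is a path of `G` inside `Z` (with `t` edges). -/
structure SeqPath (G : SimpleGraph V) (Z : Set V) (t : ℕ) (q : ℕ → V) : Prop where
  mem : ∀ i ≤ t, q i ∈ Z
  adj : ∀ i < t, G.Adj (q i) (q (i + 1))
  inj : ∀ i ≤ t, ∀ j ≤ t, q i = q j → i = j

/-- a sequence path as a list -/
theorem SeqPath.toList {Z : Set V} {t : ℕ} {q : ℕ → V} (h : SeqPath G Z t q) :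
    ((List.range (t + 1)).map q).Nodup ∧ ((List.range (t + 1)).map q).IsChain G.Adj ∧
    (∀ v ∈ (List.range (t + 1)).map q, v ∈ Z) ∧ ((List.range (t + 1)).map q).length = t + 1 ∧
    ((List.range (t + 1)).map q).head? = some (q 0) ∧
    ((List.range (t + 1)).map q).getLast? = some (q t) := by
  refine ⟨?_, ?_, ?_, by simp, ?_, ?_⟩
  · rw [List.nodup_map_iff_inj_on List.nodup_range]
    intro i hi j hj hij
    rw [List.mem_range] at hi hj
    exact h.inj i (by omega) j (by omega) hij
  · rw [List.isChain_map, List.isChain_iff_getElem]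
    intro i hi
    simp only [List.length_range] at hi
    simp only [List.getElem_range]
    exact h.adj i (by omega)
  · intro v hv
    simp only [List.mem_map, List.mem_range] at hv
    obtain ⟨i, hi, rfl⟩ := hv
    exact h.mem i (by omega)
  · simp [List.range_succ_eq_map]
  · simp [List.range_succ]

/-- sub-path -/
theorem SeqPath.shift {Z : Set V} {N : ℕ} {q : ℕ → V} (h : SeqPath G Z N q) (a t : ℕ)
    (hat : a + t ≤ N) : SeqPath G Z t (fun i => q (a + i)) where
  mem i hi := h.mem _ (by omega)
  adj i hi := h.adj (a + i) (by omega)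
  inj i hi j hj hij := by
    have := h.inj _ (by omega) _ (by omega) hij
    omega

/-- A cycle of length `n` given as an `n`-periodic function on `ℤ`, inside `Z`. -/
structure IntCycle (G : SimpleGraph V) (Z : Set V) (n : ℕ) (c : ℤ → V) : Prop where
  per : ∀ i, c (i + n) = c i
  inj : ∀ i j, c i = c j → (n : ℤ) ∣ i - j
  adj : ∀ i, G.Adj (c i) (c (i + 1))
  mem : ∀ i, c i ∈ Z

theorem IntCycle.inj_of_lt {Z : Set V} {n : ℕ} {c : ℤ → V} (h : IntCycle G Z n c) {i j : ℤ}
    (hij : c i = c j) (h1 : i - j < n) (h2 : j - i < n) : i = j := by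
  have hd := h.inj i j hij
  obtain ⟨k, hk⟩ := hd
  have hk0 : k = 0 := by
    by_contra hne
    rcases lt_or_gt_of_ne hne with hlt | hgt
    · have : (n : ℤ) * k ≤ (n : ℤ) * (-1) := by
        apply mul_le_mul_of_nonneg_left _ (Int.natCast_nonneg n)
        omega
      omega
    · have : (n : ℤ) * 1 ≤ (n : ℤ) * k := by
        apply mul_le_mul_of_nonneg_left _ (Int.natCast_nonneg n)
        omega
      omega
  rw [hk0] at hk
  omega

/-- shifted cycle -/
theorem IntCycle.shift {Z : Set V} {n : ℕ} {c : ℤ → V} (h : IntCycle G Z n c) (a : ℤ) :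
    IntCycle G Z n (fun i => c (a + i)) where
  per i := by
    have := h.per (a + i)
    rw [← this]; congr 1; ring
  inj i j hij := by
    have := h.inj _ _ hij
    have e : a + i - (a + j) = i - j := by ring
    rwa [e] at this
  adj i := by
    have := h.adj (a + i)
    rwa [add_assoc] at this
  mem i := h.mem _

/-- reversed cycle -/
theorem IntCycle.neg {Z : Set V} {n : ℕ} {c : ℤ → V} (h : IntCycle G Z n c) :
    IntCycle G Z n (fun i => c (-i)) where
  per i := by
    have := h.per (-(i + n))
    rw [← this]; congr 1; ring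
  inj i j hij := by
    have := h.inj _ _ hij
    have e : -i - (-j) = -(i - j) := by ring
    rw [e] at this
    exact (dvd_neg).1 this
  adj i := by
    have := h.adj (-(i + 1))
    have e : -(i + 1) + 1 = -i := by ring
    rw [e] at this
    exact this.symm
  mem i := h.mem _

/-- arc of a cycle as a path -/
theorem IntCycle.arc {Z : Set V} {n : ℕ} {c : ℤ → V} (h : IntCycle G Z n c) (a : ℤ) (t : ℕ)
    (ht : t < n) : SeqPath G Z t (fun i => c (a + i)) where
  mem i _ := h.mem _
  adj i _ := by
    have := h.adj (a + i)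
    rw [add_assoc] at this
    exact_mod_cast this
  inj i hi j hj hij := by
    have := h.inj_of_lt hij (by omega) (by omega)
    omega

/-! ### Chord paths -/

/-- path `c x, c (x-1), ..., c 0, c r, c (r+1), ..., c (r+t-1-x)` -/
theorem IntCycle.chordR1 {Z : Set V} {n : ℕ} {c : ℤ → V} (h : IntCycle G Z n c) {r : ℤ}
    (hch : G.Adj (c 0) (c r)) {t x : ℕ} (hxr : (x : ℤ) < r) (hxt : x < t)
    (hn : r + (t : ℤ) - 1 - x ≤ n - 1) :
    SeqPath G Z t (fun i => if i ≤ x then c ((x : ℤ) - i) else c (r + ((i : ℤ) - x - 1))) where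
  mem i _ := by
    split_ifs <;> exact h.mem _
  adj i hi := by
    by_cases h1 : i + 1 ≤ x
    · rw [if_pos (by omega), if_pos h1]
      have := h.adj ((x : ℤ) - (i + 1 : ℕ))
      have e : (x : ℤ) - (i + 1 : ℕ) + 1 = (x : ℤ) - i := by push_cast; ring
      rw [e] at this
      exact this.symm
    · by_cases h2 : i ≤ x
      · have hix : i = x := by omega
        subst hix
        rw [if_pos (le_refl _), if_neg h1]
        have e1 : (i : ℤ) - i = 0 := by ring
        have e2 : r + (((i + 1 : ℕ) : ℤ) - i - 1) = r := by push_cast; ring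
        rw [e1, e2]
        exact hch
      · rw [if_neg h2, if_neg h1]
        have := h.adj (r + ((i : ℤ) - x - 1))
        have e : r + ((i : ℤ) - x - 1) + 1 = r + (((i + 1 : ℕ) : ℤ) - x - 1) := by
          push_cast; ring
        rw [e] at this
        exact this
  inj i hi j hj hij := by
    by_cases h1 : i ≤ x
    · by_cases h2 : j ≤ x
      · rw [if_pos h1, if_pos h2] at hij
        have := h.inj_of_lt hij (by omega) (by omega)
        omega
      · rw [if_pos h1, if_neg h2] at hij
        have := h.inj_of_lt hij (by omega) (by omega)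
        omega
    · by_cases h2 : j ≤ x
      · rw [if_neg h1, if_pos h2] at hij
        have := h.inj_of_lt hij (by omega) (by omega)
        omega
      · rw [if_neg h1, if_neg h2] at hij
        have := h.inj_of_lt hij (by omega) (by omega)
        omega

/-- path `c (-y), ..., c 0, c r, c (r-1), ..., c (r-(t-1-y))` -/
theorem IntCycle.chordR2 {Z : Set V} {n : ℕ} {c : ℤ → V} (h : IntCycle G Z n c) {r : ℤ}
    (hch : G.Adj (c 0) (c r)) {t y : ℕ} (hyt : y < t)
    (hr : 0 < r - ((t : ℤ) - 1 - y)) (hn : r + (y : ℤ) ≤ n - 1) :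
    SeqPath G Z t (fun i => if i ≤ y then c ((i : ℤ) - y) else c (r - ((i : ℤ) - y - 1))) where
  mem i _ := by
    split_ifs <;> exact h.mem _
  adj i hi := by
    by_cases h1 : i + 1 ≤ y
    · rw [if_pos (by omega), if_pos h1]
      have := h.adj ((i : ℤ) - y)
      have e : (i : ℤ) - y + 1 = ((i + 1 : ℕ) : ℤ) - y := by push_cast; ring
      rw [e] at this
      exact this
    · by_cases h2 : i ≤ y
      · have hix : i = y := by omega
        subst hix
        rw [if_pos (le_refl _), if_neg h1]
        have e1 : (i : ℤ) - i = 0 := by ring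
        have e2 : r - (((i + 1 : ℕ) : ℤ) - i - 1) = r := by push_cast; ring
        rw [e1, e2]
        exact hch
      · rw [if_neg h2, if_neg h1]
        have := h.adj (r - (((i + 1 : ℕ) : ℤ) - y - 1))
        have e : r - (((i + 1 : ℕ) : ℤ) - y - 1) + 1 = r - ((i : ℤ) - y - 1) := by
          push_cast; ring
        rw [e] at this
        exact this.symm
  inj i hi j hj hij := by
    by_cases h1 : i ≤ y
    · by_cases h2 : j ≤ y
      · rw [if_pos h1, if_pos h2] at hij
        have := h.inj_of_lt hij (by omega) (by omega)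
        omega
      · rw [if_pos h1, if_neg h2] at hij
        have := h.inj_of_lt hij (by omega) (by omega)
        omega
    · by_cases h2 : j ≤ y
      · rw [if_neg h1, if_pos h2] at hij
        have := h.inj_of_lt hij (by omega) (by omega)
        omega
      · rw [if_neg h1, if_neg h2] at hij
        have := h.inj_of_lt hij (by omega) (by omega)
        omega

/-- path `c (-y), ..., c 0, c r, c (r+1), ..., c (r+t-1-y)` -/
theorem IntCycle.chordS {Z : Set V} {n : ℕ} {c : ℤ → V} (h : IntCycle G Z n c) {r : ℤ}
    (hch : G.Adj (c 0) (c r)) (hr : 0 < r) {t y : ℕ} (hyt : y < t)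
    (hn : r + (t : ℤ) ≤ n) :
    SeqPath G Z t (fun i => if i ≤ y then c ((i : ℤ) - y) else c (r + ((i : ℤ) - y - 1))) where
  mem i _ := by
    split_ifs <;> exact h.mem _
  adj i hi := by
    by_cases h1 : i + 1 ≤ y
    · rw [if_pos (by omega), if_pos h1]
      have := h.adj ((i : ℤ) - y)
      have e : (i : ℤ) - y + 1 = ((i + 1 : ℕ) : ℤ) - y := by push_cast; ring
      rw [e] at this
      exact this
    · by_cases h2 : i ≤ y
      · have hix : i = y := by omega
        subst hix
        rw [if_pos (le_refl _), if_neg h1]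
        have e1 : (i : ℤ) - i = 0 := by ring
        have e2 : r + (((i + 1 : ℕ) : ℤ) - i - 1) = r := by push_cast; ring
        rw [e1, e2]
        exact hch
      · rw [if_neg h2, if_neg h1]
        have := h.adj (r + ((i : ℤ) - y - 1))
        have e : r + ((i : ℤ) - y - 1) + 1 = r + (((i + 1 : ℕ) : ℤ) - y - 1) := by
          push_cast; ring
        rw [e] at this
        exact this
  inj i hi j hj hij := by
    by_cases h1 : i ≤ y
    · by_cases h2 : j ≤ y
      · rw [if_pos h1, if_pos h2] at hij
        have := h.inj_of_lt hij (by omega) (by omega)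
        omega
      · rw [if_pos h1, if_neg h2] at hij
        have := h.inj_of_lt hij (by omega) (by omega)
        omega
    · by_cases h2 : j ≤ y
      · rw [if_neg h1, if_pos h2] at hij
        have := h.inj_of_lt hij (by omega) (by omega)
        omega
      · rw [if_neg h1, if_neg h2] at hij
        have := h.inj_of_lt hij (by omega) (by omega)
        omega

/-- path `c x, ..., c 0, c r, c (r-1), ..., c (r-(t-1-x))` -/
theorem IntCycle.chordS' {Z : Set V} {n : ℕ} {c : ℤ → V} (h : IntCycle G Z n c) {r : ℤ}
    (hch : G.Adj (c 0) (c r)) {t x : ℕ} (hxt : x < t)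
    (htr : (t : ℤ) ≤ r) (hn : r < n) :
    SeqPath G Z t (fun i => if i ≤ x then c ((x : ℤ) - i) else c (r - ((i : ℤ) - x - 1))) where
  mem i _ := by
    split_ifs <;> exact h.mem _
  adj i hi := by
    by_cases h1 : i + 1 ≤ x
    · rw [if_pos (by omega), if_pos h1]
      have := h.adj ((x : ℤ) - (i + 1 : ℕ))
      have e : (x : ℤ) - (i + 1 : ℕ) + 1 = (x : ℤ) - i := by push_cast; ring
      rw [e] at this
      exact this.symm
    · by_cases h2 : i ≤ x
      · have hix : i = x := by omega
        subst hix
        rw [if_pos (le_refl _), if_neg h1]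
        have e1 : (i : ℤ) - i = 0 := by ring
        have e2 : r - (((i + 1 : ℕ) : ℤ) - i - 1) = r := by push_cast; ring
        rw [e1, e2]
        exact hch
      · rw [if_neg h2, if_neg h1]
        have := h.adj (r - (((i + 1 : ℕ) : ℤ) - x - 1))
        have e : r - (((i + 1 : ℕ) : ℤ) - x - 1) + 1 = r - ((i : ℤ) - x - 1) := by
          push_cast; ring
        rw [e] at this
        exact this.symm
  inj i hi j hj hij := by
    by_cases h1 : i ≤ x
    · by_cases h2 : j ≤ x
      · rw [if_pos h1, if_pos h2] at hij
        have := h.inj_of_lt hij (by omega) (by omega)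
        omega
      · rw [if_pos h1, if_neg h2] at hij
        have := h.inj_of_lt hij (by omega) (by omega)
        omega
    · by_cases h2 : j ≤ x
      · rw [if_neg h1, if_pos h2] at hij
        have := h.inj_of_lt hij (by omega) (by omega)
        omega
      · rw [if_neg h1, if_neg h2] at hij
        have := h.inj_of_lt hij (by omega) (by omega)
        omega

/-! ### Periods -/

/-- `g` is the least positive period of `f`. -/
theorem exists_min_period (f : ℤ → Bool) (n : ℕ) (hn : 0 < n) (hper : ∀ i, f (i + n) = f i) :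
    ∃ g : ℕ, 0 < g ∧ (∀ i, f (i + g) = f i) ∧
      ∀ p : ℤ, 0 < p → (∀ i, f (i + p) = f i) → (g : ℤ) ≤ p := by
  classical
  have hex : ∃ g : ℕ, 0 < g ∧ ∀ i, f (i + g) = f i := ⟨n, hn, hper⟩
  refine ⟨Nat.find hex, (Nat.find_spec hex).1, (Nat.find_spec hex).2, ?_⟩
  intro p hp hpp
  obtain ⟨m, rfl⟩ := Int.eq_ofNat_of_zero_le hp.le
  have := Nat.find_min' hex (m := m) ⟨by exact_mod_cast hp, hpp⟩
  exact_mod_cast this

theorem period_mul {f : ℤ → Bool} {g : ℕ} (hg : ∀ i, f (i + g) = f i) (m : ℤ) (x : ℤ) :
    f (x + m * g) = f x := by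
  have hnat : ∀ (k : ℕ) (x : ℤ), f (x + k * g) = f x := by
    intro k
    induction k with
    | zero => intro x; simp
    | succ k ih =>
      intro x
      have := hg (x + k * g)
      rw [ih] at this
      rw [← this]; congr 1; push_cast; ring
  rcases Int.eq_nat_or_neg m with ⟨k, hk | hk⟩
  · rw [hk]; exact hnat k x
  · rw [hk]
    have := hnat k (x + -(k : ℤ) * g)
    rw [← this]; congr 1; ring

/-- any integer can be moved into a window of length `g` by a multiple of `g` -/
theorem exists_window (g : ℕ) (hg : 0 < g) (a x : ℤ) :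
    ∃ m : ℤ, a ≤ x + m * g ∧ x + m * g < a + g := by
  refine ⟨-((x - a) / g), ?_, ?_⟩
  · have h1 := Int.emod_nonneg (x - a) (b := (g : ℤ)) (by omega)
    have h2 := Int.emod_add_mul_ediv (x - a) g
    nlinarith
  · have h1 := Int.emod_lt_of_pos (x - a) (b := (g : ℤ)) (by omega)
    have h2 := Int.emod_add_mul_ediv (x - a) g
    nlinarith

theorem refl_global {f : ℤ → Bool} {g : ℕ} (hg0 : 0 < g) (hg : ∀ i, f (i + g) = f i) (s a : ℤ)
    (h : ∀ x, a ≤ x → x < a + g → f x = f (s - x)) : ∀ x, f x = f (s - x) := by
  intro x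
  obtain ⟨m, h1, h2⟩ := exists_window g hg0 a x
  have h3 := h _ h1 h2
  rw [period_mul hg] at h3
  rw [h3]
  have h4 := period_mul hg (-m) (s - x)
  rw [← h4]; congr 1; ring

theorem transl_global {f : ℤ → Bool} {g : ℕ} (hg0 : 0 < g) (hg : ∀ i, f (i + g) = f i) (s a : ℤ)
    (h : ∀ x, a ≤ x → x < a + g → f (x + s) = f x) : ∀ x, f (x + s) = f x := by
  intro x
  obtain ⟨m, h1, h2⟩ := exists_window g hg0 a x
  have h3 := h _ h1 h2
  rw [period_mul hg] at h3
  rw [← h3]
  have h4 := period_mul hg m (x + s)
  rw [← h4]; congr 1; ring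

/-- If all `t`-paths have equally labelled ends and the cycle has a chord, then the labels along
the cycle have period two. -/
theorem IntCycle.period_two {Z : Set V} {n : ℕ} {c : ℤ → V} (h : IntCycle G Z n c) {r : ℤ}
    (hr : 2 ≤ r) (hrn : r ≤ n - 2) (hch : G.Adj (c 0) (c r)) {t : ℕ} (ht : 1 ≤ t) (htn : t < n)
    (lam : V → Bool) (H : ∀ q, SeqPath G Z t q → lam (q 0) = lam (q t)) :
    (∀ i, lam (c (i + t)) = lam (c i)) ∧ ∀ i, lam (c (i + 2)) = lam (c i) := by
  set f : ℤ → Bool := fun i => lam (c i) with hf
  have hn0 : 0 < n := by omega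
  have fper : ∀ i, f (i + n) = f i := fun i => by simp only [hf, h.per]
  have ft : ∀ i, f (i + t) = f i := by
    intro i
    have := H _ (h.arc i t htn)
    simp only [Nat.cast_zero, add_zero] at this
    exact this.symm
  obtain ⟨g, hg0, hg, hmin⟩ := exists_min_period f n hn0 fper
  have hgt : (g : ℤ) ≤ t := hmin t (by omega) ft
  have hgnt : (g : ℤ) ≤ n - t := by
    apply hmin _ (by omega)
    intro i
    have h1 := ft (i + (n - t))
    have e : i + ((n : ℤ) - t) + t = i + n := by ring
    rw [e, fper] at h1
    exact h1.symm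
  -- first claim
  have hgr : (g : ℤ) ≤ r := by
    by_contra hcon
    push Not at hcon
    have hS : ∀ x : ℤ, -((g : ℤ) - 1) ≤ x → x < -((g : ℤ) - 1) + g → f (x + (r - 1)) = f x := by
      intro x hx1 hx2
      obtain ⟨y, rfl⟩ : ∃ y : ℕ, x = -(y : ℤ) := ⟨x.natAbs, by omega⟩
      have hyt : y < t := by omega
      have := H _ (h.chordS hch (by omega) hyt (by omega))
      simp only [Nat.zero_le, if_true, Nat.cast_zero, zero_sub] at this
      rw [if_neg (by omega)] at this
      have h2 := ft (-(y : ℤ) + (r - 1))
      simp only [hf] at h2 ⊢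
      rw [← h2, this]
      congr 2; ring
    have hglob := transl_global hg0 hg (r - 1) _ hS
    have := hmin (r - 1) (by omega) hglob
    omega
  have hgnr : (g : ℤ) ≤ n - r := by
    by_contra hcon
    push Not at hcon
    have hS : ∀ x : ℤ, 0 ≤ x → x < 0 + g → f (x + (r + 1)) = f x := by
      intro x hx1 hx2
      obtain ⟨y, rfl⟩ : ∃ y : ℕ, x = (y : ℤ) := ⟨x.toNat, by omega⟩
      have hyt : y < t := by omega
      have := H _ (h.chordS' hch hyt (by omega) (by omega))
      simp only [Nat.zero_le, if_true, Nat.cast_zero, sub_zero] at this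
      rw [if_neg (by omega)] at this
      have h2 := ft (r - ((t : ℤ) - y - 1))
      simp only [hf] at h2 ⊢
      rw [this, ← h2]
      congr 2; ring
    have hglob := transl_global hg0 hg (r + 1) _ hS
    have := hmin (n - (r + 1)) (by omega) (by
      intro i
      have h1 := hglob (i + (n - (r + 1)))
      have e : i + ((n : ℤ) - (r + 1)) + (r + 1) = i + n := by ring
      rw [e, fper] at h1
      exact h1.symm)
    omega
  -- reflection R1
  have hR1 : ∀ x, f x = f (r - 1 - x) := by
    apply refl_global hg0 hg (r - 1) (max 0 (r + t - n))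
    intro x hx1 hx2
    obtain ⟨y, rfl⟩ : ∃ y : ℕ, x = (y : ℤ) := ⟨x.toNat, by omega⟩
    have := H _ (h.chordR1 hch (t := t) (x := y) (by omega) (by omega) (by omega))
    simp only [Nat.zero_le, if_true, Nat.cast_zero, sub_zero] at this
    rw [if_neg (by omega)] at this
    have h2 := ft (r - 1 - y)
    simp only [hf] at h2 ⊢
    rw [this, ← h2]
    congr 2; ring
  have hR2 : ∀ x, f x = f (r + 1 - x) := by
    apply refl_global hg0 hg (r + 1) (-(max 0 ((t : ℤ) - r) + g - 1))
    intro x hx1 hx2
    obtain ⟨y, rfl⟩ : ∃ y : ℕ, x = -(y : ℤ) := ⟨x.natAbs, by omega⟩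
    have := H _ (h.chordR2 hch (t := t) (y := y) (by omega) (by omega) (by omega))
    simp only [Nat.zero_le, if_true, Nat.cast_zero, zero_sub] at this
    rw [if_neg (by omega)] at this
    have h2 := ft (r - ((t : ℤ) - y - 1))
    simp only [hf] at h2 ⊢
    rw [this, ← h2]
    congr 2; ring
  refine ⟨ft, ?_⟩
  intro i
  have h1 := hR1 i
  have h2 := hR2 (r - 1 - i)
  rw [← h1] at h2
  have e : r + 1 - (r - 1 - i) = i + 2 := by ring
  rw [e] at h2
  exact h2.symm

/-! ### Paths ending on the cycle -/

/-- `y 0, ..., y p` is a path in `Z` whose last vertex is `c j` and whose other vertices are not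
on the cycle. -/
structure ToCycle (G : SimpleGraph V) (Z : Set V) (c : ℤ → V) (p : ℕ) (y : ℕ → V) (j : ℤ) :
    Prop where
  path : SeqPath G Z p y
  last : y p = c j
  off : ∀ i < p, ∀ m, y i ≠ c m

theorem ToCycle.drop {Z : Set V} {c : ℤ → V} {p : ℕ} {y : ℕ → V} {j : ℤ}
    (h : ToCycle G Z c p y j) {i : ℕ} (hi : i ≤ p) :
    ToCycle G Z c (p - i) (fun k => y (i + k)) j where
  path := h.path.shift i (p - i) (by omega)
  last := by
    have : i + (p - i) = p := by omega
    simp only [this, h.last]
  off k hk m := h.off _ (by omega) m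

theorem ToCycle.cons {Z : Set V} {c : ℤ → V} {p : ℕ} {y : ℕ → V} {j : ℤ}
    (h : ToCycle G Z c p y j) {v : V} (hvZ : v ∈ Z) (hvc : ∀ m, v ≠ c m)
    (hvy : ∀ i ≤ p, v ≠ y i) (hadj : G.Adj v (y 0)) :
    ToCycle G Z c (p + 1) (fun k => match k with
      | 0 => v
      | k + 1 => y k) j where
  path := by
    refine ⟨?_, ?_, ?_⟩
    · intro i hi
      cases i with
      | zero => exact hvZ
      | succ i => exact h.path.mem i (by omega)
    · intro i hi
      cases i with
      | zero => exact hadj
      | succ i => exact h.path.adj i (by omega)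
    · intro i hi k hk hik
      cases i with
      | zero =>
        cases k with
        | zero => rfl
        | succ k => exact absurd hik (hvy k (by omega))
      | succ i =>
        cases k with
        | zero => exact absurd hik.symm (hvy i (by omega))
        | succ k =>
          have := h.path.inj i (by omega) k (by omega) hik
          omega
  last := h.last
  off i hi m := by
    cases i with
    | zero => exact hvc m
    | succ i => exact h.off i (by omega) m

theorem toCycle_single {Z : Set V} {n : ℕ} {c : ℤ → V} (h : IntCycle G Z n c) (j : ℤ) :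
    ToCycle G Z c 0 (fun _ => c j) j where
  path := ⟨fun _ _ => h.mem _, fun i hi => absurd hi (by omega), fun i hi k hk _ => by omega⟩
  last := rfl
  off i hi := absurd hi (by omega)

/-- connectivity in cut form -/
def CutConn (G : SimpleGraph V) (Z : Set V) : Prop :=
  ∀ S ⊆ Z, S.Nonempty → S ≠ Z → ∃ u ∈ S, ∃ v ∈ Z, v ∉ S ∧ G.Adj u v

theorem exists_toCycle {Z : Set V} {n : ℕ} {c : ℤ → V} (h : IntCycle G Z n c)
    (hconn : CutConn G Z) {v : V} (hv : v ∈ Z) : ∃ p y j, ToCycle G Z c p y j ∧ y 0 = v := by
  by_contra hcon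
  set S : Set V := {v ∈ Z | ∃ p y j, ToCycle G Z c p y j ∧ y 0 = v} with hS
  have h0 : c 0 ∈ S := ⟨h.mem 0, 0, _, 0, toCycle_single h 0, rfl⟩
  obtain ⟨u, hu, w, hwZ, hwS, huw⟩ := hconn S (fun x hx => hx.1) ⟨_, h0⟩ (by
    intro hSZ
    rw [← hSZ] at hv
    exact hcon hv.2)
  obtain ⟨huZ, p, y, j, hy, hy0⟩ := hu
  apply hwS
  refine ⟨hwZ, ?_⟩
  by_cases hwc : ∃ m, w = c m
  · obtain ⟨m, hm⟩ := hwc
    exact ⟨0, _, m, toCycle_single h m, hm.symm⟩
  · push Not at hwc
    by_cases hwy : ∃ i ≤ p, w = y i
    · obtain ⟨i, hi, hwi⟩ := hwy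
      exact ⟨p - i, _, j, hy.drop hi, by simp [hwi]⟩
    · push Not at hwy
      exact ⟨p + 1, _, j, hy.cons hwZ hwc hwy (by rw [hy0]; exact huw.symm), rfl⟩

/-- the path to the cycle, continued around the cycle -/
theorem ToCycle.extend {Z : Set V} {n : ℕ} {c : ℤ → V} (h : IntCycle G Z n c) {p : ℕ}
    {y : ℕ → V} {j : ℤ} (hy : ToCycle G Z c p y j) (hn : 0 < n) :
    SeqPath G Z (p + n - 1) (fun i => if i < p then y i else c (j + ((i : ℤ) - p))) where
  mem i hi := by
    split_ifs with h1
    · exact hy.path.mem i (by omega)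
    · exact h.mem _
  adj i hi := by
    by_cases h1 : i + 1 < p
    · rw [if_pos (by omega), if_pos h1]
      exact hy.path.adj i (by omega)
    · by_cases h2 : i < p
      · rw [if_pos h2, if_neg h1]
        have h3 := hy.path.adj i (by omega)
        have hip : i + 1 = p := by omega
        rw [hip, hy.last] at h3
        have e : j + (((i + 1 : ℕ) : ℤ) - p) = j := by omega
        rw [e]
        exact h3
      · rw [if_neg h2, if_neg h1]
        have := h.adj (j + ((i : ℤ) - p))
        have e : j + ((i : ℤ) - p) + 1 = j + (((i + 1 : ℕ) : ℤ) - p) := by push_cast; ring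
        rw [e] at this
        exact this
  inj i hi k hk hik := by
    by_cases h1 : i < p
    · by_cases h2 : k < p
      · rw [if_pos h1, if_pos h2] at hik
        exact hy.path.inj i (by omega) k (by omega) hik
      · rw [if_pos h1, if_neg h2] at hik
        exact absurd hik (hy.off i h1 _)
    · by_cases h2 : k < p
      · rw [if_neg h1, if_pos h2] at hik
        exact absurd hik.symm (hy.off k h2 _)
      · rw [if_neg h1, if_neg h2] at hik
        have := h.inj_of_lt hik (by omega) (by omega)
        omega

/-- labels propagate along a path to the cycle -/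
theorem ToCycle.label {Z : Set V} {n : ℕ} {c : ℤ → V} (h : IntCycle G Z n c) {p : ℕ}
    {y : ℕ → V} {j : ℤ} (hy : ToCycle G Z c p y j) {t : ℕ} (ht : 1 ≤ t) (htn : t < n)
    (lam : V → Bool) (H : ∀ q, SeqPath G Z t q → lam (q 0) = lam (q t))
    (ft : ∀ i, lam (c (i + t)) = lam (c i)) :
    lam (y 0) = lam (c (j - p)) := by
  have hext := hy.extend h (by omega)
  set q : ℕ → V := fun i => if i < p then y i else c (j + ((i : ℤ) - p)) with hq
  have key : ∀ m a : ℕ, a + m = p + n - 1 → lam (q a) = lam (c (j + ((a : ℤ) - p))) := by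
    intro m
    induction m using Nat.strong_induction_on with
    | _ m ih =>
      intro a ham
      by_cases hap : a < p
      · have h1 := H _ (hext.shift a t (by omega))
        simp only [add_zero] at h1
        have h2 := ih (m - t) (by omega) (a + t) (by omega)
        rw [h1, h2]
        have h3 := ft (j + ((a : ℤ) - p))
        rw [← h3]; congr 2; push_cast; ring
      · simp only [hq, if_neg hap]
  have h0 := key (p + n - 1) 0 (by omega)
  have hq0 : q 0 = y 0 := by
    by_cases hp : 0 < p
    · simp only [hq, if_pos hp]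
    · have hp0 : p = 0 := by omega
      subst hp0
      have := hy.last
      simp only [hq, lt_self_iff_false, if_false, Nat.cast_zero, sub_zero, add_zero]
      exact this.symm
  rw [hq0] at h0
  rw [h0]; congr 2; push_cast; ring

/-- **A–B path lemma.**  `Z` is connected, contains a cycle of length `n` with a chord, `lam` is
a nonconstant labelling of `Z` which is not a proper colouring.  Then for `1 ≤ t < n` there is a
path in `Z` with `t` edges and differently labelled ends. -/
theorem exists_seqPath {Z : Set V} {n : ℕ} {c : ℤ → V} (h : IntCycle G Z n c) {r : ℤ}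
    (hr : 2 ≤ r) (hrn : r ≤ n - 2) (hch : G.Adj (c 0) (c r)) (hconn : CutConn G Z)
    (lam : V → Bool) (hA : ∃ v ∈ Z, lam v = true) (hB : ∃ v ∈ Z, lam v = false)
    (hnp : ∃ u ∈ Z, ∃ v ∈ Z, G.Adj u v ∧ lam u = lam v) {t : ℕ} (ht : 1 ≤ t) (htn : t < n) :
    ∃ q, SeqPath G Z t q ∧ lam (q 0) ≠ lam (q t) := by
  by_contra hcon
  push Not at hcon
  obtain ⟨ft, f2⟩ := h.period_two hr hrn hch ht htn lam hcon
  -- constant or alternating
  by_cases hconst : ∃ i, lam (c (i + 1)) = lam (c i)
  · -- constant on the cycle
    obtain ⟨i0, hi0⟩ := hconst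
    have hall : ∀ i, lam (c i) = lam (c i0) := by
      have hev : ∀ (m : ℕ) (i : ℤ), lam (c (i + 2 * m)) = lam (c i) := by
        intro m
        induction m with
        | zero => intro i; simp
        | succ m ih =>
          intro i
          have h1 := f2 (i + 2 * m)
          rw [ih] at h1
          rw [← h1]; congr 2; push_cast; ring
      have hevz : ∀ (m i : ℤ), lam (c (i + 2 * m)) = lam (c i) := by
        intro m i
        rcases Int.eq_nat_or_neg m with ⟨k, hk | hk⟩
        · rw [hk]; exact hev k i
        · rw [hk]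
          have := hev k (i + 2 * -(k : ℤ))
          rw [← this]; congr 2; ring
      intro i
      rcases Int.even_or_odd' (i - i0) with ⟨m, hm | hm⟩
      · have e : i = i0 + 2 * m := by omega
        rw [e, hevz]
      · have e : i = (i0 + 1) + 2 * m := by omega
        rw [e, hevz, hi0]
    have hZ : ∀ v ∈ Z, lam v = lam (c i0) := by
      intro v hv
      obtain ⟨p, y, j, hy, hy0⟩ := exists_toCycle h hconn hv
      rw [← hy0, hy.label h ht htn lam hcon ft, hall]
    obtain ⟨v, hv, hv1⟩ := hA
    obtain ⟨w, hw, hw1⟩ := hB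
    rw [hZ v hv] at hv1
    rw [hZ w hw, hv1] at hw1
    exact absurd hw1 (by decide)
  · -- alternating on the cycle
    push Not at hconst
    have halt : ∀ i, lam (c (i + 1)) = !lam (c i) := by
      intro i
      have := hconst i
      revert this
      cases lam (c (i + 1)) <;> cases lam (c i) <;> simp
    have hev : ∀ (m : ℕ) (i : ℤ), lam (c (i + 2 * m)) = lam (c i) := by
      intro m
      induction m with
      | zero => intro i; simp
      | succ m ih =>
        intro i
        have h1 := f2 (i + 2 * m)
        rw [ih] at h1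
        rw [← h1]; congr 2; push_cast; ring
    have hevz : ∀ (m i : ℤ), lam (c (i + 2 * m)) = lam (c i) := by
      intro m i
      rcases Int.eq_nat_or_neg m with ⟨k, hk | hk⟩
      · rw [hk]; exact hev k i
      · rw [hk]
        have := hev k (i + 2 * -(k : ℤ))
        rw [← this]; congr 2; ring
    have hoddz : ∀ (m i : ℤ), lam (c (i + (2 * m + 1))) = !lam (c i) := by
      intro m i
      have h1 := halt (i + 2 * m)
      rw [hevz] at h1
      rw [← h1]; congr 2; ring
    -- edges alternate
    have hedge : ∀ u ∈ Z, ∀ v ∈ Z, G.Adj u v → lam u ≠ lam v := by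
      -- first: an off-cycle vertex adjacent to a path to the cycle
      have hstep : ∀ (p : ℕ) (y : ℕ → V) (j : ℤ), ToCycle G Z c p y j → ∀ u ∈ Z,
          (∀ m, u ≠ c m) → (∀ i ≤ p, u ≠ y i) → G.Adj u (y 0) → lam u ≠ lam (y 0) := by
        intro p y j hy u hu huc huy hadj
        have h1 := hy.label h ht htn lam hcon ft
        have h2 := (hy.cons hu huc huy hadj).label h ht htn lam hcon ft
        simp only at h2
        rw [h1, h2]
        have h3 := halt (j - ((p + 1 : ℕ) : ℤ))
        have e : j - ((p + 1 : ℕ) : ℤ) + 1 = j - p := by push_cast; ring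
        rw [e] at h3
        rw [h3]
        cases lam (c (j - ((p + 1 : ℕ) : ℤ))) <;> simp
      -- u off cycle
      have hoff : ∀ u ∈ Z, ∀ v ∈ Z, G.Adj u v → (∀ m, u ≠ c m) → lam u ≠ lam v := by
        intro u hu v hv huv huc
        by_cases hvc : ∃ m, v = c m
        · obtain ⟨m, rfl⟩ := hvc
          exact hstep 0 _ m (toCycle_single h m) u hu huc (fun _ _ => huc m) huv
        · push Not at hvc
          obtain ⟨p, y, j, hy, hy0⟩ := exists_toCycle h hconn hu
          by_cases hvy : ∃ i ≤ p, v = y i
          · obtain ⟨i, hi, hvi⟩ := hvy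
            have hi1 : 1 ≤ i := by
              rcases Nat.eq_zero_or_pos i with h0 | h0
              · subst h0
                rw [hy0] at hvi
                exact absurd huv (by rw [hvi]; exact G.irrefl)
              · exact h0
            have hd := hy.drop hi
            have := hstep _ _ _ hd u hu huc (by
              intro k hk huk
              rw [← hy0] at huk
              have := hy.path.inj 0 (by omega) (i + k) (by omega) huk
              omega) (by simpa [← hvi] using huv)
            simpa [← hvi] using this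
          · push Not at hvy
            have := hstep p y j hy v hv hvc hvy (by rw [hy0]; exact huv.symm)
            rw [hy0] at this
            exact this.symm
      intro u hu v hv huv
      by_cases huc : ∃ m, u = c m
      · by_cases hvc : ∃ m, v = c m
        · obtain ⟨a, rfl⟩ := huc
          obtain ⟨b, rfl⟩ := hvc
          -- reduce to c' 0 ~ c' s with 0 ≤ s < n
          have hsh := h.shift a
          have hn0 : (0 : ℤ) < n := by omega
          set s : ℤ := (b - a) % n with hs
          have hs0 : 0 ≤ s := Int.emod_nonneg _ (by omega)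
          have hsn : s < n := Int.emod_lt_of_pos _ hn0
          have hcb : c b = c (a + s) := by
            have hbs : b = a + s + n * ((b - a) / n) := by
              have := Int.emod_add_mul_ediv (b - a) n
              rw [← hs] at this
              linarith
            have hpern : ∀ (k : ℕ) (i : ℤ), c (i + n * k) = c i := by
              intro k
              induction k with
              | zero => intro i; simp
              | succ k ih =>
                intro i
                have h1 := h.per (i + n * k)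
                rw [ih] at h1
                rw [← h1]; congr 1; push_cast; ring
            have hperz : ∀ (k i : ℤ), c (i + n * k) = c i := by
              intro k i
              rcases Int.eq_nat_or_neg k with ⟨l, hl | hl⟩
              · rw [hl]; exact hpern l i
              · rw [hl]
                have := hpern l (i + n * -(l : ℤ))
                rw [← this]; congr 1; ring
            rw [hbs, hperz]
          rw [hcb] at huv ⊢
          have hs1 : s ≠ 0 := by
            intro h0
            rw [h0, add_zero] at huv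
            exact G.irrefl huv
          -- the parity of s is odd
          have hodd : ∃ m : ℤ, s = 2 * m + 1 := by
            rcases Int.even_or_odd' s with ⟨m, hm | hm⟩
            swap
            · exact ⟨m, hm⟩
            exfalso
            by_cases hs2 : s ≤ n - 2
            · -- genuine chord
              have hx : ∃ x : ℕ, (x : ℤ) < s ∧ x < t ∧ s + (t : ℤ) - 1 - x ≤ n - 1 := by
                refine ⟨(max 0 (s + t - n)).toNat, ?_, ?_, ?_⟩ <;> omega
              obtain ⟨x, hx1, hx2, hx3⟩ := hx
              have h1 := hcon _ (hsh.chordR1 (r := s) (by simpa using huv) hx1 hx2 hx3)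
              simp only [Nat.zero_le, if_true, Nat.cast_zero, sub_zero] at h1
              rw [if_neg (by omega)] at h1
              have h2 := ft (a + (s - 1 - x))
              have e1 : a + (s + ((t : ℤ) - x - 1)) = a + (s - 1 - x) + t := by ring
              rw [e1, h2] at h1
              have h3 := hoddz (m - 1 - x) (a + x)
              have e2 : a + (x : ℤ) + (2 * (m - 1 - x) + 1) = a + (s - 1 - x) := by
                rw [hm]; ring
              rw [e2, ← h1] at h3
              revert h3
              cases lam (c (a + (x : ℤ))) <;> simp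
            · -- s = n - 1 even: but then c (a + n - 1), c (a + n) = c a adjacent is consistent:
              -- n is even because labels alternate, so s is odd
              have hsn1 : s = n - 1 := by omega
              have h1 := h.per a
              have h2 := hoddz m a
              have e : a + (2 * m + 1) = a + n := by omega
              rw [e, h1] at h2
              revert h2
              cases lam (c a) <;> simp
          obtain ⟨m, hm⟩ := hodd
          rw [hm, hoddz]
          cases lam (c a) <;> simp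
        · push Not at hvc
          exact (hoff v hv u hu huv.symm hvc).symm
      · push Not at huc
        exact hoff u hu v hv huv huc
    obtain ⟨u, hu, v, hv, huv, hl⟩ := hnp
    exact hedge u hu v hv huv hl

end Crest.Agent.R054
end

-- ▼ part R054/LemABList
section

/-!
# R054 : conversions between list cycles (`IsCyc`) and integer cycles (`IntCycle`)
-/

set_option autoImplicit false

namespace Crest.Agent.R054

variable {V : Type*} {G : SimpleGraph V}

/-- A path sequence gives a list path. -/
theorem SeqPath.isPth {Z : Set V} {t : ℕ} {q : ℕ → V} (h : SeqPath G Z t q) :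
    IsPth G ((List.range (t + 1)).map q) := ⟨h.toList.1, h.toList.2.1⟩

/-- A cyclic list gives an integer cycle. -/
theorem IsCyc.intCycle {L : List V} (h : IsCyc G L) (h1 : L ≠ []) {Z : Set V}
    (hZ : ∀ x ∈ L, x ∈ Z) :
    ∃ c : ℤ → V, IntCycle G Z L.length c ∧ ∀ (i : ℕ) (hi : i < L.length), c i = L[i] := by
  obtain ⟨hnd, hch, hcl⟩ := h
  have hn : 0 < L.length := List.length_pos_of_ne_nil h1
  have hlt : ∀ i : ℤ, (i % (L.length : ℤ)).toNat < L.length := fun i => by
    have h1 := Int.emod_nonneg i (b := (L.length : ℤ)) (by omega)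
    have h2 := Int.emod_lt_of_pos i (b := (L.length : ℤ)) (by omega)
    omega
  have hpos : ∀ i : ℤ, 0 ≤ i % (L.length : ℤ) := fun i =>
    Int.emod_nonneg i (b := (L.length : ℤ)) (by omega)
  refine ⟨fun i => L[(i % (L.length : ℤ)).toNat]'(hlt i), ⟨?_, ?_, ?_, ?_⟩, ?_⟩
  · intro i
    simp only [Int.add_emod_right]
  · intro i j hij
    have h3 := (List.Nodup.getElem_inj_iff hnd).1 hij
    have h4 := hpos i
    have h5 := hpos j
    have h6 : i % (L.length : ℤ) = j % (L.length : ℤ) := by omega
    exact Int.dvd_of_emod_eq_zero (by rw [Int.sub_emod, h6]; simp)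
  · intro i
    have h3 := hpos i
    have h4 := hlt i
    rw [List.isChain_iff_getElem] at hch
    by_cases hlast : (i % (L.length : ℤ)).toNat + 1 < L.length
    · have e : ((i + 1) % (L.length : ℤ)).toNat = (i % (L.length : ℤ)).toNat + 1 := by
        have : (i + 1) % (L.length : ℤ) = i % (L.length : ℤ) + 1 := by
          rw [Int.add_emod]
          rw [Int.emod_eq_of_lt (a := 1) (by omega) (by omega)]
          rw [Int.emod_eq_of_lt (by omega) (by omega)]
        omega
      have := hch _ hlast
      simp only [e]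
      exact this
    · have e : ((i + 1) % (L.length : ℤ)).toNat = 0 := by
        have : (i + 1) % (L.length : ℤ) = 0 := by
          have h6 : (L.length : ℤ) ∣ i + 1 := by
            have h7 := Int.emod_add_mul_ediv i (L.length : ℤ)
            refine ⟨i / (L.length : ℤ) + 1, ?_⟩
            rw [mul_add, mul_one]
            omega
          exact Int.emod_eq_zero_of_dvd h6
        omega
      simp only [e]
      have e2 : (i % (L.length : ℤ)).toNat = L.length - 1 := by omega
      simp only [e2]
      refine hcl _ ?_ _ ?_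
      · rw [List.getLast?_eq_getLast_of_ne_nil h1, List.getLast_eq_getElem]; simp
      · rw [List.head?_eq_some_head h1, List.head_eq_getElem]; simp
  · intro i
    exact hZ _ (List.getElem_mem _)
  · intro i hi
    have : ((i : ℤ) % (L.length : ℤ)).toNat = i := by
      rw [Int.emod_eq_of_lt (by omega) (by omega)]; simp
    simp only [this]



end Crest.Agent.R054
end

-- ▼ part R054/Layers

/-!
R054: breadth first layers around a vertex, closing paths of a layer through the lowest common
ancestor, and the bound `2|Z| ≤ c·alp Z` for subsets `Z` of a layer.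
-/

set_option autoImplicit false
set_option linter.unusedSectionVars false
set_option linter.unusedVariables false

open Finset

namespace Crest.Agent.R054

universe u

variable {V : Type u} [Fintype V] [DecidableEq V] {G : SimpleGraph V}

variable (G) in
/-- Ball of radius `i` around `v`. -/
noncomputable def ball (v : V) : ℕ → Finset V
  | 0 => {v}
  | i + 1 => nbC G (ball v i)

variable (G) in
/-- Layer (sphere) of radius `i` around `v`. -/
noncomputable def lay (v : V) : ℕ → Finset V
  | 0 => {v}
  | i + 1 => ball G v (i + 1) \ ball G v i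

theorem ball_zero (v : V) : ball G v 0 = {v} := rfl

theorem ball_succ (v : V) (i : ℕ) : ball G v (i + 1) = nbC G (ball G v i) := rfl

theorem lay_zero (v : V) : lay G v 0 = {v} := rfl

theorem lay_succ (v : V) (i : ℕ) : lay G v (i + 1) = ball G v (i + 1) \ ball G v i := rfl

theorem ball_subset_succ (v : V) (i : ℕ) : ball G v i ⊆ ball G v (i + 1) := subset_nbC _

theorem ball_mono (v : V) {i j : ℕ} (h : i ≤ j) : ball G v i ⊆ ball G v j :=
  monotone_nat_of_le_succ (ball_subset_succ v) h

theorem lay_subset_ball (v : V) (i : ℕ) : lay G v i ⊆ ball G v i := by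
  cases i with
  | zero => exact subset_rfl
  | succ i => exact sdiff_subset

theorem mem_lay_one {v x : V} : x ∈ lay G v 1 ↔ G.Adj v x := by
  rw [lay_succ, ball_succ, ball_zero, mem_sdiff, mem_nbC]
  simp only [mem_singleton, exists_eq_left]
  constructor
  · rintro ⟨h | h, h'⟩
    · exact absurd h h'
    · exact h
  · intro h
    exact ⟨Or.inr h, h.ne'⟩

theorem notMem_ball_of_mem_lay {v x : V} {i j : ℕ} (hij : i < j) (hx : x ∈ lay G v j) :
    x ∉ ball G v i := by
  match j, hij, hx with
  | j + 1, hij, hx =>
    intro hcon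
    exact (mem_sdiff.1 hx).2 (ball_mono v (by omega) hcon)

theorem lay_index_unique {v x : V} {i j : ℕ} (hi : x ∈ lay G v i) (hj : x ∈ lay G v j) : i = j := by
  rcases lt_trichotomy i j with h | h | h
  · exact absurd (lay_subset_ball v i hi) (notMem_ball_of_mem_lay h hj)
  · exact h
  · exact absurd (lay_subset_ball v j hj) (notMem_ball_of_mem_lay h hi)


theorem noAdj_ball_lay {v : V} {i j : ℕ} (h : i + 2 ≤ j) : NoAdj G (ball G v i) (lay G v j) := by
  intro x hx y hy hxy
  refine notMem_ball_of_mem_lay (show i + 1 < j by omega) hy ?_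
  rw [ball_succ, mem_nbC]
  exact Or.inr ⟨x, hx, hxy⟩

theorem exists_parent {v x : V} {i : ℕ} (hx : x ∈ lay G v (i + 1)) :
    ∃ y ∈ lay G v i, G.Adj y x := by
  rw [lay_succ, mem_sdiff, ball_succ, mem_nbC] at hx
  obtain ⟨h | ⟨y, hy, hyx⟩, hx'⟩ := hx
  · exact absurd h hx'
  · refine ⟨y, ?_, hyx⟩
    cases i with
    | zero => exact hy
    | succ i =>
      rw [lay_succ, mem_sdiff]
      refine ⟨hy, fun hcon => hx' ?_⟩
      rw [ball_succ, mem_nbC]
      exact Or.inr ⟨y, hcon, hyx⟩


variable (G) in
/-- `par` is a parent function (a breadth first tree) for the layers around `v`. -/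
def IsPar (v : V) (par : V → V) : Prop :=
  ∀ i x, x ∈ lay G v (i + 1) → par x ∈ lay G v i ∧ G.Adj (par x) x

theorem exists_isPar (v : V) : ∃ par : V → V, IsPar G v par := by
  classical
  refine ⟨fun x => if h : ∃ y i, x ∈ lay G v (i + 1) ∧ y ∈ lay G v i ∧ G.Adj y x then
    h.choose else x, ?_⟩
  intro i x hx
  have h : ∃ y i, x ∈ lay G v (i + 1) ∧ y ∈ lay G v i ∧ G.Adj y x := by
    obtain ⟨y, hy, hyx⟩ := exists_parent hx
    exact ⟨y, i, hx, hy, hyx⟩
  simp only [dif_pos h]
  obtain ⟨j, h1, h2, h3⟩ := h.choose_spec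
  have := lay_index_unique hx h1
  have hi : i = j := by omega
  rw [← hi] at h2
  exact ⟨h2, h3⟩


section Par

variable {v : V} {par : V → V}

theorem IsPar.iter_mem (h : IsPar G v par) {x : V} {i : ℕ} (hx : x ∈ lay G v i) :
    ∀ t, t ≤ i → par^[t] x ∈ lay G v (i - t) := by
  intro t
  induction t with
  | zero => intro _; simpa using hx
  | succ t ih =>
    intro ht
    have h1 := ih (by omega)
    rw [Function.iterate_succ_apply']
    have h2 : i - t = (i - (t + 1)) + 1 := by omega
    rw [h2] at h1
    exact (h _ _ h1).1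

theorem IsPar.iter_adj (h : IsPar G v par) {x : V} {i : ℕ} (hx : x ∈ lay G v i) {t : ℕ}
    (ht : t < i) : G.Adj (par^[t + 1] x) (par^[t] x) := by
  have h1 := h.iter_mem hx t ht.le
  rw [Function.iterate_succ_apply']
  have h2 : i - t = (i - (t + 1)) + 1 := by omega
  rw [h2] at h1
  exact (h _ _ h1).2

/-- The path `par x, par² x, …, parˢ x`. -/
theorem IsPar.isPth_up (h : IsPar G v par) {x : V} {i : ℕ} (hx : x ∈ lay G v i) {s : ℕ}
    (hs : s ≤ i) : IsPth G ((List.range s).map (fun t => par^[t + 1] x)) := by
  refine ⟨?_, ?_⟩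
  · rw [List.nodup_map_iff_inj_on List.nodup_range]
    intro t ht t' ht' heq
    rw [List.mem_range] at ht ht'
    have h1 := h.iter_mem hx (t + 1) (by omega)
    have h2 := h.iter_mem hx (t' + 1) (by omega)
    rw [heq] at h1
    have := lay_index_unique h1 h2
    omega
  · rw [List.isChain_map, List.isChain_iff_getElem]
    intro t ht
    simp only [List.length_range] at ht
    simp only [List.getElem_range]
    exact (h.iter_adj hx (t := t + 1) (by omega)).symm

/-- Closing a path of a layer through the lowest common ancestor of its ends. -/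
theorem IsPar.close (h : IsPar G v par) {a b : V} {i s : ℕ} (ha : a ∈ lay G v i)
    (hb : b ∈ lay G v i) (hs1 : 1 ≤ s) (hsi : s ≤ i) (hs : par^[s] a = par^[s] b)
    (hs' : par^[s - 1] a ≠ par^[s - 1] b) {P : List V} (hP : IsPth G P)
    (hPl : ∀ x ∈ P, x ∈ lay G v i) (hPa : P.head? = some a) (hPb : P.getLast? = some b) {n : ℕ}
    (hn : P.length + (2 * s - 1) = n) (h3 : 3 ≤ n) : HasCyc G n := by
  have hdiff : ∀ t, t ≤ s - 1 → par^[t] a ≠ par^[t] b := by
    intro t ht heq
    apply hs'
    obtain ⟨d, hd⟩ : ∃ d, s - 1 = d + t := ⟨s - 1 - t, by omega⟩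
    rw [hd, Function.iterate_add_apply, Function.iterate_add_apply, heq]
  let D := (List.range (s - 1)).map (fun t => par^[t + 1] b)
  let U := (List.range s).map (fun t => par^[t + 1] a)
  have hD : IsPth G D := h.isPth_up hb (by omega)
  have hU : IsPth G U := h.isPth_up ha hsi
  have hUn : U ≠ [] := by simp [U]; omega
  have hUh : U.head? = some (par a) := by
    obtain ⟨s', rfl⟩ : ∃ s', s = s' + 1 := ⟨s - 1, by omega⟩
    simp [U, List.range_succ_eq_map]
  have hUl : U.getLast? = some (par^[s] a) := by
    obtain ⟨s', rfl⟩ : ∃ s', s = s' + 1 := ⟨s - 1, by omega⟩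
    simp [U, List.range_succ]
  -- `Q = D ++ U.reverse`
  have hQ : IsPth G (D ++ U.reverse) := by
    rw [isPth_append]
    refine ⟨hD, hU.reverse, ?_, ?_⟩
    · intro x hx hx'
      rw [List.mem_reverse] at hx'
      simp only [D, U, List.mem_map, List.mem_range] at hx hx'
      obtain ⟨t, ht, rfl⟩ := hx
      obtain ⟨t', ht', heq⟩ := hx'
      have h1 := h.iter_mem ha (t' + 1) (by omega)
      have h2 := h.iter_mem hb (t + 1) (by omega)
      rw [heq] at h1
      have := lay_index_unique h1 h2
      have htt : t' = t := by omega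
      subst htt
      exact hdiff _ (by omega) heq
    · intro x hx y hy
      rw [List.head?_reverse, hUl] at hy
      simp only [Option.mem_def, Option.some.injEq] at hy
      subst hy
      rcases Nat.eq_zero_or_pos (s - 1) with h0 | h0
      · simp [D, h0] at hx
      · have hDl : D.getLast? = some (par^[s - 1] b) := by
          obtain ⟨s', hs'⟩ : ∃ s', s - 1 = s' + 1 := ⟨s - 2, by omega⟩
          simp only [D, hs', List.range_succ, List.map_append, List.map_cons, List.map_nil,
            List.getLast?_append, List.getLast?_singleton, Option.some_or]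
        rw [hDl] at hx
        simp only [Option.mem_def, Option.some.injEq] at hx
        subst hx
        rw [hs]
        have := h.iter_adj hb (t := s - 1) (by omega)
        rw [show s - 1 + 1 = s by omega] at this
        exact this.symm
  have hQn : D ++ U.reverse ≠ [] := by simp [hUn]
  have hPn : P ≠ [] := by rintro rfl; simp at hPa
  have hUrn : U.reverse ≠ [] := by simpa using hUn
  refine (hP.close hQ hPn hQn ?_ ?_ ?_).hasCyc' ?_ h3
  · intro x hx hx'
    have hxi := hPl x hx
    rcases List.mem_append.1 hx' with hx' | hx'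
    · simp only [D, List.mem_map, List.mem_range] at hx'
      obtain ⟨t, ht, rfl⟩ := hx'
      have h1 := h.iter_mem hb (t + 1) (by omega)
      have := lay_index_unique h1 hxi
      omega
    · rw [List.mem_reverse] at hx'
      simp only [U, List.mem_map, List.mem_range] at hx'
      obtain ⟨t, ht, rfl⟩ := hx'
      have h1 := h.iter_mem ha (t + 1) (by omega)
      have := lay_index_unique h1 hxi
      omega
  · -- last of `P` is `b`, head of `Q` is `par b` or `par^[s] a`
    have h1 : P.getLast hPn = b := by
      rw [List.getLast?_eq_getLast_of_ne_nil hPn] at hPb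
      exact Option.some.inj hPb
    rw [h1]
    have hb1 := h.iter_adj hb (t := 0) (by omega)
    have h2 : (D ++ U.reverse).head hQn = par b := by
      rcases Nat.eq_zero_or_pos (s - 1) with h0 | h0
      · have hs1' : s = 1 := by omega
        subst hs1'
        simp only [D, U]
        simp
        simpa using hs
      · have hDn : D ≠ [] := by simp [D]; omega
        rw [List.head_append_of_ne_nil hDn]
        obtain ⟨s', hs'⟩ : ∃ s', s - 1 = s' + 1 := ⟨s - 2, by omega⟩
        simp [D, hs', List.range_succ_eq_map]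
    rw [h2]
    simpa using hb1.symm
  · have h1 : P.head hPn = a := by
      rw [List.head?_eq_some_head hPn] at hPa
      exact Option.some.inj hPa
    rw [h1, List.getLast_append_of_ne_nil hQn hUrn, List.getLast_reverse]
    have h2 : U.head hUn = par a := by
      rw [List.head?_eq_some_head hUn] at hUh
      exact Option.some.inj hUh
    rw [h2]
    have ha1 := h.iter_adj ha (t := 0) (by omega)
    simpa using ha1
  · simp only [D, U, List.length_append, List.length_reverse, List.length_map, List.length_range]
    omega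

/-- The height of the lowest common ancestor of a set of at least two vertices of a layer. -/
theorem IsPar.exists_lca (h : IsPar G v par) {i : ℕ} {Z : Finset V} (hZ : Z ⊆ lay G v i)
    {x0 y0 : V} (hx0 : x0 ∈ Z) (hy0 : y0 ∈ Z) (hne : x0 ≠ y0) :
    ∃ s, 1 ≤ s ∧ s ≤ i ∧ (∀ x ∈ Z, ∀ y ∈ Z, par^[s] x = par^[s] y) ∧
      ∃ x ∈ Z, ∃ y ∈ Z, par^[s - 1] x ≠ par^[s - 1] y := by
  classical
  have hex : ∃ s, ∀ x ∈ Z, ∀ y ∈ Z, par^[s] x = par^[s] y := by
    refine ⟨i, fun x hx y hy => ?_⟩
    have h1 := h.iter_mem (hZ hx) i le_rfl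
    have h2 := h.iter_mem (hZ hy) i le_rfl
    rw [Nat.sub_self, lay_zero, mem_singleton] at h1 h2
    rw [h1, h2]
  have hle : Nat.find hex ≤ i := by
    apply Nat.find_min' hex
    intro x hx y hy
    have h1 := h.iter_mem (hZ hx) i le_rfl
    have h2 := h.iter_mem (hZ hy) i le_rfl
    rw [Nat.sub_self, lay_zero, mem_singleton] at h1 h2
    rw [h1, h2]
  have h1 : 1 ≤ Nat.find hex := by
    by_contra hcon
    have h0 : Nat.find hex = 0 := by omega
    have := Nat.find_spec hex x0 hx0 y0 hy0
    rw [h0] at this
    exact hne this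
  have h2 := Nat.find_min hex (m := Nat.find hex - 1) (by omega)
  push Not at h2
  exact ⟨Nat.find hex, h1, hle, Nat.find_spec hex, h2⟩

end Par

/-- A minimal dense subset of a layer is a clique. -/
theorem layer_minDense {k c : ℕ} (hc : 6 ≤ c) (hkc : k ≤ c + 1) (hfree : ¬ HasCyc G (k + 1))
    {v : V} {i : ℕ} (hi : 1 ≤ i) (hik : 2 * i ≤ k) {Z : Finset V} (hZ : Z ⊆ lay G v i)
    (hmin : MinDense G c Z) : alp G Z ≤ 1 := by
  by_contra hcon
  have h2 : 2 ≤ alp G Z := by omega
  obtain ⟨L, hL, hLl, hLZ, hch⟩ := hmin.exists_cyc (by omega) h2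
  obtain ⟨r, hr2, hrL, a0, b0, ha0, hb0, hab0⟩ := hch hc
  obtain ⟨par, hpar⟩ := exists_isPar (G := G) v
  obtain ⟨x0, hx0, y0, hy0, hne, -⟩ := exists_not_adj_of_two_le_alp h2
  obtain ⟨s, hs1, hsi, hs, x1, hx1, y1, hy1, hxy1⟩ := hpar.exists_lca hZ hx0 hy0 hne
  have hLn : L ≠ [] := by rintro rfl; simp at hLl
  obtain ⟨c', hc', hcL⟩ := hL.intCycle hLn (Z := (Z : Set V)) (fun x hx => hLZ x hx)
  classical
  let lam : V → Bool := fun x => decide (par^[s - 1] x = par^[s - 1] x1)
  have e0 : c' 0 = a0 := by
    have h1 := hcL 0 (by omega)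
    have h3 := (List.getElem?_eq_some_iff.1 ha0).2
    rw [h3] at h1
    simpa using h1
  have er : c' (r : ℤ) = b0 := by
    have h1 := hcL r (by omega)
    have h3 := (List.getElem?_eq_some_iff.1 hb0).2
    rw [h3] at h1
    exact h1
  have hconn : CutConn G (Z : Set V) := by
    intro S hS hSne hSZ
    obtain ⟨x, hx⟩ := hSne
    obtain ⟨p, hp, q, hq, hqA, hpq⟩ := hmin.conn (Z.filter (fun z => z ∈ S)) (filter_subset _ _)
      ⟨x, mem_filter.2 ⟨by exact_mod_cast hS hx, hx⟩⟩ (by
        intro heq
        apply hSZ
        apply Set.Subset.antisymm hS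
        intro z hz
        have hz' : z ∈ Z := by exact_mod_cast hz
        rw [← heq] at hz'
        exact (mem_filter.1 hz').2)
    exact ⟨p, (mem_filter.1 hp).2, q, by exact_mod_cast hq,
      fun hcon => hqA (mem_filter.2 ⟨hq, hcon⟩), hpq⟩
  obtain ⟨u1, hu1, v1, hv1, huv1, hlam1⟩ := hmin.not_proper (by omega) lam
  obtain ⟨q, hq, hlq⟩ := exists_seqPath hc' (r := (r : ℤ)) (by omega) (by omega)
    (by rw [e0, er]; exact hab0) hconn lam
    ⟨x1, by exact_mod_cast hx1, by simp [lam]⟩
    ⟨y1, by exact_mod_cast hy1, by simp [lam, hxy1.symm]⟩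
    ⟨u1, by exact_mod_cast hu1, v1, by exact_mod_cast hv1, huv1, hlam1⟩
    (t := k + 1 - 2 * s) (by omega) (by omega)
  obtain ⟨l1, l2, l3, l4, l5, l6⟩ := hq.toList
  have hq0 : q 0 ∈ Z := by exact_mod_cast hq.mem 0 (by omega)
  have hqt : q (k + 1 - 2 * s) ∈ Z := by exact_mod_cast hq.mem _ le_rfl
  apply hfree
  refine hpar.close (hZ hq0) (hZ hqt) hs1 hsi (hs _ hq0 _ hqt) ?_ ⟨l1, l2⟩ ?_ l5 l6
    (by rw [l4]; omega) (by omega)
  · intro heq
    apply hlq
    simp only [lam, heq]
  · intro x hx
    exact hZ (by exact_mod_cast l3 x hx)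

/-- Bound for a subset of a layer. -/
theorem layer_bound {k c : ℕ} (hc : 6 ≤ c) (hkc : k ≤ c + 1) (hfree : ¬ HasCyc G (k + 1))
    {v : V} {i : ℕ} (hi : 1 ≤ i) (hik : 2 * i ≤ k) {Z : Finset V} (hZ : Z ⊆ lay G v i)
    (hcl : ∀ Q ⊆ Z, (∀ a ∈ Q, ∀ b ∈ Q, a ≠ b → G.Adj a b) → 2 * Q.card ≤ c) :
    2 * Z.card ≤ c * alp G Z := by
  by_contra hcon
  obtain ⟨Y, hY, hmin⟩ := exists_minDense (G := G) (c := c) Z (by omega)
  have h1 := layer_minDense hc hkc hfree hi hik (hY.trans hZ) hmin
  have h2 := hcl Y hY (fun a ha b hb hab => adj_of_alp_le_one h1 ha hb hab)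
  have h3 := hmin.dense
  have h4 : 1 ≤ alp G Y := by
    apply alp_pos
    rw [nonempty_iff_ne_empty]
    rintro rfl
    simp at h3
  have h5 : c * 1 ≤ c * alp G Y := Nat.mul_le_mul_left c h4
  omega

/-- Bound for a subset of the neighbourhood of `v` (no condition `6 ≤ c`). -/
theorem layer1_bound {k c : ℕ} (hc : 2 ≤ c) (hk : 2 ≤ k) (hkc : k ≤ c + 1)
    (hfree : ¬ HasCyc G (k + 1)) {v : V} {Z : Finset V} (hZ : Z ⊆ lay G v 1)
    (hcl : ∀ Q ⊆ Z, (∀ a ∈ Q, ∀ b ∈ Q, a ≠ b → G.Adj a b) → 2 * Q.card ≤ c) :
    2 * Z.card ≤ c * alp G Z := by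
  by_contra hcon
  obtain ⟨Y, hY, hmin⟩ := exists_minDense (G := G) (c := c) Z (by omega)
  have h4 : 1 ≤ alp G Y := by
    apply alp_pos
    rw [nonempty_iff_ne_empty]
    rintro rfl
    have h3 := hmin.dense
    simp at h3
  rcases Nat.lt_or_ge 1 (alp G Y) with h1 | h1
  · obtain ⟨L, hL, hLl, hLZ, -⟩ := hmin.exists_cyc hc h1
    have hp : IsPth G (L.take k) := hL.isPth.take k
    have hlen : (L.take k).length = k := by rw [List.length_take]; omega
    have hpn : L.take k ≠ [] := by
      intro h0; rw [h0] at hlen; simp at hlen; omega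
    have hadj : ∀ x ∈ L.take k, G.Adj v x := fun x hx =>
      mem_lay_one.1 (hZ (hY (hLZ x (List.mem_of_mem_take hx))))
    apply hfree
    refine (hp.close (isPth_singleton v) hpn (by simp) ?_ ?_ ?_).hasCyc' (by simp [hlen]) (by omega)
    · intro x hx hx'
      rw [List.mem_singleton] at hx'
      subst hx'
      exact G.loopless.irrefl _ (hadj _ hx)
    · simpa using (hadj _ (List.getLast_mem hpn)).symm
    · simpa using hadj _ (List.head_mem hpn)
  · have h2 := hcl Y hY (fun a ha b hb hab => adj_of_alp_le_one h1 ha hb hab)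
    have h3 := hmin.dense
    have h5 : c * 1 ≤ c * alp G Y := Nat.mul_le_mul_left c h4
    omega

/-! ### Counting in balls -/

theorem card_ball (v : V) (i : ℕ) :
    (ball G v i).card = 1 + ∑ j ∈ range i, (lay G v (j + 1)).card := by
  induction i with
  | zero => simp [ball_zero]
  | succ i ih =>
    rw [sum_range_succ, ← add_assoc, ← ih, lay_succ]
    have := card_sdiff_add_card_eq_card (ball_subset_succ (G := G) v i)
    omega

theorem alp_ball_add (v : V) (i : ℕ) :
    1 + ∑ j ∈ range (i + 1), alp G (lay G v (j + 1)) ≤ alp G (ball G v (i + 1)) + alp G (ball G v i) := by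
  induction i with
  | zero =>
    have h1 : alp G (lay G v 1) ≤ alp G (ball G v 1) := alp_mono (lay_subset_ball v 1)
    have h2 : alp G (ball G v 0) = 1 := by rw [ball_zero, alp_singleton]
    simp only [zero_add, range_one, sum_singleton]
    omega
  | succ i ih =>
    rw [sum_range_succ]
    have h1 : alp G (ball G v i) + alp G (lay G v (i + 1 + 1)) ≤ alp G (ball G v (i + 1 + 1)) := by
      have hd : Disjoint (ball G v i) (lay G v (i + 1 + 1)) := by
        rw [disjoint_left]
        intro x hx hx'
        exact notMem_ball_of_mem_lay (by omega) hx' hx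
      refine (alp_add_le hd (noAdj_ball_lay le_rfl)).trans (alp_mono ?_)
      exact union_subset (ball_mono v (by omega)) (lay_subset_ball v _)
    omega

theorem MinCE.card_ball_succ {k : ℕ} (h : MinCE k G) (v : V) (i : ℕ) :
    k * alp G (ball G v i) + 1 ≤ (ball G v (i + 1)).card := by
  obtain ⟨I, hI, hII, hIc⟩ := exists_indep G (ball G v i)
  have hne : I.Nonempty := by
    rw [← card_pos, hIc]
    exact alp_pos ⟨v, ball_mono v (Nat.zero_le i) (by simp [ball_zero])⟩
  have h1 := h.card_nbC hII hne
  rw [hIc] at h1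
  exact h1.trans (card_le_card (nbC_mono hI))

end Crest.Agent.R054
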