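import Crest.Agent.R054.Drop_Mg
import Crest.Agent.R054.PatData
import Mathlib
import Crest.Agent.R054.Layers
import Crest.Agent.R054.Basic
import Crest.Agent.R054.Balls
import Crest.Agent.R054.Classify

-- ▼ part R054/ThmA
section

/-!
# R054 / ThmA : no minimal counterexample with a large clique (assembly)
-/

set_option autoImplicit false

open Finset

set_option linter.unusedSectionVars false

namespace Crest.Agent.R054

universe u

variable {V : Type u} [Fintype V] [DecidableEq V] {G : SimpleGraph V} {k : ℕ}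

open Pat in
theorem patHyp_of_map {M : Finset V} (hM : ∀ a ∈ M, ∀ b ∈ M, a ≠ b → G.Adj a b) {cs : List V}
    {X : List Bool} (hcs : IsCyc G cs) (h3 : 3 ≤ cs.length)
    (hX : cs.map (fun x => decide (x ∈ M)) = X) : PatHyp G cs X := by
  have hlen : cs.length = X.length := by rw [← hX, List.length_map]
  have hget : ∀ i (hi : i < cs.length), X.getD i false = true → cs[i] ∈ M := by
    intro i hi h
    rw [← hX, List.getD_eq_getElem _ _ (by rw [List.length_map]; exact hi), List.getElem_map] at h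
    simpa using h
  refine ⟨hcs, hlen, h3, ?_⟩
  intro i hi j hj h1 h2 hij
  refine hM _ (hget i hi h1) _ (hget j hj h2) ?_
  intro he
  exact hij ((List.Nodup.getElem_inj_iff hcs.nodup).1 he)

open Pat in
/-- The classification statement (clique numbers 5, 6, 7). -/
def ClassifyStmt : Prop := ∀ (V : Type u) [Fintype V] [DecidableEq V] (G : SimpleGraph V) (k w : ℕ)
  (M : Finset V) (C : List V), (∀ a ∈ M, ∀ b ∈ M, a ≠ b → G.Adj a b) → M.card = w → 5 ≤ w → w ≤ 7 →
  k + 1 ≤ 2 * w → w < k → IsCyc G C → (C.length = k + 3 ∨ C.length = k + 4) → (∀ a ∈ M, a ∈ C) →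
  HasCyc G (k + 1) ∨ ∃ cs, IsCyc G cs ∧ cs.Perm C ∧
    (k, w, cs.map (fun x => decide (x ∈ M))) ∈ [(8, 5, X3), (9, 5, X4), (9, 5, X5), (9, 5, X6),
      (10, 6, X7), (10, 6, X8), (11, 6, X9), (11, 6, X10), (13, 7, X11)]

open Pat in
theorem MinCE.no_pattern (h : MinCE k G) {M : Finset V} {w : ℕ}
    (hM : ∀ a ∈ M, ∀ b ∈ M, a ≠ b → G.Adj a b)
    (hmaxM : ∀ K : Finset V, (∀ a ∈ K, ∀ b ∈ K, a ≠ b → G.Adj a b) → K.card ≤ M.card)
    (hw : M.card = w) {cs : List V} (hcs : IsCyc G cs) (h3 : 3 ≤ cs.length)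
    (hX : (k, w, cs.map (fun x => decide (x ∈ M))) ∈ [(8, 5, X3), (9, 5, X4), (9, 5, X5),
      (9, 5, X6), (10, 6, X7), (10, 6, X8), (11, 6, X9), (11, 6, X10), (13, 7, X11)]) : False := by
  have hdeg : ∀ v : V, k + 1 ≤ (nbC G {v}).card := fun v =>
    card_nbC_singleton_ge h.proper h.card_eq v
  rw [hw] at hmaxM
  simp only [List.mem_cons, List.not_mem_nil, or_false, Prod.mk.injEq] at hX
  rcases hX with ⟨rfl, rfl, hX⟩ | ⟨rfl, rfl, hX⟩ | ⟨rfl, rfl, hX⟩ | ⟨rfl, rfl, hX⟩ |
    ⟨rfl, rfl, hX⟩ | ⟨rfl, rfl, hX⟩ | ⟨rfl, rfl, hX⟩ | ⟨rfl, rfl, hX⟩ | ⟨rfl, rfl, hX⟩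
  · exact far ok3 (patHyp_of_map hM hcs h3 hX) h.free hdeg hmaxM h.alp_le
  · exact far ok4 (patHyp_of_map hM hcs h3 hX) h.free hdeg hmaxM h.alp_le
  · exact far ok5 (patHyp_of_map hM hcs h3 hX) h.free hdeg hmaxM h.alp_le
  · exact far ok6 (patHyp_of_map hM hcs h3 hX) h.free hdeg hmaxM h.alp_le
  · exact far ok7 (patHyp_of_map hM hcs h3 hX) h.free hdeg hmaxM h.alp_le
  · exact far ok8 (patHyp_of_map hM hcs h3 hX) h.free hdeg hmaxM h.alp_le
  · exact far ok9 (patHyp_of_map hM hcs h3 hX) h.free hdeg hmaxM h.alp_le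
  · exact far ok10 (patHyp_of_map hM hcs h3 hX) h.free hdeg hmaxM h.alp_le
  · exact far ok11 (patHyp_of_map hM hcs h3 hX) h.free hdeg hmaxM h.alp_le

/-- Theorem A: no minimal counterexample with maximum clique of size `w ≥ 5`, `2w ≥ k + 1`. -/
theorem MinCE.thmA (hcls : ClassifyStmt.{u}) (h : MinCE k G) {M : Finset V}
    (hM : ∀ a ∈ M, ∀ b ∈ M, a ≠ b → G.Adj a b)
    (hmaxM : ∀ K : Finset V, (∀ a ∈ K, ∀ b ∈ K, a ≠ b → G.Adj a b) → K.card ≤ M.card)
    (h5 : 5 ≤ M.card) (h2 : k + 1 ≤ 2 * M.card) : False := by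
  have hk3 := h.hk
  have hMk : M.card ≤ k := h.card_clique_le hM
  have hk4 : 4 ≤ k := by omega
  rcases Nat.lt_or_ge M.card k with hlt | hge
  · obtain ⟨C, hC⟩ := h.exists_maxCyc hM hmaxM (by omega) hMk
    obtain ⟨C', hC', hsub, hlen⟩ := hC.exists_longer h2 hlt
    have hMC' : ∀ a ∈ M, a ∈ C' := fun a ha => hsub a (hC.hMC a ha)
    have hCl := hC.hlen
    rcases Nat.lt_or_ge k C'.length with hl | hl
    · by_cases h1 : C'.length = k + 1
      · exact h.free (hC'.hasCyc' h1 (by omega))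
      · by_cases h2' : C'.length = k + 2
        · rcases drop_one hM hk3 (by omega) h2 hC' hMC' h2' with h3 | ⟨L', hL', hL'l, hL'M⟩
          · exact h.free h3
          · have := hC.hmax L' hL' hL'M (by omega)
            omega
        · have h34 : C'.length = k + 3 ∨ C'.length = k + 4 := by omega
          by_cases h8 : 8 ≤ M.card
          · exact h.free (drop_of_eight (o := C'.length - (k + 1)) hM hk3 h8 h2 hC' hMC'
              (by omega) (by omega))
          · rcases hcls V G k M.card M C' hM rfl h5 (by omega) h2 hlt hC' h34 hMC' with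
              h9 | ⟨cs, hcs, hperm, hX⟩
            · exact h.free h9
            · exact h.no_pattern hM hmaxM rfl hcs (by rw [hperm.length_eq]; omega) hX
    · have := hC.hmax C' hC' hMC' hl
      omega
  · exact h.no_clique_k hk4 hM (by omega)

end Crest.Agent.R054
end

-- ▼ part R054/ThmB
section

/-!
R054, Theorem B: there is no minimal counterexample `G` (`MinCE k G`, `6 ≤ k`) in which every clique
has at most `k/2` vertices.
-/

set_option autoImplicit false

open Finset

namespace Crest.Agent.R054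

universe u

variable {V : Type u} [Fintype V] {G : SimpleGraph V}

/-- Growth inequality: if `2|L_{j+1}| ≤ c j * alp L_{j+1}` for `j ≤ i` with `c j ≤ C`, then
`2 k a_i + 1·(gain) ≤ C (a_{i+1} + a_i - 1)`. -/
theorem MinCE.growth [DecidableEq V] {k : ℕ} (h : MinCE k G) (v : V) (C g : ℕ) (i : ℕ)
    (hL : 2 * ∑ j ∈ range (i + 1), (lay G v (j + 1)).card + g ≤
      C * ∑ j ∈ range (i + 1), alp G (lay G v (j + 1))) :
    2 * k * alp G (ball G v i) + g + C ≤ C * (alp G (ball G v (i + 1)) + alp G (ball G v i)) := by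
  have h1 := h.card_ball_succ v i
  have h2 := card_ball (G := G) v (i + 1)
  have h3 := alp_ball_add (G := G) v i
  have h4 : C * (1 + ∑ j ∈ range (i + 1), alp G (lay G v (j + 1))) ≤
      C * (alp G (ball G v (i + 1)) + alp G (ball G v i)) := Nat.mul_le_mul_left C h3
  rw [Nat.mul_add C 1] at h4
  have h5 : 2 * k * alp G (ball G v i) = 2 * (k * alp G (ball G v i)) := by ring
  omega

theorem sum_layers_le {v : V} [DecidableEq V] {C : ℕ} {n : ℕ}
    (hL : ∀ j < n, 2 * (lay G v (j + 1)).card ≤ C * alp G (lay G v (j + 1))) :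
    2 * ∑ j ∈ range n, (lay G v (j + 1)).card ≤ C * ∑ j ∈ range n, alp G (lay G v (j + 1)) := by
  rw [mul_sum, mul_sum]
  exact sum_le_sum fun j hj => hL j (mem_range.1 hj)

/-- A clique inside the neighbourhood of `v` extends by `v`. -/
theorem clique_lay_one [DecidableEq V] {v : V} {Q : Finset V} (hQ : Q ⊆ lay G v 1)
    (hcl : ∀ a ∈ Q, ∀ b ∈ Q, a ≠ b → G.Adj a b) :
    (∀ a ∈ insert v Q, ∀ b ∈ insert v Q, a ≠ b → G.Adj a b) ∧ (insert v Q).card = Q.card + 1 := by
  have hv : v ∉ Q := fun hv => G.loopless.irrefl _ (mem_lay_one.1 (hQ hv))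
  refine ⟨?_, card_insert_of_notMem hv⟩
  intro a ha b hb hab
  rcases mem_insert.1 ha with ha | ha <;> rcases mem_insert.1 hb with hb | hb
  · exact absurd (ha.trans hb.symm) hab
  · rw [ha]; exact mem_lay_one.1 (hQ hb)
  · rw [hb]; exact (mem_lay_one.1 (hQ ha)).symm
  · exact hcl a ha b hb hab

/-- Theorem B. -/
theorem MinCE.thmB {k : ℕ} (h : MinCE k G) (hk : 6 ≤ k)
    (hcl : ∀ Q : Finset V, (∀ a ∈ Q, ∀ b ∈ Q, a ≠ b → G.Adj a b) → 2 * Q.card ≤ k) : False := by
  classical
  have hV : 0 < Fintype.card V := by rw [h.card_eq]; omega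
  obtain ⟨v⟩ : Nonempty V := Fintype.card_pos_iff.1 hV
  have ha0 : alp G (ball G v 0) = 1 := by rw [ball_zero, alp_singleton]
  have htop : ∀ i, alp G (ball G v i) ≤ k := fun i => (alp_mono (subset_univ _)).trans h.alp_le
  -- first layer, threshold `k - 1`
  have hL1 : 2 * (lay G v 1).card ≤ (k - 1) * alp G (lay G v 1) := by
    refine layer1_bound (k := k) (c := k - 1) (by omega) (by omega) (by omega) h.free subset_rfl ?_
    intro Q hQ hQc
    obtain ⟨h1, h2⟩ := clique_lay_one hQ hQc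
    have h3 := hcl _ h1
    rw [h2] at h3
    omega
  rcases Nat.even_or_odd k with hev | hodd
  · -- `k` even
    obtain ⟨s, hs⟩ := hev
    have hl1 : 1 ≤ alp G (lay G v 1) := by
      apply alp_pos
      rw [← card_pos]
      have h1 := h.card_ball_succ v 0
      rw [ha0] at h1
      have h2 := card_ball (G := G) v 1
      simp only [zero_add, range_one, sum_singleton] at h1 h2
      omega
    have hstep : ∀ i, i + 1 ≤ s → alp G (ball G v i) + 2 ≤ alp G (ball G v (i + 1)) := by
      intro i hi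
      have hsum : 2 * ∑ j ∈ range (i + 1), (lay G v (j + 1)).card + 1 ≤
          k * ∑ j ∈ range (i + 1), alp G (lay G v (j + 1)) := by
        rw [sum_range_succ', sum_range_succ']
        have h1 : 2 * ∑ j ∈ range i, (lay G v (j + 1 + 1)).card ≤
            k * ∑ j ∈ range i, alp G (lay G v (j + 1 + 1)) := by
          rw [mul_sum, mul_sum]
          apply sum_le_sum
          intro j hj
          rw [mem_range] at hj
          exact layer_bound (k := k) hk (by omega) h.free (i := j + 1 + 1) (by omega) (by omega)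
            subset_rfl (fun Q _ hQ => hcl Q hQ)
        have h2 : (k - 1) * alp G (lay G v 1) + alp G (lay G v 1) = k * alp G (lay G v 1) := by
          obtain ⟨m, rfl⟩ : ∃ m, k = m + 1 := ⟨k - 1, by omega⟩
          simp; ring
        simp only [zero_add, mul_add]
        omega
      have hg := h.growth v k 1 i hsum
      have h3 : 2 * k * alp G (ball G v i) = k * alp G (ball G v i) + k * alp G (ball G v i) := by
        ring
      rw [h3, Nat.mul_add k] at hg
      have h4 : k * (alp G (ball G v i) + 1) < k * alp G (ball G v (i + 1)) := by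
        rw [Nat.mul_add]; omega
      have := lt_of_mul_lt_mul_left h4 (Nat.zero_le k)
      omega
    have hind : ∀ i, i ≤ s → 2 * i + 1 ≤ alp G (ball G v i) := by
      intro i
      induction i with
      | zero => intro _; omega
      | succ i ih =>
        intro hi
        have h1 := ih (by omega)
        have h2 := hstep i (by omega)
        omega
    have h1 := hind s le_rfl
    have h2 := htop s
    omega
  · -- `k` odd
    obtain ⟨s, hs⟩ := hodd
    have hs3 : 3 ≤ s := by omega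
    have hstep : ∀ i, i + 1 ≤ s →
        (s + 1) * alp G (ball G v i) + s ≤ s * alp G (ball G v (i + 1)) := by
      intro i hi
      have hsum : 2 * ∑ j ∈ range (i + 1), (lay G v (j + 1)).card + 0 ≤
          (2 * s) * ∑ j ∈ range (i + 1), alp G (lay G v (j + 1)) := by
        rw [add_zero]
        apply sum_layers_le
        intro j hj
        refine layer_bound (k := k) (by omega) (by omega) h.free (i := j + 1) (by omega) (by omega)
          subset_rfl (fun Q _ hQ => ?_)
        have := hcl Q hQ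
        omega
      have hg := h.growth v (2 * s) 0 i hsum
      rw [hs] at hg
      have e1 : 2 * (2 * s + 1) * alp G (ball G v i) =
          2 * ((s + 1) * alp G (ball G v i)) + 2 * (s * alp G (ball G v i)) := by ring
      have e2 : 2 * s * (alp G (ball G v (i + 1)) + alp G (ball G v i)) =
          2 * (s * alp G (ball G v (i + 1))) + 2 * (s * alp G (ball G v i)) := by ring
      rw [e1, e2] at hg
      omega
    have hind : ∀ i, i ≤ s → 2 * i + 1 ≤ alp G (ball G v i) := by
      intro i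
      induction i with
      | zero => intro _; omega
      | succ i ih =>
        intro hi
        have h1 := ih (by omega)
        have h2 := hstep i (by omega)
        have h3 : s * (alp G (ball G v i) + 1) < s * alp G (ball G v (i + 1)) := by
          have : (s + 1) * alp G (ball G v i) = s * alp G (ball G v i) + alp G (ball G v i) := by
            ring
          rw [Nat.mul_add]
          omega
        have := lt_of_mul_lt_mul_left h3 (Nat.zero_le s)
        omega
    -- last step gains three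
    have h1 := hind (s - 1) (by omega)
    have h2 := hstep (s - 1) (by omega)
    rw [show s - 1 + 1 = s by omega] at h2
    have h3 : s * (alp G (ball G v (s - 1)) + 2) < s * alp G (ball G v s) := by
      have : (s + 1) * alp G (ball G v (s - 1)) =
          s * alp G (ball G v (s - 1)) + alp G (ball G v (s - 1)) := by ring
      rw [Nat.mul_add]
      omega
    have h4 := lt_of_mul_lt_mul_left h3 (Nat.zero_le s)
    have h5 := htop s
    omega

end Crest.Agent.R054
end

-- ▼ part R054/Small3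
section

/-!
# R054 / Small3 : no minimal counterexample for `k = 3` (cycle length four).

Proof: if `a, b, c` is a triangle, the sets `A, B, C` of outside neighbours of `a, b, c` are
pairwise disjoint and far, so `alp = 3`, `|V| = 10`, they are cliques of size `1` or `2`, and every
further vertex sees at least two vertices of every transversal; counting gives a contradiction.
So `G` is triangle-free and `(N(u) - v) ∪ (N(v) - u)` is independent of size `≥ 4` for an edge `uv`.
-/

set_option autoImplicit false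

open Finset

namespace Crest.Agent.R054

universe u

namespace K3

variable {V : Type u} [Fintype V] {G : SimpleGraph V}

theorem no4 (h : MinCE 3 G) {a b c d : V} (hac : a ≠ c) (hbd : b ≠ d) (h1 : G.Adj a b)
    (h2 : G.Adj b c) (h3 : G.Adj c d) (h4 : G.Adj d a) : False := by
  refine h.free (IsCyc.hasCyc' (L := [a, b, c, d]) ⟨?_, ?_, ?_⟩ rfl (by norm_num))
  · simp [h1.ne, h2.ne, h3.ne, h4.ne.symm, hac, hbd]
  · simp [h1, h2, h3]
  · simpa using h4

/-- outside neighbours of `a` for the triangle `a, b, c` -/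
noncomputable def out [DecidableEq V] (G : SimpleGraph V) (a b c : V) : Finset V :=
  ((nb G a).erase b).erase c

theorem mem_out [DecidableEq V] {a b c x : V} :
    x ∈ out G a b c ↔ x ≠ c ∧ x ≠ b ∧ G.Adj a x := by
  simp [out]

theorem out_comm [DecidableEq V] (a b c : V) : out G a b c = out G a c b := by
  ext x; simp only [mem_out]; tauto

variable [DecidableEq V]

/-- a triangle -/
def Tri (G : SimpleGraph V) (a b c : V) : Prop := G.Adj a b ∧ G.Adj b c ∧ G.Adj a c

omit [Fintype V] [DecidableEq V] in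
theorem Tri.rot {a b c : V} (t : Tri G a b c) : Tri G b c a := ⟨t.2.1, t.2.2.symm, t.1.symm⟩


/-- outside neighbours of different triangle vertices are different and nonadjacent -/
theorem out_far (h : MinCE 3 G) {a b c x y : V} (t : Tri G a b c) (hx : x ∈ out G a b c)
    (hy : y ∈ out G b c a) : x ≠ y ∧ ¬ G.Adj x y := by
  rw [mem_out] at hx hy
  obtain ⟨t1, t2, t3⟩ := t
  constructor
  · rintro rfl
    exact no4 h (a := x) (b := a) (c := c) (d := b) hx.1 t1.ne hx.2.2.symm t3 t2.symm hy.2.2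
  · intro hxy
    exact no4 h (a := x) (b := a) (c := b) (d := y) hx.2.1 (Ne.symm hy.1) hx.2.2.symm t1 hy.2.2 hxy.symm

theorem out_not_adj (h : MinCE 3 G) {a b c x : V} (t : Tri G a b c) (hx : x ∈ out G a b c) :
    ¬ G.Adj b x := by
  intro hbx
  have hx' := mem_out.1 hx
  have : x ∈ out G b c a := mem_out.2 ⟨hx'.2.2.ne.symm, hx'.1, hbx⟩
  exact (out_far h t hx this).1 rfl

theorem out_not_adj' (h : MinCE 3 G) {a b c x : V} (t : Tri G a b c) (hx : x ∈ out G a b c) :
    ¬ G.Adj c x := by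
  rw [out_comm] at hx
  have t' : Tri G a c b := ⟨t.2.2, t.2.1.symm, t.1⟩
  exact out_not_adj h t' hx

theorem out_nonempty (h : MinCE 3 G) {a b c : V} : (out G a b c).Nonempty := by
  rw [← Finset.card_pos]
  have h1 := h.le_card_nb a
  have h2 := Finset.pred_card_le_card_erase (s := nb G a) (a := b)
  have h3 := Finset.pred_card_le_card_erase (s := (nb G a).erase b) (a := c)
  unfold out
  omega

omit [Fintype V] in
theorem indep3 {x y z : V} (h1 : ¬ G.Adj x y) (h2 : ¬ G.Adj x z) (h3 : ¬ G.Adj y z) :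
    Indep G {x, y, z} := by
  apply indep_insert (indep_pair h3)
  intro w hw
  simp only [Finset.mem_insert, Finset.mem_singleton] at hw
  rcases hw with rfl | rfl <;> assumption

omit [Fintype V] in
theorem indep4 {w x y z : V} (h1 : ¬ G.Adj w x) (h2 : ¬ G.Adj w y) (h3 : ¬ G.Adj w z)
    (h4 : ¬ G.Adj x y) (h5 : ¬ G.Adj x z) (h6 : ¬ G.Adj y z) : Indep G {w, x, y, z} := by
  apply indep_insert (indep3 h4 h5 h6)
  intro v hv
  simp only [Finset.mem_insert, Finset.mem_singleton] at hv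
  rcases hv with rfl | rfl | rfl <;> assumption

theorem no_indep4 (h : MinCE 3 G) {w x y z : V} (n1 : w ≠ x) (n2 : w ≠ y) (n3 : w ≠ z)
    (n4 : x ≠ y) (n5 : x ≠ z) (n6 : y ≠ z) (h1 : ¬ G.Adj w x) (h2 : ¬ G.Adj w y)
    (h3 : ¬ G.Adj w z) (h4 : ¬ G.Adj x y) (h5 : ¬ G.Adj x z) (h6 : ¬ G.Adj y z) : False := by
  have h7 := h.card_indep_le (indep4 h1 h2 h3 h4 h5 h6)
  have h8 : ({w, x, y, z} : Finset V).card = 4 := by
    rw [Finset.card_insert_of_notMem, Finset.card_insert_of_notMem, Finset.card_pair n6]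
    · simp [n4, n5]
    · simp [n1, n2, n3]
  omega

/-- the vertices not in the triangle and not adjacent to it -/
noncomputable def rest (G : SimpleGraph V) (a b c : V) : Finset V :=
  univ \ ({a, b, c} ∪ (out G a b c ∪ (out G b c a ∪ out G c a b)))

theorem mem_rest {a b c w : V} : w ∈ rest G a b c ↔
    w ≠ a ∧ w ≠ b ∧ w ≠ c ∧ ¬ G.Adj a w ∧ ¬ G.Adj b w ∧ ¬ G.Adj c w := by
  simp only [rest, Finset.mem_sdiff, Finset.mem_univ, true_and, Finset.mem_union,
    Finset.mem_insert, Finset.mem_singleton, mem_out]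
  tauto

theorem rest_rot (a b c : V) : rest G a b c = rest G b c a := by
  ext w; simp only [mem_rest]; tauto

/-- every vertex of the rest sees at least one of any `y ∈ B`, `z ∈ C`. -/
theorem rest_adj (h : MinCE 3 G) {a b c y z w : V} (t : Tri G a b c) (hy : y ∈ out G b c a)
    (hz : z ∈ out G c a b) (hw : w ∈ rest G a b c) : G.Adj w y ∨ G.Adj w z := by
  by_contra hcon
  push Not at hcon
  obtain ⟨h1, h2⟩ := hcon
  rw [mem_rest] at hw
  obtain ⟨w1, w2, w3, w4, w5, w6⟩ := hw
  have hyz := out_far h t.rot hy hz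
  have hay : ¬ G.Adj a y := out_not_adj' h t.rot hy
  have haz : ¬ G.Adj a z := out_not_adj h t.rot.rot hz
  have hya := (mem_out.1 hy).1
  have hza := (mem_out.1 hz).2.1
  have hwy : w ≠ y := by
    rintro rfl
    exact w5 (mem_out.1 hy).2.2
  have hwz : w ≠ z := by
    rintro rfl
    exact w6 (mem_out.1 hz).2.2
  exact no_indep4 h w1 hwy hwz (Ne.symm hya) (Ne.symm hza) hyz.1 (fun e => w4 e.symm) h1 h2
    hay haz hyz.2

/-- two different vertices have at most one common neighbour -/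
theorem common_le_one (h : MinCE 3 G) {x y : V} (hxy : x ≠ y) {S : Finset V}
    (hS : ∀ w ∈ S, G.Adj w x ∧ G.Adj w y) : S.card ≤ 1 := by
  rw [Finset.card_le_one]
  intro w hw w' hw'
  by_contra hne
  obtain ⟨h1, h2⟩ := hS w hw
  obtain ⟨h3, h4⟩ := hS w' hw'
  exact no4 h (a := w) (b := x) (c := w') (d := y) hne hxy h1 h3.symm h4 h2.symm

theorem card_univ_le {a b c : V} :
    Fintype.card V ≤ 3 + ((out G a b c).card + ((out G b c a).card + ((out G c a b).card)))
      + (rest G a b c).card := by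
  have h1 : (univ : Finset V) ⊆
      ({a, b, c} ∪ (out G a b c ∪ (out G b c a ∪ out G c a b))) ∪ rest G a b c := by
    intro x _
    simp only [rest, Finset.mem_union, Finset.mem_sdiff, Finset.mem_univ, true_and]
    tauto
  have h2 := Finset.card_le_card h1
  rw [Finset.card_univ] at h2
  have h3 := Finset.card_union_le ({a, b, c} ∪ (out G a b c ∪ (out G b c a ∪ out G c a b)))
    (rest G a b c)
  have h4 := Finset.card_union_le ({a, b, c} : Finset V)
    (out G a b c ∪ (out G b c a ∪ out G c a b))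
  have h5 := Finset.card_union_le (out G a b c) (out G b c a ∪ out G c a b)
  have h6 := Finset.card_union_le (out G b c a) (out G c a b)
  have h7 : ({a, b, c} : Finset V).card ≤ 3 := Finset.card_le_three
  omega

theorem alp_eq_three (h : MinCE 3 G) {a b c : V} (t : Tri G a b c) : alp G univ = 3 := by
  apply le_antisymm h.alp_le
  obtain ⟨x, hx⟩ := out_nonempty h (a := a) (b := b) (c := c)
  obtain ⟨y, hy⟩ := out_nonempty h (a := b) (b := c) (c := a)
  obtain ⟨z, hz⟩ := out_nonempty h (a := c) (b := a) (c := b)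
  have hxy := out_far h t hx hy
  have hyz := out_far h t.rot hy hz
  have hzx := out_far h t.rot.rot hz hx
  have hI : Indep G {x, y, z} := indep3 hxy.2 (fun e => hzx.2 e.symm) hyz.2
  have h1 := hI.card_le_alp (Finset.subset_univ _)
  have h2 : ({x, y, z} : Finset V).card = 3 := by
    rw [Finset.card_insert_of_notMem, Finset.card_pair hyz.1]
    simp [hxy.1, Ne.symm hzx.1]
  omega

/-- the outside neighbourhoods are cliques of size at most two -/
theorem out_card_le (h : MinCE 3 G) {a b c : V} (t : Tri G a b c) : (out G a b c).card ≤ 2 := by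
  obtain ⟨y, hy⟩ := out_nonempty h (a := b) (b := c) (c := a)
  obtain ⟨z, hz⟩ := out_nonempty h (a := c) (b := a) (c := b)
  have hyz := out_far h t.rot hy hz
  have hcl : ∀ p ∈ insert a (out G a b c), ∀ q ∈ insert a (out G a b c), p ≠ q → G.Adj p q := by
    intro p hp q hq hpq
    rw [Finset.mem_insert] at hp hq
    rcases hp with rfl | hp
    · rcases hq with rfl | hq
      · exact absurd rfl hpq
      · exact (mem_out.1 hq).2.2
    · rcases hq with rfl | hq
      · exact (mem_out.1 hp).2.2.symm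
      · by_contra hadj
        have hpy := out_far h t hp hy
        have hqy := out_far h t hq hy
        have hzp := out_far h t.rot.rot hz hp
        have hzq := out_far h t.rot.rot hz hq
        exact no_indep4 h hpq hpy.1 (Ne.symm hzp.1) hqy.1 (Ne.symm hzq.1) hyz.1 hadj hpy.2
          (fun e => hzp.2 e.symm) hqy.2 (fun e => hzq.2 e.symm) hyz.2
  have h1 := h.card_clique_le hcl
  rw [Finset.card_insert_of_notMem] at h1
  · omega
  · rw [mem_out]
    rintro ⟨_, _, h⟩
    exact G.irrefl h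

/-- an outside neighbourhood with two vertices is impossible -/
theorem no_two (h : MinCE 3 G) {a b c x x' : V} (t : Tri G a b c) (hx : x ∈ out G a b c)
    (hx' : x' ∈ out G a b c) (hne : x ≠ x') : False := by
  have hal := alp_eq_three h t
  have hcard := h.card_eq
  rw [hal] at hcard
  have h10 := card_univ_le (G := G) (a := a) (b := b) (c := c)
  have hA := out_card_le h t
  have hB := out_card_le h t.rot
  have hC := out_card_le h t.rot.rot
  -- every vertex of the rest sees all of B and C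
  have key : ∀ w ∈ rest G a b c, ∀ y ∈ out G b c a, ∀ z ∈ out G c a b, G.Adj w y ∧ G.Adj w z := by
    intro w hw y hy z hz
    have hnot : ¬ G.Adj w x ∨ ¬ G.Adj w x' := by
      by_contra hcon
      push Not at hcon
      have hw' := (mem_rest.1 hw).1
      exact no4 h (a := a) (b := x) (c := w) (d := x') (Ne.symm hw') hne (mem_out.1 hx).2.2
        hcon.1.symm hcon.2 (mem_out.1 hx').2.2.symm
    rcases hnot with hn | hn
    · constructor
      · have hw2 : w ∈ rest G c a b := by rw [← rest_rot, ← rest_rot]; exact hw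
        rcases rest_adj h t.rot.rot hx hy hw2 with h1 | h1
        · exact absurd h1 hn
        · exact h1
      · have hw2 : w ∈ rest G b c a := by rw [← rest_rot]; exact hw
        rcases rest_adj h t.rot hz hx hw2 with h1 | h1
        · exact h1
        · exact absurd h1 hn
    · constructor
      · have hw2 : w ∈ rest G c a b := by rw [← rest_rot, ← rest_rot]; exact hw
        rcases rest_adj h t.rot.rot hx' hy hw2 with h1 | h1
        · exact absurd h1 hn
        · exact h1
      · have hw2 : w ∈ rest G b c a := by rw [← rest_rot]; exact hw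
        rcases rest_adj h t.rot hz hx' hw2 with h1 | h1
        · exact h1
        · exact absurd h1 hn
  obtain ⟨y, hy⟩ := out_nonempty h (a := b) (b := c) (c := a)
  obtain ⟨z, hz⟩ := out_nonempty h (a := c) (b := a) (c := b)
  have hyz := out_far h t.rot hy hz
  have hW : (rest G a b c).card ≤ 1 := common_le_one h hyz.1 (fun w hw => key w hw y hy z hz)
  -- so B has two vertices, the rest is nonempty: contradiction
  have hB2 : 1 < (out G b c a).card := by omega
  have hW1 : 0 < (rest G a b c).card := by omega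
  obtain ⟨w, hw⟩ := Finset.card_pos.1 hW1
  obtain ⟨p, hp, q, hq, hpq⟩ := Finset.one_lt_card.1 hB2
  have h1 := (key w hw p hp z hz).1
  have h2 := (key w hw q hq z hz).1
  have hw' := (mem_rest.1 hw).2.1
  exact no4 h (a := b) (b := p) (c := w) (d := q) (Ne.symm hw') hpq (mem_out.1 hp).2.2
    h1.symm h2 (mem_out.1 hq).2.2.symm

theorem no_tri (h : MinCE 3 G) {a b c : V} (t : Tri G a b c) : False := by
  classical
  have hal := alp_eq_three h t
  have hcard := h.card_eq
  rw [hal] at hcard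
  have h10 := card_univ_le (G := G) (a := a) (b := b) (c := c)
  have hA : (out G a b c).card ≤ 1 := by
    rw [Finset.card_le_one]
    intro p hp q hq
    by_contra hne
    exact no_two h t hp hq hne
  have hB : (out G b c a).card ≤ 1 := by
    rw [Finset.card_le_one]
    intro p hp q hq
    by_contra hne
    exact no_two h t.rot hp hq hne
  have hC : (out G c a b).card ≤ 1 := by
    rw [Finset.card_le_one]
    intro p hp q hq
    by_contra hne
    exact no_two h t.rot.rot hp hq hne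
  obtain ⟨x, hx⟩ := out_nonempty h (a := a) (b := b) (c := c)
  obtain ⟨y, hy⟩ := out_nonempty h (a := b) (b := c) (c := a)
  obtain ⟨z, hz⟩ := out_nonempty h (a := c) (b := a) (c := b)
  have hxy := out_far h t hx hy
  have hyz := out_far h t.rot hy hz
  have hzx := out_far h t.rot.rot hz hx
  have hsub : rest G a b c ⊆ (rest G a b c).filter (fun w => G.Adj w x ∧ G.Adj w y) ∪
      ((rest G a b c).filter (fun w => G.Adj w y ∧ G.Adj w z) ∪
        (rest G a b c).filter (fun w => G.Adj w z ∧ G.Adj w x)) := by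
    intro w hw
    have h1 := rest_adj h t hy hz hw
    have h2 := rest_adj h t.rot hz hx (by rw [← rest_rot]; exact hw)
    have h3 := rest_adj h t.rot.rot hx hy (by rw [← rest_rot, ← rest_rot]; exact hw)
    simp only [Finset.mem_union, Finset.mem_filter]
    tauto
  have c1 := Finset.card_le_card hsub
  have c2 := common_le_one h hxy.1 (S := (rest G a b c).filter (fun w => G.Adj w x ∧ G.Adj w y))
    (fun w hw => (Finset.mem_filter.1 hw).2)
  have c3 := common_le_one h hyz.1 (S := (rest G a b c).filter (fun w => G.Adj w y ∧ G.Adj w z))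
    (fun w hw => (Finset.mem_filter.1 hw).2)
  have c4 := common_le_one h hzx.1 (S := (rest G a b c).filter (fun w => G.Adj w z ∧ G.Adj w x))
    (fun w hw => (Finset.mem_filter.1 hw).2)
  have c5 := (Finset.card_union_le ((rest G a b c).filter (fun w => G.Adj w x ∧ G.Adj w y))
      ((rest G a b c).filter (fun w => G.Adj w y ∧ G.Adj w z) ∪
        (rest G a b c).filter (fun w => G.Adj w z ∧ G.Adj w x)))
  have c6 := (Finset.card_union_le ((rest G a b c).filter (fun w => G.Adj w y ∧ G.Adj w z))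
        ((rest G a b c).filter (fun w => G.Adj w z ∧ G.Adj w x)))
  omega

end K3

/-- No minimal counterexample for `k = 3`. -/
theorem no_minCE_three {V : Type u} [Fintype V] {G : SimpleGraph V} : ¬ MinCE 3 G := by
  classical
  intro h
  have htri : ∀ a b c : V, G.Adj a b → G.Adj b c → G.Adj a c → False :=
    fun a b c h1 h2 h3 => K3.no_tri h ⟨h1, h2, h3⟩
  -- an edge `u v`
  have hV : 0 < Fintype.card V := by rw [h.card_eq]; omega
  obtain ⟨u⟩ := Fintype.card_pos_iff.1 hV
  have hu := h.le_card_nb u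
  obtain ⟨v, hv⟩ := Finset.card_pos.1 (show 0 < (nb G u).card by omega)
  rw [mem_nb] at hv
  have hvn := h.le_card_nb v
  -- the independent set
  have hI : Indep G ((nb G u).erase v ∪ (nb G v).erase u) := by
    apply Indep.union
    · intro x hx y hy hxy
      rw [Finset.mem_erase, mem_nb] at hx hy
      exact htri u x y hx.2 hxy hy.2
    · intro x hx y hy hxy
      rw [Finset.mem_erase, mem_nb] at hx hy
      exact htri v x y hx.2 hxy hy.2
    · intro x hx y hy hxy
      rw [Finset.mem_erase, mem_nb] at hx hy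
      exact K3.no4 h (a := u) (b := x) (c := y) (d := v) (Ne.symm hy.1) hx.1 hx.2 hxy hy.2.symm
        hv.symm
  have hd : Disjoint ((nb G u).erase v) ((nb G v).erase u) := by
    rw [Finset.disjoint_left]
    intro x hx hy
    rw [Finset.mem_erase, mem_nb] at hx hy
    exact htri u v x hv hy.2 hx.2
  have h1 := h.card_indep_le hI
  rw [Finset.card_union_of_disjoint hd, Finset.card_erase_of_mem (mem_nb.2 hv),
    Finset.card_erase_of_mem (mem_nb.2 hv.symm)] at h1
  omega

end Crest.Agent.R054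
end

-- ▼ part R054/Small45
section

/-!
# R054 / Small45 : no `K_4`-free minimal counterexample for `k = 4` and `k = 5`.
-/

set_option autoImplicit false

open Finset

namespace Crest.Agent.R054

universe u

namespace K45

variable {V : Type u} {G : SimpleGraph V}

/-- triangle-free set -/
def TriFree (G : SimpleGraph V) (Z : Finset V) : Prop :=
  ∀ x ∈ Z, ∀ y ∈ Z, ∀ z ∈ Z, G.Adj x y → G.Adj y z → G.Adj x z → False

/-- no path with four vertices in `Z` -/
def P4Free (G : SimpleGraph V) (Z : Finset V) : Prop :=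
  ∀ w ∈ Z, ∀ x ∈ Z, ∀ y ∈ Z, ∀ z ∈ Z, w ≠ y → w ≠ z → x ≠ z →
    G.Adj w x → G.Adj x y → G.Adj y z → False

/-- no path with five vertices in `Z` -/
def P5Free (G : SimpleGraph V) (Z : Finset V) : Prop :=
  ∀ v ∈ Z, ∀ w ∈ Z, ∀ x ∈ Z, ∀ y ∈ Z, ∀ z ∈ Z, v ≠ x → v ≠ y → v ≠ z → w ≠ y → w ≠ z → x ≠ z →
    G.Adj v w → G.Adj w x → G.Adj x y → G.Adj y z → False

theorem TriFree.mono {Z T : Finset V} (h : TriFree G Z) (hT : T ⊆ Z) : TriFree G T :=
  fun x hx y hy z hz => h x (hT hx) y (hT hy) z (hT hz)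

theorem P4Free.mono {Z T : Finset V} (h : P4Free G Z) (hT : T ⊆ Z) : P4Free G T :=
  fun w hw x hx y hy z hz => h w (hT hw) x (hT hx) y (hT hy) z (hT hz)

theorem P5Free.mono {Z T : Finset V} (h : P5Free G Z) (hT : T ⊆ Z) : P5Free G T :=
  fun v hv w hw x hx y hy z hz => h v (hT hv) w (hT hw) x (hT hx) y (hT hy) z (hT hz)

/-- a minimal subset violating `|T| ≤ 2 alp T` -/
theorem exists_min2 (Z : Finset V) (hZ : 2 * alp G Z < Z.card) :
    ∃ T, T ⊆ Z ∧ 2 * alp G T < T.card ∧ ∀ S, S ⊂ T → S.card ≤ 2 * alp G S := by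
  classical
  induction Z using Finset.strongInduction with
  | H Z ih =>
    by_cases hcon : ∀ S, S ⊂ Z → S.card ≤ 2 * alp G S
    · exact ⟨Z, Finset.Subset.refl Z, hZ, hcon⟩
    · push Not at hcon
      obtain ⟨S, hS, hS2⟩ := hcon
      obtain ⟨T, hT, hT2⟩ := ih S hS hS2
      exact ⟨T, hT.trans hS.1, hT2⟩

variable [Fintype V] [DecidableEq V]

/-- in a set all whose subsets satisfy `|S| ≤ 2 alp S` (proper ones suffice) -/
theorem card_inter_nbC {T I : Finset V} (hmin : ∀ S, S ⊂ T → S.card ≤ 2 * alp G S)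
    (hI : Indep G I) (hIT : I ⊆ T) (hne : I.Nonempty) :
    T.card + 2 * I.card ≤ 2 * alp G T + (T ∩ nbC G I).card := by
  have h1 := alp_sdiff_nbC hI hIT
  have h2 : T \ nbC G I ⊂ T := by
    rw [Finset.ssubset_iff_subset_ne]
    refine ⟨Finset.sdiff_subset, ?_⟩
    intro heq
    obtain ⟨v, hv⟩ := hne
    have h3 : v ∈ T \ nbC G I := by rw [heq]; exact hIT hv
    exact (Finset.mem_sdiff.1 h3).2 (subset_nbC I hv)
  have h3 := hmin _ h2
  have h4 := Finset.card_sdiff_add_card_inter T (nbC G I)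
  omega

/-- from `|T ∩ N[z]| ≥ 3` two distinct neighbours -/
theorem two_nbrs {T : Finset V} {z : V} (h : 3 ≤ (T ∩ nbC G {z}).card) :
    ∃ x ∈ T, ∃ y ∈ T, x ≠ y ∧ G.Adj z x ∧ G.Adj z y := by
  have h1 := Finset.pred_card_le_card_erase (s := T ∩ nbC G {z}) (a := z)
  have h2 : 1 < ((T ∩ nbC G {z}).erase z).card := by omega
  obtain ⟨x, hx, y, hy, hxy⟩ := Finset.one_lt_card.1 h2
  rw [Finset.mem_erase, Finset.mem_inter, mem_nbC_singleton] at hx hy
  refine ⟨x, hx.2.1, y, hy.2.1, hxy, ?_, ?_⟩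
  · rcases hx.2.2 with h | h
    · exact absurd h hx.1
    · exact h
  · rcases hy.2.2 with h | h
    · exact absurd h hy.1
    · exact h

theorem one_nbr {T : Finset V} {z : V} (h : 2 ≤ (T ∩ nbC G {z}).card) :
    ∃ x ∈ T, G.Adj z x := by
  have h1 := Finset.pred_card_le_card_erase (s := T ∩ nbC G {z}) (a := z)
  have h2 : 0 < ((T ∩ nbC G {z}).erase z).card := by omega
  obtain ⟨x, hx⟩ := Finset.card_pos.1 h2
  rw [Finset.mem_erase, Finset.mem_inter, mem_nbC_singleton] at hx
  refine ⟨x, hx.2.1, ?_⟩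
  rcases hx.2.2 with h | h
  · exact absurd h hx.1
  · exact h

/-- minimal violating sets have minimum degree two -/
theorem min2_two_nbrs {T : Finset V} (hT : 2 * alp G T < T.card)
    (hmin : ∀ S, S ⊂ T → S.card ≤ 2 * alp G S) {z : V} (hz : z ∈ T) :
    ∃ x ∈ T, ∃ y ∈ T, x ≠ y ∧ G.Adj z x ∧ G.Adj z y := by
  have h1 := card_inter_nbC hmin (indep_singleton z) (Finset.singleton_subset_iff.2 hz)
    (Finset.singleton_nonempty z)
  rw [Finset.card_singleton] at h1
  exact two_nbrs (by omega)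

/-- a further neighbour, different from a given one -/
theorem min2_other {T : Finset V} (hT : 2 * alp G T < T.card)
    (hmin : ∀ S, S ⊂ T → S.card ≤ 2 * alp G S) {z : V} (hz : z ∈ T) (u : V) :
    ∃ x ∈ T, x ≠ u ∧ G.Adj z x := by
  obtain ⟨x, hx, y, hy, hxy, h1, h2⟩ := min2_two_nbrs hT hmin hz
  by_cases h : x = u
  · exact ⟨y, hy, fun e => hxy (h.trans e.symm), h2⟩
  · exact ⟨x, hx, h, h1⟩

omit [Fintype V] [DecidableEq V] in
theorem min2_nonempty {T : Finset V} (hT : 2 * alp G T < T.card) : T.Nonempty := by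
  rw [← Finset.card_pos]; omega

theorem card_le_of_P4Free {Z : Finset V} (h3 : TriFree G Z) (h4 : P4Free G Z) :
    Z.card ≤ 2 * alp G Z := by
  by_contra hcon
  push Not at hcon
  obtain ⟨T, hTZ, hT, hmin⟩ := exists_min2 Z hcon
  obtain ⟨z, hz⟩ := min2_nonempty hT
  obtain ⟨x, hx, y, hy, hxy, h1, h2⟩ := min2_two_nbrs hT hmin hz
  obtain ⟨w, hw, hwz, hxw⟩ := min2_other hT hmin hx z
  have hwy : w ≠ y := by
    rintro rfl
    exact h3 z (hTZ hz) x (hTZ hx) w (hTZ hw) h1 hxw h2
  exact h4 w (hTZ hw) x (hTZ hx) z (hTZ hz) y (hTZ hy) hwz hwy hxy hxw.symm h1.symm h2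

/-- equality case: perfect matching -/
theorem matching_of_P4Free {Z : Finset V} (h3 : TriFree G Z) (h4 : P4Free G Z)
    (heq : 2 * alp G Z ≤ Z.card) : ∀ z ∈ Z, (∃ x ∈ Z, G.Adj z x) ∧
      ∀ x ∈ Z, ∀ y ∈ Z, G.Adj z x → G.Adj z y → x = y := by
  have hmin : ∀ S, S ⊂ Z → S.card ≤ 2 * alp G S :=
    fun S hS => card_le_of_P4Free (h3.mono hS.1) (h4.mono hS.1)
  intro z hz
  constructor
  · have h1 := card_inter_nbC hmin (indep_singleton z) (Finset.singleton_subset_iff.2 hz)
      (Finset.singleton_nonempty z)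
    rw [Finset.card_singleton] at h1
    exact one_nbr (by omega)
  · intro x hx y hy h1 h2
    by_contra hxy
    have hnadj : ¬ G.Adj x y := fun h => h3 z hz x hx y hy h1 h h2
    have h5 := card_inter_nbC (I := {x, y}) hmin (indep_pair hnadj)
      (by intro w hw; simp only [Finset.mem_insert, Finset.mem_singleton] at hw
          rcases hw with rfl | rfl <;> assumption) (Finset.insert_nonempty x {y})
    rw [Finset.card_pair hxy] at h5
    have h6 : Z ∩ nbC G {x, y} ⊆ {x, y, z} := by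
      intro w hw
      rw [Finset.mem_inter, nbC_pair, Finset.mem_union, mem_nbC_singleton,
        mem_nbC_singleton] at hw
      obtain ⟨hwZ, hw⟩ := hw
      simp only [Finset.mem_insert, Finset.mem_singleton]
      by_contra hcon
      push Not at hcon
      obtain ⟨n1, n2, n3⟩ := hcon
      rcases hw with (rfl | hw) | (rfl | hw)
      · exact n1 rfl
      · exact h4 w hwZ x hx z hz y hy n3 n2 hxy hw.symm h1.symm h2
      · exact n2 rfl
      · exact h4 w hwZ y hy z hz x hx n3 n1 (Ne.symm hxy) hw.symm h2.symm h1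
    have h7 := Finset.card_le_card h6
    have h8 : ({x, y, z} : Finset V).card ≤ 3 := Finset.card_le_three
    omega

theorem card_le_of_P5Free {Z : Finset V} (h3 : TriFree G Z) (h5 : P5Free G Z) :
    Z.card ≤ 2 * alp G Z := by
  by_contra hcon
  push Not at hcon
  obtain ⟨T, hTZ, hT, hmin⟩ := exists_min2 Z hcon
  have h3 := h3.mono hTZ
  have h5 := h5.mono hTZ
  clear hTZ hcon
  -- two distinct neighbours `y, y'` of `x` : the other neighbours of `y` and `y'` coincide
  have key : ∀ x ∈ T, ∀ y ∈ T, ∀ y' ∈ T, y ≠ y' → G.Adj x y → G.Adj x y' →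
      ∀ w ∈ T, ∀ w' ∈ T, w ≠ x → w' ≠ x → G.Adj y w → G.Adj y' w' → w = w' := by
    intro x hx y hy y' hy' hne hxy hxy' w hw w' hw' hwx hwx' hyw hyw'
    by_contra hww
    have h1 : w ≠ y' := by
      rintro rfl
      exact h3 x hx y hy w hw hxy hyw hxy'
    have h2 : w' ≠ y := by
      rintro rfl
      exact h3 x hx y' hy' w' hw' hxy' hyw' hxy
    exact h5 w hw y hy x hx y' hy' w' hw' hwx h1 hww hne (Ne.symm h2) (Ne.symm hwx') hyw.symm
      hxy.symm hxy' hyw'
  -- every vertex has exactly two neighbours in `T`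
  have deg2 : ∀ y ∈ T, ∀ a ∈ T, ∀ b ∈ T, ∀ c ∈ T, G.Adj y a → G.Adj y b → G.Adj y c →
      a ≠ b → b ≠ c → a = c := by
    intro y hy a ha b hb c hc h1 h2 h4 hab hbc
    -- `b` has another neighbour `y' ≠ y`; `y'` has another neighbour `w' ≠ b`
    obtain ⟨y', hy', hne, hby'⟩ := min2_other hT hmin hb y
    obtain ⟨w', hw', hne', hyw'⟩ := min2_other hT hmin hy' b
    have e1 := key b hb y hy y' hy' (Ne.symm hne) h2.symm hby' a ha w' hw' hab hne' h1 hyw'
    have e2 := key b hb y hy y' hy' (Ne.symm hne) h2.symm hby' c hc w' hw' (Ne.symm hbc) hne' h4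
      hyw'
    rw [e1, e2]
  obtain ⟨x, hx⟩ := min2_nonempty hT
  obtain ⟨y, hy, y', hy', hne, h1, h2⟩ := min2_two_nbrs hT hmin hx
  obtain ⟨w, hw, hwx, hyw⟩ := min2_other hT hmin hy x
  obtain ⟨w', hw', hwx', hyw'⟩ := min2_other hT hmin hy' x
  have hww := key x hx y hy y' hy' hne h1 h2 w hw w' hw' hwx hwx' hyw hyw'
  subst hww
  have hxw : ¬ G.Adj x w := by
    intro hxw
    have hyw2 : w ≠ y' := hyw'.ne.symm
    have := deg2 x hx y hy w hw y' hy' h1 hxw h2 hyw.ne hyw2
    exact hne this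
  have h6 := card_inter_nbC (I := {x, w}) hmin (indep_pair hxw)
      (by intro v hv; simp only [Finset.mem_insert, Finset.mem_singleton] at hv
          rcases hv with rfl | rfl <;> assumption) (Finset.insert_nonempty x {w})
  rw [Finset.card_pair (Ne.symm hwx)] at h6
  have h7 : T ∩ nbC G {x, w} ⊆ {x, w, y, y'} := by
    intro v hv
    rw [Finset.mem_inter, nbC_pair, Finset.mem_union, mem_nbC_singleton,
      mem_nbC_singleton] at hv
    obtain ⟨hvT, hv⟩ := hv
    simp only [Finset.mem_insert, Finset.mem_singleton]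
    by_contra hcon
    push Not at hcon
    obtain ⟨n1, n2, n3, n4⟩ := hcon
    rcases hv with (rfl | hv) | (rfl | hv)
    · exact n1 rfl
    · exact hne (deg2 x hx y hy v hvT y' hy' h1 hv h2 (Ne.symm n3) n4)
    · exact n2 rfl
    · exact hne (deg2 w hw y hy v hvT y' hy' hyw.symm hv hyw'.symm (Ne.symm n3) n4)
  have h8 := Finset.card_le_card h7
  have h9 : ({x, w, y, y'} : Finset V).card ≤ 4 := Finset.card_le_four
  omega

/-- the second BFS layer -/
noncomputable def L2 (G : SimpleGraph V) (v : V) : Finset V := by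
  classical exact univ.filter (fun w => w ≠ v ∧ ¬ G.Adj v w ∧ ∃ p, G.Adj v p ∧ G.Adj p w)

theorem mem_L2 {v w : V} :
    w ∈ L2 G v ↔ w ≠ v ∧ ¬ G.Adj v w ∧ ∃ p, G.Adj v p ∧ G.Adj p w := by
  simp [L2]

/-- `alp (L2) + 1 ≤ alp univ` -/
theorem alp_L2 (v : V) : alp G (L2 G v) + 1 ≤ alp G univ := by
  have h1 : v ∉ L2 G v := by
    intro h; exact (mem_L2.1 h).1 rfl
  have h2 := alp_insert_of_noAdj (G := G) h1 (fun x hx => (mem_L2.1 hx).2.1)
  rw [← h2]
  exact alp_mono (Finset.subset_univ _)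

/-- The size estimate: `k * alp(N(v)) ≤ |N(v)| + |L2(v)|`. -/
theorem card_two_layers {k : ℕ} (h : MinCE k G) (v : V) :
    k * alp G (nb G v) ≤ (nb G v).card + (L2 G v).card := by
  obtain ⟨I, hI, hII, hIc⟩ := exists_indep G (nb G v)
  have hne : I.Nonempty := by
    rw [← Finset.card_pos, hIc]
    have : (nb G v).Nonempty := by
      rw [← Finset.card_pos]
      have := h.le_card_nb v
      have := h.hk
      omega
    exact alp_pos this
  have h1 := h.card_nbC hII hne
  have h2 : nbC G I ⊆ insert v (nb G v ∪ L2 G v) := by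
    intro w hw
    rw [mem_nbC] at hw
    rw [Finset.mem_insert, Finset.mem_union, mem_nb, mem_L2]
    rcases hw with hw | ⟨p, hp, hpw⟩
    · exact Or.inr (Or.inl (mem_nb.1 (hI hw)))
    · by_cases h3 : w = v
      · exact Or.inl h3
      · by_cases h4 : G.Adj v w
        · exact Or.inr (Or.inl h4)
        · exact Or.inr (Or.inr ⟨h3, h4, p, mem_nb.1 (hI hp), hpw⟩)
  have h3 := Finset.card_le_card h2
  have h4 := Finset.card_insert_le v (nb G v ∪ L2 G v)
  have h5 := Finset.card_union_le (nb G v) (L2 G v)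
  rw [hIc] at h1
  omega

omit [DecidableEq V] in
theorem no5 (h : MinCE 4 G) {a b c d e : V} (hac : a ≠ c) (had : a ≠ d) (hbd : b ≠ d)
    (hbe : b ≠ e) (hce : c ≠ e) (h1 : G.Adj a b) (h2 : G.Adj b c) (h3 : G.Adj c d)
    (h4 : G.Adj d e) (h5 : G.Adj e a) : False := by
  refine h.free (IsCyc.hasCyc' (L := [a, b, c, d, e]) ⟨?_, ?_, ?_⟩ rfl (by norm_num))
  · simp [h1.ne, h2.ne, h3.ne, h4.ne, h5.ne.symm, hac, had, hbd, hbe, hce]
  · simp [h1, h2, h3, h4]
  · simpa using h5

omit [DecidableEq V] in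
theorem no6 (h : MinCE 5 G) {a b c d e f : V} (hac : a ≠ c) (had : a ≠ d) (hae : a ≠ e)
    (hbd : b ≠ d) (hbe : b ≠ e) (hbf : b ≠ f) (hce : c ≠ e) (hcf : c ≠ f) (hdf : d ≠ f)
    (h1 : G.Adj a b) (h2 : G.Adj b c) (h3 : G.Adj c d)
    (h4 : G.Adj d e) (h5 : G.Adj e f) (h6 : G.Adj f a) : False := by
  refine h.free (IsCyc.hasCyc' (L := [a, b, c, d, e, f]) ⟨?_, ?_, ?_⟩ rfl (by norm_num))
  · simp [h1.ne, h2.ne, h3.ne, h4.ne, h5.ne, h6.ne.symm, hac, had, hae, hbd, hbe, hbf, hce, hcf,
      hdf]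
  · simp [h1, h2, h3, h4, h5]
  · simpa using h6

omit [Fintype V] in
theorem noK4 (hω : ∀ K : Finset V, (∀ a ∈ K, ∀ b ∈ K, a ≠ b → G.Adj a b) → K.card ≤ 3)
    {a b c d : V} (h1 : G.Adj a b) (h2 : G.Adj a c) (h3 : G.Adj a d) (h4 : G.Adj b c)
    (h5 : G.Adj b d) (h6 : G.Adj c d) : False := by
  have h7 := hω {a, b, c, d} (by
    intro x hx y hy hxy
    simp only [Finset.mem_insert, Finset.mem_singleton] at hx hy
    rcases hx with rfl | rfl | rfl | rfl <;> rcases hy with rfl | rfl | rfl | rfl <;>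
      first
        | exact absurd rfl hxy
        | assumption
        | (apply SimpleGraph.Adj.symm; assumption))
  have h8 : ({a, b, c, d} : Finset V).card = 4 := by
    rw [Finset.card_insert_of_notMem, Finset.card_insert_of_notMem, Finset.card_pair h6.ne]
    · simp [h4.ne, h5.ne]
    · simp [h1.ne, h2.ne, h3.ne]
  omega

/-- abbreviation: clique number at most three -/
def Om3 (G : SimpleGraph V) : Prop :=
  ∀ K : Finset V, (∀ a ∈ K, ∀ b ∈ K, a ≠ b → G.Adj a b) → K.card ≤ 3

/-! ### `k = 4` -/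

theorem nb_triFree (hω : Om3 G) (v : V) : TriFree G (nb G v) := by
  intro x hx y hy z hz h1 h2 h3
  rw [mem_nb] at hx hy hz
  exact noK4 hω hx hy hz h1 h3 h2

omit [DecidableEq V] in
theorem nb_P4Free (h : MinCE 4 G) (v : V) : P4Free G (nb G v) := by
  intro w hw x hx y hy z hz n1 n2 n3 h1 h2 h3
  rw [mem_nb] at hw hx hy hz
  exact no5 h (a := v) (b := w) (c := x) (d := y) (e := z) hx.ne hy.ne n1 n2 n3 hw h1 h2 h3
    hz.symm

/-- both ends of an edge in the second layer have the same parents -/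
theorem L2_parent4 (h : MinCE 4 G) {v x y p q : V} (hx : x ∈ L2 G v) (hy : y ∈ L2 G v)
    (hxy : G.Adj x y) (hp : G.Adj v p) (hpx : G.Adj p x) (hq : G.Adj v q) (hqy : G.Adj q y) :
    p = q := by
  by_contra hpq
  rw [mem_L2] at hx hy
  have h1 : p ≠ y := by rintro rfl; exact hy.2.1 hp
  have h2 : x ≠ q := by rintro rfl; exact hx.2.1 hq
  exact no5 h (a := v) (b := p) (c := x) (d := y) (e := q) (Ne.symm hx.1) (Ne.symm hy.1) h1 hpq
    h2 hp hpx hxy hqy.symm hq.symm

theorem L2_triFree4 (h : MinCE 4 G) (hω : Om3 G) (v : V) : TriFree G (L2 G v) := by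
  intro x hx y hy z hz h1 h2 h3
  obtain ⟨-, -, p, hp, hpx⟩ := mem_L2.1 hx
  obtain ⟨-, -, q, hq, hqy⟩ := mem_L2.1 hy
  obtain ⟨-, -, r, hr, hrz⟩ := mem_L2.1 hz
  have e1 := L2_parent4 h hx hy h1 hp hpx hq hqy
  have e2 := L2_parent4 h hx hz h3 hp hpx hr hrz
  subst e1; subst e2
  exact noK4 hω hpx hqy hrz h1 h3 h2

theorem L2_P4Free (h : MinCE 4 G) (v : V) : P4Free G (L2 G v) := by
  intro w hw x hx y hy z hz n1 n2 n3 h1 h2 h3
  obtain ⟨-, -, s, hs, hsw⟩ := mem_L2.1 hw
  obtain ⟨-, -, p, hp, hpx⟩ := mem_L2.1 hx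
  obtain ⟨-, -, q, hq, hqy⟩ := mem_L2.1 hy
  obtain ⟨-, -, r, hr, hrz⟩ := mem_L2.1 hz
  have e1 := L2_parent4 h hw hx h1 hs hsw hp hpx
  have e2 := L2_parent4 h hx hy h2 hp hpx hq hqy
  have e3 := L2_parent4 h hy hz h3 hq hqy hr hrz
  subst e1; subst e2; subst e3
  exact no5 h (a := s) (b := w) (c := x) (d := y) (e := z) hpx.ne hqy.ne n1 n2 n3 hsw h1 h2 h3
    hrz.symm

/-- for `k = 4` and `K_4`-free: all neighbourhoods induce perfect matchings -/
theorem nb_matching (h : MinCE 4 G) (hω : Om3 G) (v : V) : ∀ z ∈ nb G v,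
    (∃ x ∈ nb G v, G.Adj z x) ∧
      ∀ x ∈ nb G v, ∀ y ∈ nb G v, G.Adj z x → G.Adj z y → x = y := by
  apply matching_of_P4Free (nb_triFree hω v) (nb_P4Free h v)
  have h1 := card_le_of_P4Free (nb_triFree hω v) (nb_P4Free h v)
  have h2 := card_le_of_P4Free (L2_triFree4 h hω v) (L2_P4Free h v)
  have h3 := card_two_layers h v
  have h4 := alp_L2 (G := G) v
  have h5 := h.alp_le
  have h6 := h.le_card_nb v
  omega

theorem exists_out4 (h : MinCE 4 G) (hω : Om3 G) {v p : V} (hp : p ∈ nb G v) :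
    ∃ y, G.Adj p y ∧ y ≠ v ∧ ¬ G.Adj v y := by
  by_contra hcon
  push Not at hcon
  -- all neighbours of `p` are `v` or in `nb v`
  obtain ⟨⟨x, hx, hpx⟩, huniq⟩ := nb_matching h hω v p hp
  have h1 : nb G p ⊆ {v, x} := by
    intro y hy
    rw [mem_nb] at hy
    rw [Finset.mem_insert, Finset.mem_singleton]
    by_cases hyv : y = v
    · exact Or.inl hyv
    · exact Or.inr (huniq y (mem_nb.2 (hcon y hy hyv)) x hx hy hpx)
  have h2 := Finset.card_le_card h1
  have h3 : ({v, x} : Finset V).card ≤ 2 := Finset.card_le_two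
  have h4 := h.le_card_nb p
  omega

theorem no_minCE_four_aux (h : MinCE 4 G) (hω : Om3 G) : False := by
  classical
  have hV : 0 < Fintype.card V := by rw [h.card_eq]; omega
  obtain ⟨v⟩ := Fintype.card_pos_iff.1 hV
  choose! f hf using fun p (hp : p ∈ nb G v) => exists_out4 h hω hp
  have hfar : ∀ p ∈ nb G v, ∀ q ∈ nb G v, p ≠ q → f p ≠ f q ∧ ¬ G.Adj (f p) (f q) := by
    intro p hp q hq hpq
    obtain ⟨p1, p2, p3⟩ := hf p hp
    obtain ⟨q1, q2, q3⟩ := hf q hq
    have hp' := mem_nb.1 hp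
    have hq' := mem_nb.1 hq
    have hne : f p ≠ f q := by
      intro heq
      rw [← heq] at q1
      -- `y = f p` adjacent to both `p` and `q`
      obtain ⟨⟨y', hy', hyy'⟩, _⟩ := nb_matching h hω p (f p) (mem_nb.2 p1)
      have hpy' := mem_nb.1 hy'
      have hy'v : y' ≠ v := by
        rintro rfl; exact p3 hyy'.symm
      by_cases hy'q : y' = q
      · subst hy'q
        obtain ⟨_, huniq⟩ := nb_matching h hω p y' (mem_nb.2 hpy')
        exact p2 (huniq (f p) (mem_nb.2 p1) v (mem_nb.2 hp'.symm) q1 hq'.symm)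
      · exact no5 h (a := v) (b := p) (c := y') (d := f p) (e := q) (Ne.symm hy'v) (Ne.symm p2)
          p1.ne hpq hy'q hp' hpy' hyy'.symm q1.symm hq'.symm
    refine ⟨hne, fun hadj => ?_⟩
    have h1 : p ≠ f q := by
      rintro heq
      exact q3 (heq ▸ hp')
    have h2 : f p ≠ q := by
      rintro heq
      exact p3 (heq.symm ▸ hq')
    exact no5 h (a := v) (b := p) (c := f p) (d := f q) (e := q) (Ne.symm p2) (Ne.symm q2) h1 hpq
      h2 hp' p1 hadj q1.symm hq'.symm
  have hinj : Set.InjOn f (nb G v : Set V) := by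
    intro p hp q hq heq
    by_contra hpq
    exact (hfar p hp q hq hpq).1 heq
  have hI : Indep G (insert v ((nb G v).image f)) := by
    apply indep_insert
    · intro x hx y hy hxy
      rw [Finset.mem_image] at hx hy
      obtain ⟨p, hp, rfl⟩ := hx
      obtain ⟨q, hq, rfl⟩ := hy
      by_cases hpq : p = q
      · subst hpq; exact G.irrefl hxy
      · exact (hfar p hp q hq hpq).2 hxy
    · intro x hx
      rw [Finset.mem_image] at hx
      obtain ⟨p, hp, rfl⟩ := hx
      exact (hf p hp).2.2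
  have h1 := h.card_indep_le hI
  rw [Finset.card_insert_of_notMem, Finset.card_image_of_injOn hinj] at h1
  · have := h.le_card_nb v
    omega
  · rw [Finset.mem_image]
    rintro ⟨p, hp, hpv⟩
    exact (hf p hp).2.1 hpv

/-! ### `k = 5` -/

omit [DecidableEq V] in
theorem nb_P5Free (h : MinCE 5 G) (v : V) : P5Free G (nb G v) := by
  intro u hu w hw x hx y hy z hz n1 n2 n3 n4 n5 n6 h1 h2 h3 h4
  rw [mem_nb] at hu hw hx hy hz
  exact no6 h (a := v) (b := u) (c := w) (d := x) (e := y) (f := z) hw.ne hx.ne hy.ne n1 n2 n3 n4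
    n5 n6 hu h1 h2 h3 h4 hz.symm

/-- the two ends of a path with three vertices in the second layer have the same parents -/
theorem L2_parent5 (h : MinCE 5 G) {v x y z p q : V} (hx : x ∈ L2 G v) (hy : y ∈ L2 G v)
    (hz : z ∈ L2 G v) (hxz : x ≠ z)
    (hxy : G.Adj x y) (hyz : G.Adj y z) (hp : G.Adj v p) (hpx : G.Adj p x) (hq : G.Adj v q)
    (hqz : G.Adj q z) : p = q := by
  by_contra hpq
  rw [mem_L2] at hx hy hz
  have h1 : p ≠ y := by rintro rfl; exact hy.2.1 hp
  have h1' : p ≠ z := by rintro rfl; exact hz.2.1 hp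
  have h2 : x ≠ q := by rintro rfl; exact hx.2.1 hq
  have h2' : y ≠ q := by rintro rfl; exact hy.2.1 hq
  exact no6 h (a := v) (b := p) (c := x) (d := y) (e := z) (f := q) (Ne.symm hx.1) (Ne.symm hy.1)
    (Ne.symm hz.1) h1 h1' hpq hxz h2 h2' hp hpx hxy hyz hqz.symm hq.symm

theorem L2_card5 (h : MinCE 5 G) (hω : Om3 G) (v : V) : (L2 G v).card ≤ 2 * alp G (L2 G v) := by
  classical
  by_contra hcon
  push Not at hcon
  obtain ⟨T, hTZ, hT, hmin⟩ := exists_min2 _ hcon
  -- unique parents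
  have huniq : ∀ x ∈ T, ∀ p q, G.Adj v p → G.Adj v q → G.Adj p x → G.Adj q x → p = q := by
    intro x hx p q hp hq hpx hqx
    obtain ⟨y, hy, -, hxy⟩ := min2_other hT hmin hx x
    obtain ⟨z, hz, hzx, hyz⟩ := min2_other hT hmin hy x
    obtain ⟨-, -, r, hr, hrz⟩ := mem_L2.1 (hTZ hz)
    have e1 := L2_parent5 h (hTZ hx) (hTZ hy) (hTZ hz) (Ne.symm hzx) hxy hyz hp hpx hr hrz
    have e2 := L2_parent5 h (hTZ hx) (hTZ hy) (hTZ hz) (Ne.symm hzx) hxy hyz hq hqx hr hrz
    rw [e1, e2]
  obtain ⟨x, hx⟩ := min2_nonempty hT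
  obtain ⟨y, hy, -, hxy⟩ := min2_other hT hmin hx x
  obtain ⟨-, -, p, hp, hpx⟩ := mem_L2.1 (hTZ hx)
  obtain ⟨-, -, q, hq, hqy⟩ := mem_L2.1 (hTZ hy)
  -- neighbours of a vertex with a neighbour below `q` are all below `q`
  have hnb : ∀ a ∈ T, ∀ b ∈ T, ∀ c ∈ T, ∀ r, G.Adj v r → G.Adj a b → G.Adj a c → G.Adj r b →
      G.Adj r c := by
    intro a ha b hb c hc r hr hab hac hrb
    by_cases hbc : b = c
    · subst hbc; exact hrb
    · obtain ⟨-, -, r', hr', hrc⟩ := mem_L2.1 (hTZ hc)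
      have := L2_parent5 h (hTZ hb) (hTZ ha) (hTZ hc) hbc hab.symm hac hr hrb hr' hrc
      rw [this]; exact hrc
  let K : Finset V := T.filter (fun z => (G.Adj p z ∧ ∀ w ∈ T, G.Adj z w → G.Adj q w) ∨
    (G.Adj q z ∧ ∀ w ∈ T, G.Adj z w → G.Adj p w))
  have hxK : x ∈ K := by
    refine Finset.mem_filter.2 ⟨hx, Or.inl ⟨hpx, fun w hw hxw => ?_⟩⟩
    exact hnb x hx y hy w hw q hq hxy hxw hqy
  have hclosed : ∀ z ∈ K, ∀ w ∈ T, G.Adj z w → w ∈ K := by
    intro z hz w hw hzw
    obtain ⟨hzT, hz⟩ := Finset.mem_filter.1 hz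
    refine Finset.mem_filter.2 ⟨hw, ?_⟩
    rcases hz with ⟨hz1, hz2⟩ | ⟨hz1, hz2⟩
    · refine Or.inr ⟨hz2 w hw hzw, fun u hu hwu => ?_⟩
      exact hnb w hw z hzT u hu p hp hzw.symm hwu hz1
    · refine Or.inl ⟨hz2 w hw hzw, fun u hu hwu => ?_⟩
      exact hnb w hw z hzT u hu q hq hzw.symm hwu hz1
  -- `K = T`
  have hKT : K = T := by
    by_contra hne
    have hKs : K ⊂ T := (Finset.filter_subset _ _).ssubset_of_ne hne
    have hKs' : T \ K ⊂ T := by
      rw [Finset.ssubset_iff_subset_ne]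
      refine ⟨Finset.sdiff_subset, fun heq => ?_⟩
      have : x ∈ T \ K := by rw [heq]; exact hx
      exact (Finset.mem_sdiff.1 this).2 hxK
    have h1 := hmin _ hKs
    have h2 := hmin _ hKs'
    have h3 : alp G K + alp G (T \ K) ≤ alp G (K ∪ T \ K) := by
      apply alp_add_le Finset.disjoint_sdiff
      intro a ha b hb hab
      obtain ⟨hb1, hb2⟩ := Finset.mem_sdiff.1 hb
      exact hb2 (hclosed a ha b hb1 hab)
    have h4 : K ∪ T \ K = T := by
      rw [Finset.union_sdiff_of_subset hKs.1]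
    have h5 := Finset.card_sdiff_add_card_eq_card hKs.1
    rw [h4] at h3
    omega
  by_cases hpq : p = q
  · -- `T ⊆ N(p)`
    subst hpq
    have hTp : T ⊆ nb G p := by
      intro z hz
      rw [← hKT] at hz
      rw [mem_nb]
      rcases (Finset.mem_filter.1 hz).2 with h1 | h1 <;> exact h1.1
    have := card_le_of_P5Free ((nb_triFree hω p).mono hTp) ((nb_P5Free h p).mono hTp)
    omega
  · -- bipartite
    have hsub : T ⊆ T.filter (fun z => G.Adj p z) ∪ T.filter (fun z => G.Adj q z) := by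
      intro z hz
      have hz' := hz
      rw [← hKT] at hz'
      rw [Finset.mem_union, Finset.mem_filter, Finset.mem_filter]
      rcases (Finset.mem_filter.1 hz').2 with h1 | h1
      · exact Or.inl ⟨hz, h1.1⟩
      · exact Or.inr ⟨hz, h1.1⟩
    have hP : Indep G (T.filter (fun z => G.Adj p z)) := by
      intro a ha b hb hab
      rw [Finset.mem_filter] at ha hb
      have ha' := ha.1
      rw [← hKT] at ha'
      rcases (Finset.mem_filter.1 ha').2 with h1 | h1
      · exact hpq (huniq b hb.1 p q hp hq hb.2 (h1.2 b hb.1 hab))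
      · exact hpq (huniq a ha.1 p q hp hq ha.2 h1.1)
    have hQ : Indep G (T.filter (fun z => G.Adj q z)) := by
      intro a ha b hb hab
      rw [Finset.mem_filter] at ha hb
      have ha' := ha.1
      rw [← hKT] at ha'
      rcases (Finset.mem_filter.1 ha').2 with h1 | h1
      · exact hpq (huniq a ha.1 p q hp hq h1.1 ha.2)
      · exact hpq (huniq b hb.1 p q hp hq (h1.2 b hb.1 hab) hb.2)
    have c1 := hP.card_le_alp (Finset.filter_subset _ T)
    have c2 := hQ.card_le_alp (Finset.filter_subset _ T)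
    have c3 := Finset.card_le_card hsub
    have c4 := Finset.card_union_le (T.filter (fun z => G.Adj p z)) (T.filter (fun z => G.Adj q z))
    omega

theorem no_minCE_five_aux (h : MinCE 5 G) (hω : Om3 G) : False := by
  have hV : 0 < Fintype.card V := by rw [h.card_eq]; omega
  obtain ⟨v⟩ := Fintype.card_pos_iff.1 hV
  have h1 := card_le_of_P5Free (nb_triFree hω v) (nb_P5Free h v)
  have h2 := L2_card5 h hω v
  have h3 := card_two_layers h v
  have h4 := alp_L2 (G := G) v
  have h5 := h.alp_le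
  have h6 := h.le_card_nb v
  omega

end K45

/-- No minimal counterexample for `k = 4` with clique number at most `3`. -/
theorem no_minCE_four {V : Type u} [Fintype V] {G : SimpleGraph V} (h : MinCE 4 G)
    (hω : ∀ K : Finset V, (∀ a ∈ K, ∀ b ∈ K, a ≠ b → G.Adj a b) → K.card ≤ 3) : False := by
  classical
  exact K45.no_minCE_four_aux h hω

/-- No minimal counterexample for `k = 5` with clique number at most `3`. -/
theorem no_minCE_five {V : Type u} [Fintype V] {G : SimpleGraph V} (h : MinCE 5 G)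
    (hω : ∀ K : Finset V, (∀ a ∈ K, ∀ b ∈ K, a ≠ b → G.Adj a b) → K.card ≤ 3) : False := by
  classical
  exact K45.no_minCE_five_aux h hω

end Crest.Agent.R054
end

-- ▼ part R054/Small54
section

/-!
# R054 / Small54 : the case `k = 5`, `ω = 4`
-/

set_option autoImplicit false

open Finset

set_option linter.unusedSectionVars false

namespace Crest.Agent.R054

universe u

variable {V : Type u} [Fintype V] [DecidableEq V] {G : SimpleGraph V}

/-- an explicit 6-cycle -/
theorem hasCyc_six {a b c d e f : V} (hnd : [a, b, c, d, e, f].Nodup) (h1 : G.Adj a b)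
    (h2 : G.Adj b c) (h3 : G.Adj c d) (h4 : G.Adj d e) (h5 : G.Adj e f) (h6 : G.Adj f a) :
    HasCyc G 6 := by
  refine IsCyc.hasCyc' (L := [a, b, c, d, e, f]) ⟨hnd, ?_, ?_⟩ rfl (by norm_num)
  · simp only [List.isChain_cons_cons, List.isChain_singleton, and_true]
    exact ⟨h1, h2, h3, h4, h5⟩
  · intro x hx y hy
    simp at hx hy
    subst hx; subst hy; exact h6

/-- an outside path between two vertices of a clique -/
theorem hasCyc_of_clique_path {M : Finset V} (hM : ∀ a ∈ M, ∀ b ∈ M, a ≠ b → G.Adj a b)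
    {a b : V} (ha : a ∈ M) (hb : b ∈ M) (hab : a ≠ b) {Q : List V} (hQ : IsPth G Q) (hQn : Q ≠ [])
    (hQM : ∀ y ∈ Q, y ∉ M) (h1 : G.Adj a (Q.head hQn)) (h2 : G.Adj (Q.getLast hQn) b) {n : ℕ}
    (hn1 : Q.length + 2 ≤ n) (hn2 : n ≤ Q.length + M.card) : HasCyc G n := by
  have hnd : ((a :: (Q ++ [b])) : List V).Nodup := by
    rw [List.nodup_cons, List.nodup_append']
    refine ⟨?_, hQ.1, List.nodup_singleton b, ?_⟩
    · intro h
      rcases List.mem_append.1 h with h | h
      · exact hQM a h ha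
      · exact hab (List.mem_singleton.1 h)
    · intro y hy hy'
      rw [List.mem_singleton] at hy'
      subst hy'
      exact hQM y hy hb
  have hlen : ((a :: (Q ++ [b])) : List V).length = Q.length + 2 := by simp
  have hQ0 : 0 < Q.length := List.length_pos_iff.2 hQn
  refine hasCyc_of_blocks hM [a :: (Q ++ [b])] ?_ ?_ (n := n) ?_ ?_ (by omega)
  · intro L hL
    rw [List.mem_singleton] at hL
    subst hL
    refine ⟨?_, ?_, ?_⟩
    · obtain ⟨q, Q', rfl⟩ := List.exists_cons_of_ne_nil hQn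
      rw [List.cons_append, List.isChain_cons_cons, ← List.cons_append, List.isChain_append]
      refine ⟨h1, hQ.2, List.isChain_singleton b, ?_⟩
      intro x hx y hy
      rw [List.getLast?_eq_getLast_of_ne_nil hQn] at hx
      simp only [Option.mem_def, Option.some.injEq, List.head?_cons] at hx hy
      subst hx; subst hy; exact h2
    · intro x hx
      simp only [List.head?_cons, Option.mem_def, Option.some.injEq] at hx
      subst hx; exact ha
    · intro x hx
      rw [List.getLast?_cons_of_ne_nil (by simp), List.getLast?_append_of_ne_nil _ (by simp)] at hx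
      simp only [List.getLast?_singleton, Option.mem_def, Option.some.injEq] at hx
      subst hx; exact hb
  · simpa using hnd
  · rw [List.flatten_singleton, hlen]; exact hn1
  · rw [List.flatten_singleton, hlen]
    have h3 : M \ (a :: (Q ++ [b])).toFinset = M \ {a, b} := by
      ext y
      simp only [mem_sdiff, List.mem_toFinset, List.mem_cons, List.mem_append, mem_insert,
        mem_singleton, List.not_mem_nil, or_false]
      constructor
      · rintro ⟨hy, hn⟩
        exact ⟨hy, fun h => hn (h.elim Or.inl (fun h => Or.inr (Or.inr h)))⟩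
      · rintro ⟨hy, hn⟩
        refine ⟨hy, ?_⟩
        rintro (h | h | h)
        · exact hn (Or.inl h)
        · exact hQM y h hy
        · exact hn (Or.inr h)
    rw [h3]
    have h4 : ({a, b} : Finset V) ⊆ M := by
      intro y hy
      rcases mem_insert.1 hy with rfl | hy
      · exact ha
      · rw [mem_singleton.1 hy]; exact hb
    have h5 := card_sdiff_add_card_eq_card h4
    rw [card_pair hab] at h5
    omega

/-- a nonadjacent pair in a set with more vertices than every clique -/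
theorem exists_nonadj_pair {w : ℕ}
    (hmax : ∀ K : Finset V, (∀ a ∈ K, ∀ b ∈ K, a ≠ b → G.Adj a b) → K.card ≤ w)
    {B : Finset V} (hB : w < B.card) : ∃ J ⊆ B, Indep G J ∧ J.card = 2 := by
  by_contra hcon
  push Not at hcon
  have : ∀ a ∈ B, ∀ b ∈ B, a ≠ b → G.Adj a b := by
    intro a ha b hb hab
    by_contra hadj
    refine hcon {a, b} ?_ (indep_pair hadj) (card_pair hab)
    intro y hy
    rcases mem_insert.1 hy with rfl | hy
    · exact ha
    · rw [mem_singleton.1 hy]; exact hb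
  have := hmax B this
  omega

section Five

variable {M : Finset V}

/-- outside paths with 2, 3 or 4 vertices between two vertices of a `K₄` give a 6-cycle -/
theorem five_path (h : MinCE 5 G) (hM : ∀ a ∈ M, ∀ b ∈ M, a ≠ b → G.Adj a b) (hc : M.card = 4)
    {a b : V} (ha : a ∈ M) (hb : b ∈ M) (hab : a ≠ b) {Q : List V} (hQ : IsPth G Q) (hQn : Q ≠ [])
    (hQM : ∀ y ∈ Q, y ∉ M) (h1 : G.Adj a (Q.head hQn)) (h2 : G.Adj (Q.getLast hQn) b)
    (hl1 : 2 ≤ Q.length) (hl2 : Q.length ≤ 4) : False :=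
  h.free (hasCyc_of_clique_path hM ha hb hab hQ hQn hQM h1 h2 (by omega) (by omega))

/-- touching balls at two vertices of `M` -/
theorem five_far (h : MinCE 5 G) (hM : ∀ a ∈ M, ∀ b ∈ M, a ≠ b → G.Adj a b) (hc : M.card = 4)
    {C : List V} (hMC : ∀ a ∈ M, a ∈ C) {I : Finset V} (hI : Indep G I) {a b x y : V}
    (ha : a ∈ M) (hb : b ∈ M) (hab : a ≠ b) (hx : x ∈ I) (hy : y ∈ I) (hxy : x ≠ y)
    (hxC : x ∉ C) (hyC : y ∉ C) (hax : G.Adj a x) (hby : G.Adj b y) {p q : V}
    (hp : p ∈ oball G C x) (hq : q ∈ oball G C y) : p ≠ q ∧ ¬ G.Adj p q := by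
  rw [← not_or]
  intro hpq
  obtain ⟨Q, hQn, hQ, hQC, hh, hl, hlen⟩ := touch_path hI hx hy hxy hxC hyC hp hq hpq
  refine five_path h hM hc ha hb hab hQ hQn (fun z hz hzM => hQC z hz (hMC z hzM)) ?_ ?_ (by omega)
    (by omega)
  · rw [hh]; exact hax
  · rw [hl]; exact hby.symm

/-- size of the ball when only one vertex of `C` is seen -/
theorem five_ball (h : MinCE 5 G)
    (hmax : ∀ K : Finset V, (∀ a ∈ K, ∀ b ∈ K, a ≠ b → G.Adj a b) → K.card ≤ 4)
    {C : List V} {c x : V} (hx : x ∉ C) (hcx : ∀ y ∈ C, G.Adj x y → y = c) :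
    ∃ J ⊆ oball G C x, Indep G J ∧ J.card = 2 := by
  apply exists_nonadj_pair hmax
  have h1 := h.card_nbC (indep_singleton x) (singleton_nonempty x)
  have h2 : nbC G {x} ⊆ insert c (oball G C x) := by
    intro y hy
    by_cases hyC : y ∈ C
    · rw [mem_nbC_singleton] at hy
      rcases hy with rfl | hy
      · exact absurd hyC hx
      · rw [hcx y hyC hy]; exact mem_insert_self _ _
    · apply mem_insert_of_mem
      rw [mem_oball]
      exact ⟨mem_nbC_singleton.1 hy, hyC⟩
  have h3 := (card_le_card h2).trans (card_insert_le _ _)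
  rw [card_singleton] at h1
  omega

theorem MinCE.five_aux (h : MinCE 5 G) (hM : ∀ a ∈ M, ∀ b ∈ M, a ≠ b → G.Adj a b)
    (hc : M.card = 4)
    (hmax : ∀ K : Finset V, (∀ a ∈ K, ∀ b ∈ K, a ≠ b → G.Adj a b) → K.card ≤ 4)
    {a b x : V} (ha : a ∈ M) (hb : b ∈ M) (hab : a ≠ b) (hxM : x ∉ M) (hax : G.Adj a x)
    (hbx : G.Adj b x) : False := by
  -- the other two vertices
  have hsub : ({a, b} : Finset V) ⊆ M := by
    intro y hy
    rcases mem_insert.1 hy with rfl | hy
    · exact ha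
    · rw [mem_singleton.1 hy]; exact hb
  have hcd : (M \ {a, b}).card = 2 := by
    have := card_sdiff_add_card_eq_card hsub
    rw [card_pair hab] at this
    omega
  obtain ⟨c, d, hcd', hMcd⟩ := card_eq_two.1 hcd
  have hcM : c ∈ M \ {a, b} := by rw [hMcd]; simp
  have hdM : d ∈ M \ {a, b} := by rw [hMcd]; simp
  simp only [mem_sdiff, mem_insert, mem_singleton, not_or] at hcM hdM
  obtain ⟨hcM, hca, hcb⟩ := hcM
  obtain ⟨hdM, hda, hdb⟩ := hdM
  have hMall : ∀ y ∈ M, y = a ∨ y = b ∨ y = c ∨ y = d := by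
    intro y hy
    by_cases h1 : y = a
    · exact Or.inl h1
    by_cases h2 : y = b
    · exact Or.inr (Or.inl h2)
    have : y ∈ M \ {a, b} := by simp [hy, h1, h2]
    rw [hMcd] at this
    simp only [mem_insert, mem_singleton] at this
    exact Or.inr (Or.inr this)
  have adj := fun u v hu hv huv => hM u hu v hv huv
  have hxa : x ≠ a := by rintro rfl; exact hxM ha
  have hxb : x ≠ b := by rintro rfl; exact hxM hb
  have hxc : x ≠ c := by rintro rfl; exact hxM hcM
  have hxd : x ≠ d := by rintro rfl; exact hxM hdM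
  -- the cycle a x b c d
  set C : List V := [a, x, b, c, d] with hC
  have hMC : ∀ y ∈ M, y ∈ C := by
    intro y hy
    rcases hMall y hy with rfl | rfl | rfl | rfl <;> simp [hC]
  have hCcard : C.toFinset.card ≤ 5 := by
    refine (List.toFinset_card_le _).trans ?_
    simp [hC]
  obtain ⟨I, hIS, hI, -, hdom⟩ := h.exists_indep_avoiding hCcard
  have hIC : ∀ y ∈ I, y ∉ C := by
    intro y hy hyC
    exact disjoint_left.1 hIS hy (List.mem_toFinset.2 hyC)
  have hnI : ∀ y ∈ C, y ∉ I := fun y hy hyI => hIC y hyI hy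
  obtain ⟨xa, hxaI, hxaA⟩ := hdom a (hnI a (by simp [hC]))
  obtain ⟨xc, hxcI, hxcA⟩ := hdom c (hnI c (by simp [hC]))
  obtain ⟨xd, hxdI, hxdA⟩ := hdom d (hnI d (by simp [hC]))
  obtain ⟨xx, hxxI, hxxA⟩ := hdom x (hnI x (by simp [hC]))
  -- forbidden common neighbours
  have key : ∀ y, y ∉ C → (G.Adj c y → G.Adj d y → False) ∧ (G.Adj a y → G.Adj c y → False) ∧
      (G.Adj a y → G.Adj d y → False) ∧ (G.Adj b y → G.Adj c y → False) ∧
      (G.Adj b y → G.Adj d y → False) ∧ (G.Adj x y → G.Adj c y → False) ∧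
      (G.Adj x y → G.Adj d y → False) ∧ (G.Adj x y → G.Adj a y → False) := by
    intro y hyC
    simp only [hC, List.mem_cons, List.not_mem_nil, or_false, not_or] at hyC
    obtain ⟨hya, hyx, hyb, hyc, hyd⟩ := hyC
    have hbase : [a, b, c, d, x, y].Nodup := by
      simp only [List.nodup_cons, List.mem_cons, List.not_mem_nil, or_false, not_or,
        not_false_eq_true, List.nodup_nil, and_true]
      exact ⟨⟨hab, Ne.symm hca, Ne.symm hda, Ne.symm hxa, Ne.symm hya⟩,
        ⟨Ne.symm hcb, Ne.symm hdb, Ne.symm hxb, Ne.symm hyb⟩,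
        ⟨hcd', Ne.symm hxc, Ne.symm hyc⟩, ⟨Ne.symm hxd, Ne.symm hyd⟩, Ne.symm hyx⟩
    have hN : ∀ P : List (Fin 6), P.Nodup → (P.map (fun i : Fin 6 => [a, b, c, d, x, y].get i)).Nodup :=
      fun P hP => hP.map (List.nodup_iff_injective_get.1 hbase)
    have ab := hM a ha b hb hab
    have ac := hM a ha c hcM (Ne.symm hca)
    have ad := hM a ha d hdM (Ne.symm hda)
    have bc := hM b hb c hcM (Ne.symm hcb)
    have bd := hM b hb d hdM (Ne.symm hdb)
    have cd := hM c hcM d hdM hcd'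
    refine ⟨fun h1 h2 => h.free ?_, fun h1 h2 => h.free ?_, fun h1 h2 => h.free ?_,
      fun h1 h2 => h.free ?_, fun h1 h2 => h.free ?_, fun h1 h2 => h.free ?_,
      fun h1 h2 => h.free ?_, fun h1 h2 => h.free ?_⟩
    · exact hasCyc_six (hN [0, 4, 1, 2, 5, 3] (by decide)) hax hbx.symm bc h1 h2.symm ad.symm
    · exact hasCyc_six (hN [0, 5, 2, 3, 1, 4] (by decide)) h1 h2.symm cd bd.symm hbx hax.symm
    · exact hasCyc_six (hN [0, 5, 3, 2, 1, 4] (by decide)) h1 h2.symm cd.symm bc.symm hbx hax.symm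
    · exact hasCyc_six (hN [1, 5, 2, 3, 0, 4] (by decide)) h1 h2.symm cd ad.symm hax hbx.symm
    · exact hasCyc_six (hN [1, 5, 3, 2, 0, 4] (by decide)) h1 h2.symm cd.symm ac.symm hax hbx.symm
    · exact hasCyc_six (hN [1, 4, 5, 2, 3, 0] (by decide)) hbx h1 h2.symm cd ad.symm ab
    · exact hasCyc_six (hN [1, 4, 5, 3, 2, 0] (by decide)) hbx h1 h2.symm cd.symm ac.symm ab
    · exact hasCyc_six (hN [1, 4, 5, 0, 2, 3] (by decide)) hbx h1 h2.symm ac cd bd.symm
  have hxaC := hIC xa hxaI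
  have hxcC := hIC xc hxcI
  have hxdC := hIC xd hxdI
  have hxxC := hIC xx hxxI
  have d1 : xc ≠ xd := by rintro rfl; exact (key _ hxcC).1 hxcA hxdA
  have d2 : xa ≠ xc := by rintro rfl; exact (key _ hxaC).2.1 hxaA hxcA
  have d3 : xa ≠ xd := by rintro rfl; exact (key _ hxaC).2.2.1 hxaA hxdA
  have d4 : xx ≠ xc := by rintro rfl; exact (key _ hxxC).2.2.2.2.2.1 hxxA hxcA
  have d5 : xx ≠ xd := by rintro rfl; exact (key _ hxxC).2.2.2.2.2.2.1 hxxA hxdA
  have d6 : xx ≠ xa := by rintro rfl; exact (key _ hxxC).2.2.2.2.2.2.2 hxxA hxaA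
  -- the two balls
  obtain ⟨Jc, hJc, hJcI, hJcc⟩ := five_ball h hmax (c := c) hxcC (by
    intro y hy hadj
    have hk := key _ hxcC
    simp only [hC, List.mem_cons, List.not_mem_nil, or_false] at hy
    rcases hy with rfl | rfl | rfl | rfl | rfl
    · exact absurd hxcA (fun h => hk.2.1 hadj.symm h)
    · exact absurd hxcA (fun h => hk.2.2.2.2.2.1 hadj.symm h)
    · exact absurd hxcA (fun h => hk.2.2.2.1 hadj.symm h)
    · rfl
    · exact absurd hxcA (fun h => hk.1 h hadj.symm))
  obtain ⟨Jd, hJd, hJdI, hJdc⟩ := five_ball h hmax (c := d) hxdC (by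
    intro y hy hadj
    have hk := key _ hxdC
    simp only [hC, List.mem_cons, List.not_mem_nil, or_false] at hy
    rcases hy with rfl | rfl | rfl | rfl | rfl
    · exact absurd hxdA (fun h => hk.2.2.1 hadj.symm h)
    · exact absurd hxdA (fun h => hk.2.2.2.2.2.2.1 hadj.symm h)
    · exact absurd hxdA (fun h => hk.2.2.2.2.1 hadj.symm h)
    · exact absurd hxdA (fun h => hk.1 hadj.symm h)
    · rfl)
  -- far facts
  have fcd : ∀ p ∈ Jc, ∀ q ∈ Jd, p ≠ q ∧ ¬ G.Adj p q := fun p hp q hq =>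
    five_far h hM hc hMC hI hcM hdM hcd' hxcI hxdI d1 hxcC hxdC hxcA hxdA (hJc hp) (hJd hq)
  have hxaB : xa ∈ oball G C xa := by rw [mem_oball]; exact ⟨Or.inl rfl, hxaC⟩
  have fca : ∀ p ∈ Jc, p ≠ xa ∧ ¬ G.Adj p xa := fun p hp =>
    five_far h hM hc hMC hI hcM ha hca hxcI hxaI d2.symm hxcC hxaC hxcA hxaA (hJc hp) hxaB
  have fda : ∀ p ∈ Jd, p ≠ xa ∧ ¬ G.Adj p xa := fun p hp =>
    five_far h hM hc hMC hI hdM ha hda hxdI hxaI d3.symm hxdC hxaC hxdA hxaA (hJd hp) hxaB
  -- the vertex xx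
  have fxx : ∀ (m xm : V), m ∈ M → m ≠ a → xm ∈ I → xm ∉ C → G.Adj m xm → xx ≠ xm →
      ∀ p ∈ oball G C xm, p ≠ xx ∧ ¬ G.Adj p xx := by
    intro m xm hm hma hxmI hxmC hmA hne p hp
    rw [mem_oball] at hp
    rcases hp.1 with rfl | hpA
    · exact ⟨hne.symm, hI _ hxmI _ hxxI⟩
    · have hpx : p ≠ xx := by
        rintro rfl
        exact hI _ hxmI _ hxxI hpA
      refine ⟨hpx, fun hadj => ?_⟩
      have hpC := hp.2
      have hQC : ∀ y ∈ [xm, p, xx, x], y ∉ M := by
        intro y hy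
        simp only [List.mem_cons, List.not_mem_nil, or_false] at hy
        rcases hy with rfl | rfl | rfl | rfl
        · exact fun h => hxmC (hMC _ h)
        · exact fun h => hpC (hMC _ h)
        · exact fun h => hxxC (hMC _ h)
        · exact hxM
      have hxC : ∀ y, y ∉ C → y ≠ x := by
        rintro y hy rfl
        exact hy (by simp [hC])
      refine five_path h hM hc (Q := [xm, p, xx, x]) hm ha hma ⟨?_, ?_⟩ (by simp) hQC
        (by simpa using hmA) (by simpa using hax.symm) (by simp) (by simp)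
      · simp only [List.nodup_cons, List.mem_cons, List.not_mem_nil, or_false, not_or,
          not_false_eq_true, List.nodup_nil, and_true]
        exact ⟨⟨hpA.ne, hne.symm, hxC _ hxmC⟩, ⟨hpx, hxC _ hpC⟩, hxC _ hxxC⟩
      · simp only [List.isChain_cons_cons, List.isChain_singleton, and_true]
        exact ⟨hpA, hadj, hxxA.symm⟩
  have fcx := fun p (hp : p ∈ Jc) => fxx c xc hcM hca hxcI hxcC hxcA d4 p (hJc hp)
  have fdx := fun p (hp : p ∈ Jd) => fxx d xd hdM hda hxdI hxdC hxdA d5 p (hJd hp)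
  -- the independent set
  have hI2 : Indep G ({xa, xx} : Finset V) := indep_pair (hI _ hxaI _ hxxI)
  have hI4 : Indep G (Jc ∪ Jd) := hJcI.union hJdI (fun p hp q hq => (fcd p hp q hq).2)
  have hI6 : Indep G ((Jc ∪ Jd) ∪ {xa, xx}) := by
    refine hI4.union hI2 ?_
    intro p hp q hq
    rcases mem_insert.1 hq with rfl | hq
    · rcases mem_union.1 hp with hp | hp
      · exact (fca p hp).2
      · exact (fda p hp).2
    · rw [mem_singleton] at hq
      subst hq
      rcases mem_union.1 hp with hp | hp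
      · exact (fcx p hp).2
      · exact (fdx p hp).2
  have hcard : ((Jc ∪ Jd) ∪ {xa, xx}).card = 6 := by
    rw [card_union_of_disjoint, card_union_of_disjoint, hJcc, hJdc, card_pair d6.symm]
    · rw [disjoint_left]
      intro p hp hq
      exact (fcd p hp p hq).1 rfl
    · rw [disjoint_left]
      intro p hp hq
      rcases mem_insert.1 hq with rfl | hq
      · rcases mem_union.1 hp with hp | hp
        · exact (fca p hp).1 rfl
        · exact (fda p hp).1 rfl
      · rw [mem_singleton] at hq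
        subst hq
        rcases mem_union.1 hp with hp | hp
        · exact (fcx p hp).1 rfl
        · exact (fdx p hp).1 rfl
  have := h.card_indep_le hI6
  omega

/-- `k = 5`, `ω = 4`. -/
theorem MinCE.no_five_four (h : MinCE 5 G) (hM : ∀ a ∈ M, ∀ b ∈ M, a ≠ b → G.Adj a b)
    (hc : M.card = 4)
    (hmax : ∀ K : Finset V, (∀ a ∈ K, ∀ b ∈ K, a ≠ b → G.Adj a b) → K.card ≤ 4) : False := by
  by_cases hex : ∃ a ∈ M, ∃ b ∈ M, a ≠ b ∧ ∃ x, x ∉ M ∧ G.Adj a x ∧ G.Adj b x
  · obtain ⟨a, ha, b, hb, hab, x, hx, hax, hbx⟩ := hex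
    exact h.five_aux hM hc hmax ha hb hab hx hax hbx
  · push Not at hex
    obtain ⟨I, hIS, hI, -, hdom⟩ := h.exists_indep_avoiding (S := M) (by omega)
    have hIM : ∀ y ∈ I, y ∉ M := fun y hy hyM => disjoint_left.1 hIS hy hyM
    have hnI : ∀ y ∈ M, y ∉ I := fun y hy hyI => hIM y hyI hy
    choose! f hfI hfA using fun y (hy : y ∈ M) => hdom y (hnI y hy)
    have hfM : ∀ y ∈ M, f y ∉ M.toList := fun y hy h => hIM _ (hfI y hy) (by simpa using h)
    have hMC : ∀ y ∈ M, y ∈ M.toList := fun y hy => by simpa using hy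
    have hne : ∀ y ∈ M, ∀ z ∈ M, y ≠ z → f y ≠ f z := by
      intro y hy z hz hyz hf
      refine hex y hy z hz hyz (f y) (hIM _ (hfI y hy)) (hfA y hy) ?_
      rw [hf]; exact hfA z hz
    have hball : ∀ y ∈ M, ∃ J ⊆ oball G M.toList (f y), Indep G J ∧ J.card = 2 := by
      intro y hy
      refine five_ball h hmax (c := y) (hfM y hy) ?_
      intro z hz hadj
      by_contra hzy
      have hz' : z ∈ M := by simpa using hz
      exact hex y hy z hz' (fun h => hzy h.symm) (f y) (hIM _ (hfI y hy)) (hfA y hy) hadj.symm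
    choose! J hJs hJI hJc using hball
    have := sum_card_le_alp (G := G) M J univ (fun _ _ => subset_univ _) hJI (by
      intro y hy z hz hyz p hp q hq
      exact five_far h hM hc hMC hI hy hz hyz (hfI y hy) (hfI z hz) (hne y hy z hz hyz)
        (hfM y hy) (hfM z hz) (hfA y hy) (hfA z hz) (hJs y hy hp) (hJs z hz hq))
    rw [sum_congr rfl hJc, sum_const, hc] at this
    have h2 := h.alp_le
    simp at this
    omega

end Five

end Crest.Agent.R054
end

-- ▼ part R054/Small6
section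

/-!
R054: cliques in layers; the case `k = 6`, `omega ≤ 4`.
-/

set_option autoImplicit false
set_option linter.unusedSectionVars false

open Finset

namespace Crest.Agent.R054

universe u

variable {V : Type u} [Fintype V] [DecidableEq V] {G : SimpleGraph V}

/-- Paths of prescribed length between two vertices of a clique. -/
theorem clique_path {Q : Finset V} (hQ : ∀ a ∈ Q, ∀ b ∈ Q, a ≠ b → G.Adj a b) {x y : V}
    (hx : x ∈ Q) (hy : y ∈ Q) (hxy : x ≠ y) {m : ℕ} (hm : 2 ≤ m) (hmQ : m ≤ Q.card) :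
    ∃ P : List V, IsPth G P ∧ P.length = m ∧ (∀ z ∈ P, z ∈ Q) ∧ P.head? = some x ∧
      P.getLast? = some y := by
  have hcard : m - 2 ≤ ((Q.erase x).erase y).card := by
    rw [card_erase_of_mem (mem_erase.2 ⟨hxy.symm, hy⟩), card_erase_of_mem hx]
    omega
  obtain ⟨F, hF, hFc⟩ := exists_subset_card_eq hcard
  have hFx : x ∉ F := fun h => by simpa using hF h
  have hFy : y ∉ F := fun h => by simpa using hF h
  have hFQ : ∀ z ∈ F, z ∈ Q := fun z hz => by
    have := hF hz
    simp only [mem_erase] at this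
    exact this.2.2
  have hnd : (x :: (F.toList ++ [y])).Nodup := by
    rw [List.nodup_cons, List.nodup_append']
    refine ⟨?_, nodup_toList F, List.nodup_singleton y, ?_⟩
    · simp [hFx, hxy]
    · intro z hz hz'
      rw [List.mem_singleton] at hz'
      subst hz'
      exact hFy (mem_toList.1 hz)
  have hmem : ∀ z ∈ x :: (F.toList ++ [y]), z ∈ Q := by
    intro z hz
    rcases List.mem_cons.1 hz with rfl | hz
    · exact hx
    · rcases List.mem_append.1 hz with hz | hz
      · exact hFQ z (mem_toList.1 hz)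
      · rw [List.mem_singleton] at hz; subst hz; exact hy
  refine ⟨x :: (F.toList ++ [y]), ⟨hnd, ?_⟩, ?_, hmem, rfl, ?_⟩
  · rw [List.isChain_iff_getElem]
    intro i hi
    apply hQ _ (hmem _ (List.getElem_mem _)) _ (hmem _ (List.getElem_mem _))
    intro heq
    have := (List.Nodup.getElem_inj_iff hnd).1 heq
    omega
  · simp only [List.length_cons, List.length_append, length_toList, hFc, List.length_nil]
    omega
  · rw [List.getLast?_cons_of_ne_nil (by simp), List.getLast?_append_of_ne_nil _ (by simp)]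
    rfl

/-- The lowest common ancestor of a clique of a layer is one level up, or high. -/
theorem clique_lca {k : ℕ} (hfree : ¬ HasCyc G (k + 1)) {v : V} {par : V → V}
    (hpar : IsPar G v par) {i : ℕ} (hik : 2 * i ≤ k) {Q : Finset V} (hQ : Q ⊆ lay G v i)
    (hcl : ∀ a ∈ Q, ∀ b ∈ Q, a ≠ b → G.Adj a b) {x y : V} (hx : x ∈ Q) (hy : y ∈ Q) {s : ℕ}
    (hs1 : 1 ≤ s) (hsi : s ≤ i) (hs : par^[s] x = par^[s] y)
    (hs' : par^[s - 1] x ≠ par^[s - 1] y) : Q.card < k + 2 - 2 * s := by
  by_contra hcon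
  push Not at hcon
  have hxy : x ≠ y := by rintro rfl; exact hs' rfl
  obtain ⟨P, hP, hPl, hPQ, hPx, hPy⟩ := clique_path hcl hx hy hxy (m := k + 2 - 2 * s) (by omega) hcon
  exact hfree (hpar.close (hQ hx) (hQ hy) hs1 hsi hs hs' hP (fun z hz => hQ (hPQ z hz)) hPx hPy
    (by omega) (by omega))

/-- If a clique `Q` of a layer is maximum, its LCA is at least two levels up. -/
theorem clique_lca_two {v : V} {par : V → V}
    (hpar : IsPar G v par) {i w : ℕ} (hi : 1 ≤ i) {Q : Finset V} (hQ : Q ⊆ lay G v i)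
    (hcl : ∀ a ∈ Q, ∀ b ∈ Q, a ≠ b → G.Adj a b)
    (hw : ∀ Q : Finset V, (∀ a ∈ Q, ∀ b ∈ Q, a ≠ b → G.Adj a b) → Q.card ≤ w)
    (hQw : Q.card = w) (h2 : 2 ≤ w) :
    ∃ s, 2 ≤ s ∧ s ≤ i ∧ ∃ x ∈ Q, ∃ y ∈ Q, par^[s] x = par^[s] y ∧
      par^[s - 1] x ≠ par^[s - 1] y := by
  obtain ⟨x0, hx0, y0, hy0, hne⟩ := one_lt_card.1 (show 1 < Q.card by omega)
  obtain ⟨s, hs1, hsi, hs, x, hx, y, hy, hxy⟩ := hpar.exists_lca hQ hx0 hy0 hne
  refine ⟨s, ?_, hsi, x, hx, y, hy, hs x hx y hy, hxy⟩
  by_contra hcon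
  have hs1' : s = 1 := by omega
  subst hs1'
  have hpadj : ∀ z ∈ Q, G.Adj (par x0) z := by
    intro z hz
    have h1 := hs x0 hx0 z hz
    simp only [Function.iterate_one] at h1
    rw [h1]
    have := hpar.iter_adj (hQ hz) (t := 0) (by omega)
    simpa using this
  have hnot : par x0 ∉ Q := fun h => G.loopless.irrefl _ (hpadj _ h)
  have := hw (insert (par x0) Q) (by
    intro a ha b hb hab
    rcases mem_insert.1 ha with ha | ha <;> rcases mem_insert.1 hb with hb | hb
    · exact absurd (ha.trans hb.symm) hab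
    · rw [ha]; exact hpadj b hb
    · rw [hb]; exact (hpadj a ha).symm
    · exact hcl a ha b hb hab)
  rw [card_insert_of_notMem hnot] at this
  omega

/-- Longest path lemma. -/
theorem exists_long_path {K : Finset V} {n : ℕ}
    (hconn : ∀ A ⊆ K, A.Nonempty → A ≠ K → ∃ x ∈ A, ∃ y ∈ K, y ∉ A ∧ G.Adj x y)
    (hnb : ∀ y ∈ K, ∀ y' ∈ K, y ≠ y' → ¬ G.Adj y y' → n ≤ (nbZ G K {y, y'}).card)
    (hn : n ≤ K.card) :
    ∃ L : List V, IsPth G L ∧ (∀ x ∈ L, x ∈ K) ∧ n ≤ L.length := by
  classical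
  let P : ℕ → Prop := fun n => ∃ L : List V, IsPth G L ∧ (∀ x ∈ L, x ∈ K) ∧ L.length = n
  have hPbd : ∀ L : List V, IsPth G L → (∀ x ∈ L, x ∈ K) → L.length ≤ K.card := by
    intro L hL hLZ
    rw [← List.toFinset_card_of_nodup hL.1]
    apply card_le_card
    intro x hx
    exact hLZ x (List.mem_toFinset.1 hx)
  have hP0 : P 0 := ⟨[], isPth_nil, by simp, rfl⟩
  obtain ⟨n0, hn0, hn0max⟩ : ∃ n, P n ∧ ∀ m, P m → m ≤ n := by
    refine ⟨Nat.findGreatest P K.card, ?_, ?_⟩
    · exact Nat.findGreatest_spec (P := P) (Nat.zero_le _) hP0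
    · intro m hm
      apply Nat.le_findGreatest _ hm
      obtain ⟨L, hL, hLZ, hLm⟩ := hm
      rw [← hLm]; exact hPbd L hL hLZ
  obtain ⟨L, hL, hLK, hLn⟩ := hn0
  refine ⟨L, hL, hLK, ?_⟩
  by_contra hcon
  push Not at hcon
  -- extension at the head is impossible
  have hext : ∀ L : List V, IsPth G L → (∀ x ∈ L, x ∈ K) → L.length = n0 → ∀ a, L.head? = some a →
      ∀ z ∈ K, G.Adj a z → z ∈ L := by
    intro L hL hLZ hLn a ha z hz haz
    by_contra hzL
    have hpath : IsPth G (z :: L) := by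
      refine ⟨List.nodup_cons.2 ⟨hzL, hL.1⟩, ?_⟩
      match L, hL, ha with
      | b :: L, hL, ha =>
        simp only [List.head?_cons, Option.some.injEq] at ha
        subst ha
        exact List.isChain_cons_cons.2 ⟨haz.symm, hL.2⟩
    have := hn0max (n0 + 1) ⟨z :: L, hpath, by
      intro x hx
      rcases List.mem_cons.1 hx with rfl | hx
      · exact hz
      · exact hLZ x hx, by simp [hLn]⟩
    omega
  have hKne : K.Nonempty := by rw [← card_pos]; omega
  have hn01 : 1 ≤ n0 := by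
    obtain ⟨z, hz⟩ := hKne
    exact hn0max 1 ⟨[z], isPth_singleton z, by simpa using hz, rfl⟩
  have hLne : L ≠ [] := by rintro rfl; simp at hLn; omega
  have hLcard : L.toFinset.card = n0 := by
    rw [List.toFinset_card_of_nodup hL.1, hLn]
  have hLsub : L.toFinset ⊆ K := fun x hx => hLK x (List.mem_toFinset.1 hx)
  have hha : L.head? = some (L.head hLne) := List.head?_eq_some_head hLne
  have hlb : L.getLast? = some (L.getLast hLne) := List.getLast?_eq_getLast_of_ne_nil hLne
  have hrb : L.reverse.head? = some (L.getLast hLne) := by rw [List.head?_reverse, hlb]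
  have haK : L.head hLne ∈ K := hLK _ (List.head_mem hLne)
  have hbK : L.getLast hLne ∈ K := hLK _ (List.getLast_mem hLne)
  have hcl_a : ∀ z ∈ K, G.Adj (L.head hLne) z → z ∈ L := hext L hL hLK hLn _ hha
  have hcl_b : ∀ z ∈ K, G.Adj (L.getLast hLne) z → z ∈ L := fun z hz hbz =>
    List.mem_reverse.1 (hext L.reverse hL.reverse (fun x hx => hLK x (List.mem_reverse.1 hx))
      (by rw [List.length_reverse, hLn]) _ hrb z hz hbz)
  obtain ⟨x, hx, y, hyK, hyL, hxy⟩ := hconn L.toFinset hLsub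
    ⟨_, List.mem_toFinset.2 (List.head_mem hLne)⟩ (by
      intro heq; rw [heq] at hLcard; omega)
  rw [List.mem_toFinset] at hx hyL
  by_cases hab : L.head hLne = L.getLast hLne
  · -- single vertex path
    have hlen1 : n0 = 1 := by
      match L, hLne, hL, hab with
      | [a], _, _, _ => simpa using hLn.symm
      | a :: b :: l, h1, h2, hab =>
        exfalso
        rw [List.head_cons, List.getLast_cons (by simp)] at hab
        have := (List.nodup_cons.1 h2.1).1
        exact this (by rw [hab]; exact List.getLast_mem _)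
    have hxa : x = L.head hLne := by
      match L, hLne, hLn, hx with
      | [a], _, _, hx => simpa using hx
      | a :: b :: l, _, hLn, _ => simp at hLn; omega
    subst hxa
    exact hyL (hcl_a y hyK hxy)
  · by_cases hadj : G.Adj (L.head hLne) (L.getLast hLne)
    · -- the path closes to a cycle; rotate
      have hcyc : IsCyc G L := by
        refine ⟨hL.1, hL.2, ?_⟩
        intro p hp q hq
        rw [hlb] at hp
        rw [hha] at hq
        simp only [Option.mem_def, Option.some.injEq] at hp hq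
        subst hp; subst hq; exact hadj.symm
      obtain ⟨L1, L2, rfl⟩ := List.append_of_mem hx
      have hr : IsCyc G ((x :: L2) ++ L1) := hcyc.rotate_append
      have hmem : ∀ z, z ∈ (x :: L2) ++ L1 ↔ z ∈ L1 ++ x :: L2 := by
        intro z; simp only [List.mem_append, List.mem_cons]; tauto
      have := hext ((x :: L2) ++ L1) hr.isPth (fun z hz => hLK z ((hmem z).1 hz)) (by
        rw [List.length_append, add_comm, ← List.length_append]; exact hLn) x rfl y hyK hxy
      exact hyL ((hmem y).1 this)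
    · have h1 := hnb _ haK _ hbK hab hadj
      have h2 : nbZ G K {L.head hLne, L.getLast hLne} ⊆ L.toFinset := by
        intro z hz
        rw [List.mem_toFinset]
        rw [mem_nbZ] at hz
        obtain ⟨hzK, hz | ⟨w, hw, hwz⟩⟩ := hz
        · rcases mem_insert.1 hz with rfl | hz
          · exact List.head_mem hLne
          · rw [mem_singleton] at hz; rw [hz]; exact List.getLast_mem hLne
        · rcases mem_insert.1 hw with rfl | hw
          · exact hcl_a z hzK hwz
          · rw [mem_singleton] at hw; subst hw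
            exact hcl_b z hzK hwz
      have h3 := card_le_card h2
      omega

/-- A path with `k` vertices in the neighbourhood of `v` gives a `C_{k+1}`. -/
theorem hasCyc_of_path_lay_one {k : ℕ} (hk : 2 ≤ k) {v : V} {L : List V} (hL : IsPth G L)
    (hLv : ∀ x ∈ L, G.Adj v x) (hk' : k ≤ L.length) : HasCyc G (k + 1) := by
  have hp : IsPth G (L.take k) := hL.take k
  have hlen : (L.take k).length = k := by rw [List.length_take]; omega
  have hpn : L.take k ≠ [] := by
    intro h0; rw [h0] at hlen; simp at hlen; omega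
  have hadj : ∀ x ∈ L.take k, G.Adj v x := fun x hx => hLv x (List.mem_of_mem_take hx)
  refine (hp.close (isPth_singleton v) hpn (by simp) ?_ ?_ ?_).hasCyc' (by simp [hlen]) (by omega)
  · intro x hx hx'
    rw [List.mem_singleton] at hx'
    subst hx'
    exact G.loopless.irrefl _ (hadj _ hx)
  · simpa using (hadj _ (List.getLast_mem hpn)).symm
  · simpa using hadj _ (List.head_mem hpn)

/-- If all subsets of `Z ⊆ N(v)` satisfy `|Y| ≤ s·alp Y` with equality for `Z`, and `2 s ≥ k`, then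
`Z` is a disjoint union of cliques of size `s`. -/
theorem extremal_nbhd {k s : ℕ} (hk : 2 ≤ k) (hks : k ≤ 2 * s) (hfree : ¬ HasCyc G (k + 1)) {v : V}
    {Z : Finset V} (hZ : ∀ x ∈ Z, G.Adj v x)
    (hall : ∀ Y ⊆ Z, Y.card ≤ s * alp G Y) (heq : s * alp G Z ≤ Z.card) {x : V} (hx : x ∈ Z) :
    ∃ K ⊆ Z, x ∈ K ∧ K.card = s ∧ (∀ a ∈ K, ∀ b ∈ K, a ≠ b → G.Adj a b) ∧ NoAdj G K (Z \ K) := by
  classical
  -- component of `x`
  obtain ⟨K, ⟨hKZ, hxK, hKno⟩, hKmin⟩ : ∃ K, (K ⊆ Z ∧ x ∈ K ∧ NoAdj G K (Z \ K)) ∧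
      ∀ K', (K' ⊆ Z ∧ x ∈ K' ∧ NoAdj G K' (Z \ K')) → K.card ≤ K'.card := by
    have hne : ((Z.powerset).filter (fun K => x ∈ K ∧ NoAdj G K (Z \ K))).Nonempty := by
      refine ⟨Z, mem_filter.2 ⟨mem_powerset.2 subset_rfl, hx, ?_⟩⟩
      intro a _ b hb
      simp at hb
    obtain ⟨K, hK, hmin⟩ := exists_min_image _ card hne
    rw [mem_filter, mem_powerset] at hK
    refine ⟨K, hK, fun K' hK' => hmin K' (mem_filter.2 ⟨mem_powerset.2 hK'.1, hK'.2⟩)⟩
  have hconn : ∀ A ⊆ K, A.Nonempty → A ≠ K → ∃ x ∈ A, ∃ y ∈ K, y ∉ A ∧ G.Adj x y := by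
    intro A hA hne hAK
    by_contra hcon
    push Not at hcon
    by_cases hxA : x ∈ A
    · have := hKmin A ⟨hA.trans hKZ, hxA, by
        intro a ha b hb
        rw [mem_sdiff] at hb
        by_cases hbK : b ∈ K
        · exact hcon a ha b hbK hb.2
        · exact hKno a (hA ha) b (mem_sdiff.2 ⟨hb.1, hbK⟩)⟩
      exact hAK (eq_of_subset_of_card_le hA this)
    · have := hKmin (K \ A) ⟨sdiff_subset.trans hKZ, mem_sdiff.2 ⟨hxK, hxA⟩, by
        intro a ha b hb
        rw [mem_sdiff] at ha hb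
        by_cases hbK : b ∈ K
        · have hbA : b ∈ A := by
            by_contra hbA
            exact hb.2 (mem_sdiff.2 ⟨hbK, hbA⟩)
          exact fun hab => hcon b hbA a ha.1 ha.2 hab.symm
        · exact hKno a ha.1 b (mem_sdiff.2 ⟨hb.1, hbK⟩)⟩
      have h2 := card_sdiff_add_card_eq_card hA
      have h3 := card_pos.2 hne
      omega
  -- `|K| = s · alp K`
  have hKeq : s * alp G K ≤ K.card := by
    have h1 := hall K hKZ
    have h2 := hall (Z \ K) sdiff_subset
    have h3 : alp G K + alp G (Z \ K) ≤ alp G Z := by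
      have := alp_add_le (G := G) (A := K) (B := Z \ K) disjoint_sdiff hKno
      rwa [union_sdiff_of_subset hKZ] at this
    have h4 := card_sdiff_add_card_eq_card hKZ
    have h5 : s * alp G K + s * alp G (Z \ K) ≤ s * alp G Z := by
      rw [← mul_add]; exact Nat.mul_le_mul_left s h3
    omega
  have hal1 : 1 ≤ alp G K := alp_pos ⟨x, hxK⟩
  rcases Nat.lt_or_ge 1 (alp G K) with h2 | h2
  · exfalso
    obtain ⟨L, hL, hLK, hLl⟩ := exists_long_path (G := G) (K := K) (n := 2 * s) hconn (by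
      intro y hy y' hy' hne hnadj
      have h3 := alp_sdiff_nbZ (Z := K) (indep_pair hnadj) (by
        intro z hz
        rcases mem_insert.1 hz with rfl | hz
        · exact hy
        · rw [mem_singleton] at hz; subst hz; exact hy')
      rw [card_pair hne] at h3
      have h4 := hall (K \ nbZ G K {y, y'}) (sdiff_subset.trans hKZ)
      have h5 : s * alp G (K \ nbZ G K {y, y'}) + s * 2 ≤ s * alp G K := by
        rw [← mul_add]; exact Nat.mul_le_mul_left s h3
      have h6 : (K \ nbZ G K {y, y'}).card + (nbZ G K {y, y'}).card = K.card :=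
        card_sdiff_add_card_eq_card (fun z hz => (mem_nbZ.1 hz).1)
      omega) (by
      have : s * 2 ≤ s * alp G K := Nat.mul_le_mul_left s h2
      omega)
    exact hfree (hasCyc_of_path_lay_one hk hL (fun x hx => hZ x (hKZ (hLK x hx))) (by omega))
  · refine ⟨K, hKZ, hxK, ?_, fun a ha b hb hab => adj_of_alp_le_one h2 ha hb hab, hKno⟩
    have h3 := hall K hKZ
    have h4 : alp G K = 1 := by omega
    rw [h4] at h3 hKeq
    omega

/-- The case `k = 6`, `omega ≤ 4`. -/
theorem no_minCE_six (h : MinCE 6 G)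
    (hcl : ∀ Q : Finset V, (∀ a ∈ Q, ∀ b ∈ Q, a ≠ b → G.Adj a b) → Q.card ≤ 4) : False := by
  classical
  have htop : ∀ v i, alp G (ball G v i) ≤ 6 := fun v i => (alp_mono (subset_univ _)).trans h.alp_le
  -- no `K_4` in a layer
  have hlay : ∀ (v : V) (i : ℕ), 1 ≤ i → i ≤ 3 → ∀ Q ⊆ lay G v i,
      (∀ a ∈ Q, ∀ b ∈ Q, a ≠ b → G.Adj a b) → Q.card ≤ 3 := by
    intro v i hi1 hi3 Q hQ hQc
    by_contra hcon
    have h4 : Q.card = 4 := by have := hcl Q hQc; omega
    obtain ⟨par, hpar⟩ := exists_isPar (G := G) v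
    obtain ⟨s, hs2, hsi, x, hx, y, hy, hs, hs'⟩ := clique_lca_two hpar hi1 hQ hQc hcl h4 (by omega)
    have := clique_lca h.free hpar (by omega) hQ hQc hx hy (by omega) hsi hs hs'
    omega
  have hbd : ∀ (v : V) (i : ℕ), 1 ≤ i → i ≤ 3 → ∀ Z ⊆ lay G v i, 2 * Z.card ≤ 6 * alp G Z := by
    intro v i hi1 hi3 Z hZ
    refine layer_bound (k := 6) le_rfl (by omega) h.free hi1 (by omega) hZ ?_
    intro Q hQ hQc
    have := hlay v i hi1 hi3 Q (hQ.trans hZ) hQc
    omega
  -- all neighbourhoods are extremal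
  have hext : ∀ v : V, 3 * alp G (lay G v 1) ≤ (lay G v 1).card := by
    intro v
    by_contra hcon
    push Not at hcon
    have ha0 : alp G (ball G v 0) = 1 := by rw [ball_zero, alp_singleton]
    have hstep : ∀ i, i + 1 ≤ 3 → alp G (ball G v i) + 2 ≤ alp G (ball G v (i + 1)) := by
      intro i hi
      have hsum : 2 * ∑ j ∈ range (i + 1), (lay G v (j + 1)).card + 1 ≤
          6 * ∑ j ∈ range (i + 1), alp G (lay G v (j + 1)) := by
        rw [sum_range_succ', sum_range_succ']
        have h1 : 2 * ∑ j ∈ range i, (lay G v (j + 1 + 1)).card ≤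
            6 * ∑ j ∈ range i, alp G (lay G v (j + 1 + 1)) := by
          rw [mul_sum, mul_sum]
          apply sum_le_sum
          intro j hj
          rw [mem_range] at hj
          exact hbd v (j + 1 + 1) (by omega) (by omega) _ subset_rfl
        simp only [zero_add, mul_add]
        omega
      have hg := h.growth v 6 1 i hsum
      omega
    have h1 := hstep 0 (by omega)
    have h2 := hstep 1 (by omega)
    have h3 := hstep 2 (by omega)
    have h4 := htop v 3
    simp only [zero_add, Nat.reduceAdd] at h1 h2 h3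
    omega
  have hK : ∀ v x : V, G.Adj v x → ∃ K : Finset V, (∀ y ∈ K, G.Adj v y) ∧ x ∈ K ∧ K.card = 3 ∧
      (∀ a ∈ K, ∀ b ∈ K, a ≠ b → G.Adj a b) ∧ ∀ a ∈ K, ∀ b, G.Adj v b → b ∉ K → ¬ G.Adj a b := by
    intro v x hvx
    obtain ⟨K, hKZ, hxK, hKc, hKcl, hKno⟩ := extremal_nbhd (G := G) (k := 6) (s := 3) (by omega)
      (by omega) h.free (v := v) (Z := lay G v 1) (fun y hy => mem_lay_one.1 hy)
      (fun Y hY => by have := hbd v 1 le_rfl (by omega) Y hY; omega) (hext v)
      (mem_lay_one.2 hvx)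
    refine ⟨K, fun y hy => mem_lay_one.1 (hKZ hy), hxK, hKc, hKcl, ?_⟩
    intro a ha b hb hbK
    exact hKno a ha b (mem_sdiff.2 ⟨mem_lay_one.2 hb, hbK⟩)
  -- transitivity of adjacency in neighbourhoods
  have htrans : ∀ v x y z : V, G.Adj v x → G.Adj v y → G.Adj v z → G.Adj x y → G.Adj y z →
      x ≠ z → G.Adj x z := by
    intro v x y z hx hy hz hxy hyz hxz
    obtain ⟨K, hKv, hyK, hKc, hKcl, hKno⟩ := hK v y hy
    have hxK : x ∈ K := by
      by_contra hcon
      exact hKno y hyK x hx hcon hxy.symm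
    have hzK : z ∈ K := by
      by_contra hcon
      exact hKno y hyK z hz hcon hyz
    exact hKcl x hxK z hzK hxz
  obtain ⟨v⟩ : Nonempty V := Fintype.card_pos_iff.1 (by rw [h.card_eq]; omega)
  -- for `p ∈ N(v)`, a triangle `T p ⊆ N(p)` away from `N[v]`
  have hT : ∀ p, G.Adj v p → ∃ a b c : V, G.Adj p a ∧ G.Adj p b ∧ G.Adj p c ∧ G.Adj a b ∧
      G.Adj b c ∧ G.Adj a c ∧ ¬ G.Adj v a ∧ ¬ G.Adj v b ∧ ¬ G.Adj v c ∧ a ≠ v ∧ b ≠ v ∧ c ≠ v := by
    intro p hvp
    obtain ⟨K, hKp, hvK, hKc, hKcl, hKno⟩ := hK p v hvp.symm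
    have hdeg := h.le_card_nb p
    obtain ⟨w, hw, hwK⟩ : ∃ w ∈ nb G p, w ∉ K := by
      by_contra hcon
      push Not at hcon
      have := card_le_card (show nb G p ⊆ K from hcon)
      omega
    rw [mem_nb] at hw
    obtain ⟨K', hKp', hwK', hKc', hKcl', hKno'⟩ := hK p w hw
    have hdis : ∀ z ∈ K', z ∉ K := by
      intro z hz hzK
      by_cases hzw : z = w
      · subst hzw; exact hwK hzK
      · exact hKno z hzK w hw hwK (hKcl' z hz w hwK' hzw)
    obtain ⟨a, b, c, hab, hac, hbc, rfl⟩ := card_eq_three.1 hKc'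
    have haK := hdis a (by simp)
    have hbK := hdis b (by simp)
    have hcK := hdis c (by simp)
    have nv : ∀ z, G.Adj p z → z ∉ K → ¬ G.Adj v z ∧ z ≠ v := by
      intro z hz hzK
      exact ⟨hKno v hvK z hz hzK, fun hzv => hzK (hzv ▸ hvK)⟩
    have pa := hKp' a (by simp)
    have pb := hKp' b (by simp)
    have pc := hKp' c (by simp)
    exact ⟨a, b, c, pa, pb, pc, hKcl' a (by simp) b (by simp) hab, hKcl' b (by simp) c (by simp) hbc,
      hKcl' a (by simp) c (by simp) hac, (nv a pa haK).1, (nv b pb hbK).1, (nv c pc hcK).1,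
      (nv a pa haK).2, (nv b pb hbK).2, (nv c pc hcK).2⟩
  choose! ta tb tc h1 h2 h3 h4 h5 h6 h7 h8 h9 h10 h11 h12 using hT
  -- partner of `p` in `N(v)`
  have hpart : ∀ p, G.Adj v p → ∃ q, G.Adj v q ∧ G.Adj p q := by
    intro p hvp
    obtain ⟨K, hKv, hpK, hKc, hKcl, hKno⟩ := hK v p hvp
    obtain ⟨q, hq, hqp⟩ := exists_mem_ne (show 1 < K.card by omega) p
    exact ⟨q, hKv q hq, hKcl p hpK q hq hqp.symm⟩
  have h3' : ∀ L : List V, IsCyc G L → L.length = 7 → False := fun L hL hl =>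
    h.free (hL.hasCyc' hl (by omega))
  -- `T p` and `T q` have no common vertices
  have hcommon : ∀ p q z, G.Adj v p → G.Adj v q → p ≠ q → G.Adj p z → G.Adj q z → ¬ G.Adj v z →
      z ≠ v → (∃ t t', t ≠ t' ∧ G.Adj p t ∧ G.Adj p t' ∧ G.Adj t t' ∧ G.Adj t' z ∧ t ≠ z ∧
        ¬ G.Adj v t ∧ ¬ G.Adj v t' ∧ t ≠ v ∧ t' ≠ v) → False := by
    rintro p q z hvp hvq hpq hpz hqz hvz hzv ⟨t, t', htt, hpt, hpt', htt', htz, htz', hvt, hvt',
      htv, htv'⟩
    by_cases hadj : G.Adj p q
    · exact hvz (htrans p v q z hvp.symm hadj hpz hvq hqz hzv.symm)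
    · obtain ⟨p', hvp', hpp'⟩ := hpart p hvp
      have hp'q : p' ≠ q := by rintro rfl; exact hadj hpp'
      refine h3' [v, p', p, t, t', z, q] ⟨?_, ?_, ?_⟩ rfl
      · simp only [List.nodup_cons, List.mem_cons, List.not_mem_nil, or_false, not_or,
          List.nodup_nil, and_true, not_false_eq_true]
        refine ⟨⟨hvp'.ne, hvp.ne, htv.symm, htv'.symm, hzv.symm, hvq.ne⟩,
          ⟨hpp'.ne', ?_, ?_, ?_, hp'q⟩, ⟨hpt.ne, hpt'.ne, hpz.ne, hpq⟩, ⟨htt, htz', ?_⟩,
          ⟨htz.ne, ?_⟩, hqz.ne'⟩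
        · rintro rfl; exact hvt hvp'
        · rintro rfl; exact hvt' hvp'
        · rintro rfl; exact hvz hvp'
        · rintro rfl; exact hvt hvq
        · rintro rfl; exact hvt' hvq
      · simp only [List.isChain_cons_cons, List.isChain_singleton, and_true]
        exact ⟨hvp', hpp'.symm, hpt, htt', htz, hqz.symm⟩
      · intro a ha b hb
        simp only [List.getLast?_cons_cons, List.getLast?_singleton, List.head?_cons,
          Option.mem_def, Option.some.injEq] at ha hb
        subst ha; subst hb; exact hvq.symm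
  have hdist : ∀ p q, G.Adj v p → G.Adj v q → p ≠ q → tc p ≠ tc q ∧ ¬ G.Adj (tc p) (tc q) := by
    intro p q hvp hvq hpq
    have hnc : ∀ z, (z = ta p ∨ z = tb p ∨ z = tc p) → ¬ G.Adj q z := by
      rintro z (rfl | rfl | rfl) hqz
      · exact hcommon p q (ta p) hvp hvq hpq (h1 p hvp) hqz (h7 p hvp) (h10 p hvp)
          ⟨tb p, tc p, (h5 p hvp).ne, h2 p hvp, h3 p hvp, h5 p hvp, (h6 p hvp).symm,
            (h4 p hvp).ne', h8 p hvp, h9 p hvp, h11 p hvp, h12 p hvp⟩
      · exact hcommon p q (tb p) hvp hvq hpq (h2 p hvp) hqz (h8 p hvp) (h11 p hvp)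
          ⟨ta p, tc p, (h6 p hvp).ne, h1 p hvp, h3 p hvp, h6 p hvp, (h5 p hvp).symm,
            (h4 p hvp).ne, h7 p hvp, h9 p hvp, h10 p hvp, h12 p hvp⟩
      · exact hcommon p q (tc p) hvp hvq hpq (h3 p hvp) hqz (h9 p hvp) (h12 p hvp)
          ⟨ta p, tb p, (h4 p hvp).ne, h1 p hvp, h2 p hvp, h4 p hvp, h5 p hvp,
            (h6 p hvp).ne, h7 p hvp, h8 p hvp, h10 p hvp, h11 p hvp⟩
    have hqc := h3 q hvq
    have e1 : tc p ≠ tc q := fun he => hnc (tc p) (Or.inr (Or.inr rfl)) (he ▸ hqc)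
    refine ⟨e1, fun hadj => ?_⟩
    have e2 : ta p ≠ tc q := fun he => hnc (ta p) (Or.inl rfl) (he ▸ hqc)
    have e3 : tb p ≠ tc q := fun he => hnc (tb p) (Or.inr (Or.inl rfl)) (he ▸ hqc)
    refine h3' [v, p, ta p, tb p, tc p, tc q, q] ⟨?_, ?_, ?_⟩ rfl
    · simp only [List.nodup_cons, List.mem_cons, List.not_mem_nil, or_false, not_or,
        List.nodup_nil, and_true, not_false_eq_true]
      refine ⟨⟨hvp.ne, (h10 p hvp).symm, (h11 p hvp).symm, (h12 p hvp).symm, (h12 q hvq).symm, hvq.ne⟩,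
        ⟨(h1 p hvp).ne, (h2 p hvp).ne, (h3 p hvp).ne, ?_, hpq⟩,
        ⟨(h4 p hvp).ne, (h6 p hvp).ne, e2, ?_⟩, ⟨(h5 p hvp).ne, e3, ?_⟩, ⟨e1, ?_⟩, (h3 q hvq).ne'⟩
      · intro he; exact h9 q hvq (he ▸ hvp)
      · intro he; exact h7 p hvp (by rw [he]; exact hvq)
      · intro he; exact h8 p hvp (by rw [he]; exact hvq)
      · intro he; exact h9 p hvp (by rw [he]; exact hvq)
    · simp only [List.isChain_cons_cons, List.isChain_singleton, and_true]
      exact ⟨hvp, h1 p hvp, h4 p hvp, h5 p hvp, hadj, (h3 q hvq).symm⟩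
    · intro a ha b hb
      simp only [List.getLast?_cons_cons, List.getLast?_singleton, List.head?_cons,
        Option.mem_def, Option.some.injEq] at ha hb
      subst ha; subst hb; exact hvq.symm
  have hI : Indep G (insert v ((nb G v).image tc)) := by
    apply indep_insert
    · intro a ha b hb hab
      obtain ⟨p, hp, rfl⟩ := mem_image.1 ha
      obtain ⟨q, hq, rfl⟩ := mem_image.1 hb
      rw [mem_nb] at hp hq
      by_cases hpq : p = q
      · subst hpq; exact G.loopless.irrefl _ hab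
      · exact (hdist p q hp hq hpq).2 hab
    · intro a ha
      obtain ⟨p, hp, rfl⟩ := mem_image.1 ha
      exact h9 p (mem_nb.1 hp)
  have hcardI := h.card_indep_le hI
  rw [card_insert_of_notMem, card_image_of_injOn] at hcardI
  · have := h.le_card_nb v
    omega
  · intro p hp q hq heq
    by_contra hpq
    have hp' : G.Adj v p := by simpa using hp
    have hq' : G.Adj v q := by simpa using hq
    exact (hdist p q hp' hq' hpq).1 heq
  · intro hmem
    obtain ⟨p, hp, he⟩ := mem_image.1 hmem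
    exact h12 p (mem_nb.1 hp) he

end Crest.Agent.R054
end

-- ▼ part R054/Small74
section

/-!
R054, the case `k = 7`, clique number at most four, by breadth first layers:
`|L_i| + N_{i+1} ≤ 3 alp L_i + N_i`, where `N_i` is the number of 4-cliques of the layer `L_i`.
-/

set_option autoImplicit false
set_option linter.unusedSectionVars false
set_option linter.unusedVariables false

open Finset

namespace Crest.Agent.R054

universe u

namespace K74

variable {V : Type u} [Fintype V] [DecidableEq V] {G : SimpleGraph V}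

/-- No explicit 8-cycle. -/
theorem no8 (h : ¬ HasCyc G 8) {a b c d e f g i : V} (h1 : G.Adj a b)
    (h2 : G.Adj b c) (h3 : G.Adj c d) (h4 : G.Adj d e) (h5 : G.Adj e f) (h6 : G.Adj f g)
    (h7 : G.Adj g i) (h8 : G.Adj i a) (hnd : [a, b, c, d, e, f, g, i].Nodup) : False := by
  refine h (IsCyc.hasCyc' (L := [a, b, c, d, e, f, g, i]) ⟨hnd, ?_, ?_⟩ rfl (by norm_num))
  · simp [h1, h2, h3, h4, h5, h6, h7]
  · simpa using h8

variable (G) in
/-- `K` is a clique with four vertices. -/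
def Cl4 (K : Finset V) : Prop := (∀ a ∈ K, ∀ b ∈ K, a ≠ b → G.Adj a b) ∧ K.card = 4

theorem Cl4.exists_not_adj {K : Finset V} (hK : Cl4 G K)
    (hcl : ∀ Q : Finset V, (∀ a ∈ Q, ∀ b ∈ Q, a ≠ b → G.Adj a b) → Q.card ≤ 4) (p : V) :
    ∃ y ∈ K, ¬ G.Adj p y := by
  by_contra hcon
  push Not at hcon
  have hp : p ∉ K := fun hp => G.loopless.irrefl _ (hcon p hp)
  have h1 := hcl (insert p K) (by
    intro a ha b hb hab
    rcases mem_insert.1 ha with ha | ha <;> rcases mem_insert.1 hb with hb | hb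
    · exact absurd (ha.trans hb.symm) hab
    · rw [ha]; exact hcon b hb
    · rw [hb]; exact (hcon a ha).symm
    · exact hK.1 a ha b hb hab)
  rw [card_insert_of_notMem hp, hK.2] at h1
  omega

theorem Cl4.exists_third {K : Finset V} (hK : Cl4 G K) (x y : V) : ∃ z ∈ K, z ≠ x ∧ z ≠ y := by
  have h1 : ({x, y} : Finset V).card < K.card := by
    rw [hK.2]; exact (card_le_two).trans_lt (by norm_num)
  obtain ⟨z, hz, hz'⟩ := exists_mem_notMem_of_card_lt_card h1
  simp only [mem_insert, mem_singleton, not_or] at hz'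
  exact ⟨z, hz, hz'⟩

theorem Cl4.exists_two {K : Finset V} (hK : Cl4 G K) (x y : V) :
    ∃ z ∈ K, ∃ z' ∈ K, z ≠ x ∧ z ≠ y ∧ z' ≠ x ∧ z' ≠ y ∧ z ≠ z' := by
  obtain ⟨z, hz, h1, h2⟩ := hK.exists_third x y
  have h3 : ({x, y, z} : Finset V).card < K.card := by
    rw [hK.2]; exact (card_le_three).trans_lt (by norm_num)
  obtain ⟨z', hz', h4⟩ := exists_mem_notMem_of_card_lt_card h3
  simp only [mem_insert, mem_singleton, not_or] at h4
  exact ⟨z, hz, z', hz', h1, h2, h4.1, h4.2.1, fun h => h4.2.2 h.symm⟩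

theorem lay_ne {v x y : V} {i j : ℕ} (hx : x ∈ lay G v i) (hy : y ∈ lay G v j) (hij : i ≠ j) :
    x ≠ y := by
  rintro rfl
  exact hij (lay_index_unique hx hy)

section Fix

variable (hfree : ¬ HasCyc G 8)
  (hcl : ∀ Q : Finset V, (∀ a ∈ Q, ∀ b ∈ Q, a ≠ b → G.Adj a b) → Q.card ≤ 4)
  {v : V} {j : ℕ} (hj : j ≤ 1)

include hfree hj in
/-- Two parents of different vertices of a 4-clique have the same parents. -/
theorem grand_eq {K : Finset V} (hK : Cl4 G K) (hKl : K ⊆ lay G v (j + 2)) {p q x y g h : V}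
    (hx : x ∈ K) (hy : y ∈ K) (hxy : x ≠ y) (hp : p ∈ lay G v (j + 1)) (hq : q ∈ lay G v (j + 1))
    (hpq : p ≠ q) (hpx : G.Adj p x) (hqy : G.Adj q y) (hg : g ∈ lay G v j) (hh : h ∈ lay G v j)
    (hgp : G.Adj g p) (hhq : G.Adj h q) : g = h := by
  by_contra hgh
  rcases Nat.eq_zero_or_pos j with h0 | h0
  · subst h0
    rw [lay_zero, mem_singleton] at hg hh
    exact hgh (hg.trans hh.symm)
  · have h1 : j = 1 := by omega
    subst h1
    obtain ⟨z, hz, hzx, hzy⟩ := hK.exists_third x y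
    have hv : v ∈ lay G v 0 := by simp [lay_zero]
    have Lx := hKl hx
    have Ly := hKl hy
    have Lz := hKl hz
    refine no8 hfree (a := v) (b := g) (c := p) (d := x) (e := z) (f := y) (g := q) (i := h)
      (mem_lay_one.1 hg) hgp hpx (hK.1 _ hx _ hz hzx.symm) (hK.1 _ hz _ hy hzy) hqy.symm hhq.symm
      (mem_lay_one.1 hh).symm ?_
    simp only [List.nodup_cons, List.mem_cons, List.not_mem_nil, not_or, or_false, not_false_eq_true,
      List.nodup_nil, and_true]
    refine ⟨⟨?_, ?_, ?_, ?_, ?_, ?_, ?_⟩, ⟨?_, ?_, ?_, ?_, ?_, hgh⟩, ⟨?_, ?_, ?_, hpq, ?_⟩,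
      ⟨hzx.symm, hxy, ?_, ?_⟩, ⟨hzy, ?_, ?_⟩, ⟨?_, ?_⟩, ?_⟩
    · exact lay_ne hv hg (by omega)
    · exact lay_ne hv hp (by omega)
    · exact lay_ne hv Lx (by omega)
    · exact lay_ne hv Lz (by omega)
    · exact lay_ne hv Ly (by omega)
    · exact lay_ne hv hq (by omega)
    · exact lay_ne hv hh (by omega)
    · exact lay_ne hg hp (by omega)
    · exact lay_ne hg Lx (by omega)
    · exact lay_ne hg Lz (by omega)
    · exact lay_ne hg Ly (by omega)
    · exact lay_ne hg hq (by omega)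
    · exact lay_ne hp Lx (by omega)
    · exact lay_ne hp Lz (by omega)
    · exact lay_ne hp Ly (by omega)
    · exact lay_ne hp hh (by omega)
    · exact lay_ne Lx hq (by omega)
    · exact lay_ne Lx hh (by omega)
    · exact lay_ne Lz hq (by omega)
    · exact lay_ne Lz hh (by omega)
    · exact lay_ne Ly hq (by omega)
    · exact lay_ne Ly hh (by omega)
    · exact lay_ne hq hh (by omega)

include hfree hcl hj in
/-- The common grandparent of a 4-clique. -/
theorem exists_grand {K : Finset V} (hK : Cl4 G K) (hKl : K ⊆ lay G v (j + 2)) :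
    ∃ w ∈ lay G v j, ∀ p ∈ lay G v (j + 1), ∀ x ∈ K, G.Adj p x → ∀ g ∈ lay G v j, G.Adj g p →
      g = w := by
  have hne : K.Nonempty := by rw [← card_pos, hK.2]; norm_num
  obtain ⟨x0, hx0⟩ := hne
  obtain ⟨p0, hp0, hpx0⟩ := exists_parent (hKl hx0)
  obtain ⟨w, hw, hwp0⟩ := exists_parent hp0
  obtain ⟨y0, hy0, hny0⟩ := hK.exists_not_adj hcl p0
  obtain ⟨q0, hq0, hqy0⟩ := exists_parent (hKl hy0)
  obtain ⟨h0, hh0, hhq0⟩ := exists_parent hq0
  have hxy0 : x0 ≠ y0 := by rintro rfl; exact hny0 hpx0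
  have hpq0 : p0 ≠ q0 := by rintro rfl; exact hny0 hqy0
  have hwh : w = h0 := grand_eq hfree hj hK hKl hx0 hy0 hxy0 hp0 hq0 hpq0 hpx0 hqy0 hw hh0 hwp0 hhq0
  refine ⟨w, hw, ?_⟩
  intro p hp x hx hpx g hg hgp
  by_cases h1 : p = p0
  · subst h1
    rw [hwh]
    exact grand_eq hfree hj hK hKl hx0 hy0 hxy0 hp hq0 hpq0 hpx0 hqy0 hg hh0 hgp hhq0
  · by_cases h2 : x = x0
    · subst h2
      by_cases h3 : p = q0
      · subst h3
        exact grand_eq hfree hj hK hKl hy0 hx0 hxy0.symm hp hp0 h1 hqy0 hpx0 hg hw hgp hwp0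
      · rw [hwh]
        exact grand_eq hfree hj hK hKl hx0 hy0 hxy0 hp hq0 h3 hpx hqy0 hg hh0 hgp hhq0
    · exact grand_eq hfree hj hK hKl hx hx0 h2 hp hp0 h1 hpx hpx0 hg hw hgp hwp0

/-- A path with five vertices in the layer `j+2` whose ends have parents with a common parent:
the parents are equal. -/
theorem rel5 (hfree : ¬ HasCyc G 8) {v : V} {j : ℕ} {x a b c y p q w : V}
    (hx : x ∈ lay G v (j + 2)) (ha : a ∈ lay G v (j + 2)) (hb : b ∈ lay G v (j + 2))
    (hc : c ∈ lay G v (j + 2)) (hy : y ∈ lay G v (j + 2)) (hp : p ∈ lay G v (j + 1))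
    (hq : q ∈ lay G v (j + 1)) (hw : w ∈ lay G v j) (hwp : G.Adj w p) (hwq : G.Adj w q)
    (hpx : G.Adj p x) (hqy : G.Adj q y) (h1 : G.Adj x a) (h2 : G.Adj a b) (h3 : G.Adj b c)
    (h4 : G.Adj c y) (hnd : [x, a, b, c, y].Nodup) : p = q := by
  by_contra hpq
  simp only [List.nodup_cons, List.mem_cons, List.not_mem_nil, not_or, or_false, not_false_eq_true,
      List.nodup_nil, and_true] at hnd
  obtain ⟨⟨n1, n2, n3, n4⟩, ⟨n5, n6, n7⟩, ⟨n8, n9⟩, n10⟩ := hnd
  refine no8 hfree (a := w) (b := p) (c := x) (d := a) (e := b) (f := c) (g := y) (i := q)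
    hwp hpx h1 h2 h3 h4 hqy.symm hwq.symm ?_
  simp only [List.nodup_cons, List.mem_cons, List.not_mem_nil, not_or, or_false, not_false_eq_true,
      List.nodup_nil, and_true]
  refine ⟨⟨?_, ?_, ?_, ?_, ?_, ?_, ?_⟩, ⟨?_, ?_, ?_, ?_, ?_, hpq⟩, ⟨n1, n2, n3, n4, ?_⟩,
      ⟨n5, n6, n7, ?_⟩, ⟨n8, n9, ?_⟩, ⟨n10, ?_⟩, ?_⟩
  · exact lay_ne hw hp (by omega)
  · exact lay_ne hw hx (by omega)
  · exact lay_ne hw ha (by omega)
  · exact lay_ne hw hb (by omega)
  · exact lay_ne hw hc (by omega)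
  · exact lay_ne hw hy (by omega)
  · exact lay_ne hw hq (by omega)
  · exact lay_ne hp hx (by omega)
  · exact lay_ne hp ha (by omega)
  · exact lay_ne hp hb (by omega)
  · exact lay_ne hp hc (by omega)
  · exact lay_ne hp hy (by omega)
  · exact lay_ne hx hq (by omega)
  · exact lay_ne ha hq (by omega)
  · exact lay_ne hb hq (by omega)
  · exact lay_ne hc hq (by omega)
  · exact lay_ne hy hq (by omega)

include hfree hcl hj in
/-- Different 4-cliques of a layer are disjoint. -/
theorem cl4_disjoint {K K' : Finset V} (hK : Cl4 G K) (hKl : K ⊆ lay G v (j + 2))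
    (hK' : Cl4 G K') (hKl' : K' ⊆ lay G v (j + 2)) (hne : K ≠ K') : Disjoint K K' := by
  rw [disjoint_iff_inter_eq_empty]
  by_contra hI
  have hI' : (K ∩ K').Nonempty := nonempty_iff_ne_empty.2 hI
  obtain ⟨w, hw, hwu⟩ := exists_grand hfree hcl hj hK hKl
  obtain ⟨w', hw', hwu'⟩ := exists_grand hfree hcl hj hK' hKl'
  obtain ⟨a0, ha0⟩ := hI'
  rw [mem_inter] at ha0
  obtain ⟨p0, hp0, hpa0⟩ := exists_parent (hKl ha0.1)
  obtain ⟨g0, hg0, hgp0⟩ := exists_parent hp0
  have e1 := hwu p0 hp0 a0 ha0.1 hpa0 g0 hg0 hgp0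
  have e2 := hwu' p0 hp0 a0 ha0.2 hpa0 g0 hg0 hgp0
  have hww : w' = w := e2.symm.trans e1
  subst hww
  -- every parent is adjacent to `w'`
  have hpar : ∀ x ∈ K ∪ K', ∀ p ∈ lay G v (j + 1), G.Adj p x → G.Adj w' p := by
    intro x hx p hp hpx
    obtain ⟨g, hg, hgp⟩ := exists_parent hp
    rcases mem_union.1 hx with hx | hx
    · rw [← hwu p hp x hx hpx g hg hgp]; exact hgp
    · rw [← hwu' p hp x hx hpx g hg hgp]; exact hgp
  have hlay : ∀ x ∈ K ∪ K', x ∈ lay G v (j + 2) := by
    intro x hx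
    rcases mem_union.1 hx with hx | hx
    · exact hKl hx
    · exact hKl' hx
  -- relation
  have hrel : ∀ {x a b c y : V}, x ∈ K ∪ K' → a ∈ K ∪ K' → b ∈ K ∪ K' → c ∈ K ∪ K' → y ∈ K ∪ K' →
      G.Adj x a → G.Adj a b → G.Adj b c → G.Adj c y → [x, a, b, c, y].Nodup →
      ∀ p ∈ lay G v (j + 1), G.Adj p x → G.Adj p y := by
    intro x a b c y hx ha hb hc hy h1 h2 h3 h4 hnd p hp hpx
    obtain ⟨q, hq, hqy⟩ := exists_parent (hlay y hy)
    have := rel5 hfree (hlay x hx) (hlay a ha) (hlay b hb) (hlay c hc) (hlay y hy) hp hq hw'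
      (hpar x hx p hp hpx) (hpar y hy q hq hqy) hpx hqy h1 h2 h3 h4 hnd
    rw [this]; exact hqy
  have c1 : (K ∩ K').card + (K \ K').card = 4 := by
    rw [← hK.2]; exact card_inter_add_card_sdiff K K'
  have c2 : (K ∩ K').card + (K' \ K).card = 4 := by
    rw [← hK'.2, inter_comm]; exact card_inter_add_card_sdiff K' K
  have c3 : 1 ≤ (K ∩ K').card := card_pos.2 ⟨a0, mem_inter.2 ha0⟩
  have c4 : (K ∩ K').card ≤ 3 := by
    by_contra hcon
    have h1 : (K ∩ K').card = 4 := by omega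
    have h2 : K ∩ K' = K := eq_of_subset_of_card_le inter_subset_left (by rw [h1, hK.2])
    have h3 : K ∩ K' = K' := eq_of_subset_of_card_le inter_subset_right (by rw [h1, hK'.2])
    exact hne (h2.symm.trans h3)
  have hnadj : ∀ p, ∃ y ∈ K, ¬ G.Adj p y := hK.exists_not_adj hcl
  have c5 : (K ∩ K').card = 1 ∨ (K ∩ K').card = 2 ∨ (K ∩ K').card = 3 := by omega
  rcases c5 with c5 | c5 | c5
  · -- one common vertex
    obtain ⟨a, ha⟩ := card_eq_one.1 c5
    obtain ⟨b, c, d, hbc, hbd, hcd, hs⟩ := card_eq_three.1 (show (K \ K').card = 3 by omega)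
    obtain ⟨e, f, g, hef, heg, hfg, hs'⟩ := card_eq_three.1 (show (K' \ K).card = 3 by omega)
    have ma : a ∈ K ∧ a ∈ K' := mem_inter.1 (by rw [ha]; simp)
    have mb : b ∈ K ∧ b ∉ K' := mem_sdiff.1 (by rw [hs]; simp)
    have mc : c ∈ K ∧ c ∉ K' := mem_sdiff.1 (by rw [hs]; simp)
    have md : d ∈ K ∧ d ∉ K' := mem_sdiff.1 (by rw [hs]; simp)
    have me : e ∈ K' ∧ e ∉ K := mem_sdiff.1 (by rw [hs']; simp)
    have mf : f ∈ K' ∧ f ∉ K := mem_sdiff.1 (by rw [hs']; simp)
    have mg : g ∈ K' ∧ g ∉ K := mem_sdiff.1 (by rw [hs']; simp)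
    have nn : ∀ {x y : V}, x ∈ K → y ∉ K → x ≠ y := by rintro x y h1 h2 rfl; exact h2 h1
    have nn' : ∀ {x y : V}, x ∈ K' → y ∉ K' → x ≠ y := by rintro x y h1 h2 rfl; exact h2 h1
    have ab : a ≠ b := nn' ma.2 mb.2
    have ac : a ≠ c := nn' ma.2 mc.2
    have ad : a ≠ d := nn' ma.2 md.2
    have ae : a ≠ e := nn ma.1 me.2
    have af : a ≠ f := nn ma.1 mf.2
    have ag : a ≠ g := nn ma.1 mg.2
    have be : b ≠ e := nn mb.1 me.2
    have bf : b ≠ f := nn mb.1 mf.2
    have bg : b ≠ g := nn mb.1 mg.2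
    have ce : c ≠ e := nn mc.1 me.2
    have cf : c ≠ f := nn mc.1 mf.2
    have cg : c ≠ g := nn mc.1 mg.2
    have de : d ≠ e := nn md.1 me.2
    have df : d ≠ f := nn md.1 mf.2
    have dg : d ≠ g := nn md.1 mg.2
    obtain ⟨p, hp, hpb⟩ := exists_parent (hKl mb.1)
    have hpg : G.Adj p g := hrel (x := b) (a := c) (b := a) (c := f) (y := g)
      (mem_union_left _ mb.1) (mem_union_left _ mc.1) (mem_union_left _ ma.1)
      (mem_union_right _ mf.1) (mem_union_right _ mg.1) (hK.1 _ mb.1 _ mc.1 hbc)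
      (hK.1 _ mc.1 _ ma.1 ac.symm) (hK'.1 _ ma.2 _ mf.1 af) (hK'.1 _ mf.1 _ mg.1 hfg)
      (by simp [hbc, ab.symm, bf, bg, ac.symm, cf, cg, af, ag, hfg]) p hp hpb
    have L := hlay
    have np : ∀ x ∈ K ∪ K', p ≠ x := fun x hx => lay_ne hp (hlay x hx) (by omega)
    refine no8 hfree (a := p) (b := b) (c := c) (d := d) (e := a) (f := e) (g := f) (i := g)
      hpb (hK.1 _ mb.1 _ mc.1 hbc) (hK.1 _ mc.1 _ md.1 hcd) (hK.1 _ md.1 _ ma.1 ad.symm)
      (hK'.1 _ ma.2 _ me.1 ae) (hK'.1 _ me.1 _ mf.1 hef) (hK'.1 _ mf.1 _ mg.1 hfg) hpg.symm ?_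
    simp [np b (mem_union_left _ mb.1), np c (mem_union_left _ mc.1), np d (mem_union_left _ md.1),
      np a (mem_union_left _ ma.1), np e (mem_union_right _ me.1), np f (mem_union_right _ mf.1),
      np g (mem_union_right _ mg.1), hbc, hbd, hcd, hef, heg, hfg, ab.symm, ac.symm, ad.symm,
      ae, af, ag, be, bf, bg, ce, cf, cg, de, df, dg]
  · -- two common vertices
    obtain ⟨a, b, hab, hs0⟩ := card_eq_two.1 c5
    obtain ⟨c, d, hcd, hs⟩ := card_eq_two.1 (show (K \ K').card = 2 by omega)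
    obtain ⟨e, f, hef, hs'⟩ := card_eq_two.1 (show (K' \ K).card = 2 by omega)
    have ma : a ∈ K ∧ a ∈ K' := mem_inter.1 (by rw [hs0]; simp)
    have mb : b ∈ K ∧ b ∈ K' := mem_inter.1 (by rw [hs0]; simp)
    have mc : c ∈ K ∧ c ∉ K' := mem_sdiff.1 (by rw [hs]; simp)
    have md : d ∈ K ∧ d ∉ K' := mem_sdiff.1 (by rw [hs]; simp)
    have me : e ∈ K' ∧ e ∉ K := mem_sdiff.1 (by rw [hs']; simp)
    have mf : f ∈ K' ∧ f ∉ K := mem_sdiff.1 (by rw [hs']; simp)
    have nn : ∀ {x y : V}, x ∈ K → y ∉ K → x ≠ y := by rintro x y h1 h2 rfl; exact h2 h1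
    have nn' : ∀ {x y : V}, x ∈ K' → y ∉ K' → x ≠ y := by rintro x y h1 h2 rfl; exact h2 h1
    have ac : a ≠ c := nn' ma.2 mc.2
    have ad : a ≠ d := nn' ma.2 md.2
    have ae : a ≠ e := nn ma.1 me.2
    have af : a ≠ f := nn ma.1 mf.2
    have bc : b ≠ c := nn' mb.2 mc.2
    have bd : b ≠ d := nn' mb.2 md.2
    have be : b ≠ e := nn mb.1 me.2
    have bf : b ≠ f := nn mb.1 mf.2
    have ce : c ≠ e := nn mc.1 me.2
    have cf : c ≠ f := nn mc.1 mf.2
    have de : d ≠ e := nn md.1 me.2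
    have df : d ≠ f := nn md.1 mf.2
    obtain ⟨p, hp, hpc⟩ := exists_parent (hKl mc.1)
    have ua := mem_union_left K' ma.1
    have ub := mem_union_left K' mb.1
    have uc := mem_union_left K' mc.1
    have ud := mem_union_left K' md.1
    have ue := mem_union_right K me.1
    have uf := mem_union_right K mf.1
    have hpe : G.Adj p e := hrel (x := c) (a := d) (b := a) (c := f) (y := e) uc ud ua uf ue
      (hK.1 _ mc.1 _ md.1 hcd) (hK.1 _ md.1 _ ma.1 ad.symm) (hK'.1 _ ma.2 _ mf.1 af)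
      (hK'.1 _ mf.1 _ me.1 hef.symm)
      (by simp [hcd, ac.symm, cf, ce, ad.symm, df, de, af, ae, hef.symm]) p hp hpc
    have hpd : G.Adj p d := hrel (x := e) (a := f) (b := a) (c := c) (y := d) ue uf ua uc ud
      (hK'.1 _ me.1 _ mf.1 hef) (hK'.1 _ mf.1 _ ma.2 af.symm) (hK.1 _ ma.1 _ mc.1 ac)
      (hK.1 _ mc.1 _ md.1 hcd)
      (by simp [hef, ae.symm, ce.symm, de.symm, af.symm, cf.symm, df.symm, ac, ad, hcd]) p hp hpe
    have hpa : G.Adj p a := hrel (x := c) (a := b) (b := f) (c := e) (y := a) uc ub uf ue ua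
      (hK.1 _ mc.1 _ mb.1 bc.symm) (hK'.1 _ mb.2 _ mf.1 bf) (hK'.1 _ mf.1 _ me.1 hef.symm)
      (hK'.1 _ me.1 _ ma.2 ae.symm)
      (by simp [bc.symm, cf, ce, ac.symm, bf, be, hab.symm, hef.symm, af.symm, ae.symm]) p hp hpc
    have hpb : G.Adj p b := hrel (x := c) (a := a) (b := f) (c := e) (y := b) uc ua uf ue ub
      (hK.1 _ mc.1 _ ma.1 ac.symm) (hK'.1 _ ma.2 _ mf.1 af) (hK'.1 _ mf.1 _ me.1 hef.symm)
      (hK'.1 _ me.1 _ mb.2 be.symm)
      (by simp [bc.symm, cf, ce, ac.symm, af, ae, hab, hef.symm, bf.symm, be.symm]) p hp hpc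
    obtain ⟨y, hy, hny⟩ := hnadj p
    have hy' : y ∈ (K ∩ K') ∪ (K \ K') := by
      rw [mem_union, mem_inter, mem_sdiff]
      by_cases h : y ∈ K'
      · exact Or.inl ⟨hy, h⟩
      · exact Or.inr ⟨hy, h⟩
    rw [hs0, hs] at hy'
    simp only [mem_union, mem_insert, mem_singleton] at hy'
    rcases hy' with (rfl | rfl) | (rfl | rfl)
    · exact hny hpa
    · exact hny hpb
    · exact hny hpc
    · exact hny hpd
  · -- three common vertices
    obtain ⟨a, b, c, hab, hac, hbc, hs0⟩ := card_eq_three.1 c5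
    obtain ⟨d, hs⟩ := card_eq_one.1 (show (K \ K').card = 1 by omega)
    obtain ⟨e, hs'⟩ := card_eq_one.1 (show (K' \ K).card = 1 by omega)
    have ma : a ∈ K ∧ a ∈ K' := mem_inter.1 (by rw [hs0]; simp)
    have mb : b ∈ K ∧ b ∈ K' := mem_inter.1 (by rw [hs0]; simp)
    have mc : c ∈ K ∧ c ∈ K' := mem_inter.1 (by rw [hs0]; simp)
    have md : d ∈ K ∧ d ∉ K' := mem_sdiff.1 (by rw [hs]; simp)
    have me : e ∈ K' ∧ e ∉ K := mem_sdiff.1 (by rw [hs']; simp)
    have nn : ∀ {x y : V}, x ∈ K → y ∉ K → x ≠ y := by rintro x y h1 h2 rfl; exact h2 h1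
    have nn' : ∀ {x y : V}, x ∈ K' → y ∉ K' → x ≠ y := by rintro x y h1 h2 rfl; exact h2 h1
    have ad : a ≠ d := nn' ma.2 md.2
    have bd : b ≠ d := nn' mb.2 md.2
    have cd : c ≠ d := nn' mc.2 md.2
    have ae : a ≠ e := nn ma.1 me.2
    have be : b ≠ e := nn mb.1 me.2
    have ce : c ≠ e := nn mc.1 me.2
    have de : d ≠ e := nn md.1 me.2
    obtain ⟨p, hp, hpd⟩ := exists_parent (hKl md.1)
    have ua := mem_union_left K' ma.1
    have ub := mem_union_left K' mb.1
    have uc := mem_union_left K' mc.1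
    have ud := mem_union_left K' md.1
    have ue := mem_union_right K me.1
    have hpa : G.Adj p a := hrel (x := d) (a := b) (b := e) (c := c) (y := a) ud ub ue uc ua
      (hK.1 _ md.1 _ mb.1 bd.symm) (hK'.1 _ mb.2 _ me.1 be) (hK'.1 _ me.1 _ mc.2 ce.symm)
      (hK.1 _ mc.1 _ ma.1 hac.symm)
      (by simp [bd.symm, de, cd.symm, ad.symm, be, hbc, hab.symm, ce.symm, ae.symm, hac.symm])
      p hp hpd
    have hpb : G.Adj p b := hrel (x := d) (a := a) (b := e) (c := c) (y := b) ud ua ue uc ub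
      (hK.1 _ md.1 _ ma.1 ad.symm) (hK'.1 _ ma.2 _ me.1 ae) (hK'.1 _ me.1 _ mc.2 ce.symm)
      (hK.1 _ mc.1 _ mb.1 hbc.symm)
      (by simp [ad.symm, de, cd.symm, bd.symm, ae, hac, hab, ce.symm, be.symm, hbc.symm])
      p hp hpd
    have hpc : G.Adj p c := hrel (x := d) (a := a) (b := e) (c := b) (y := c) ud ua ue ub uc
      (hK.1 _ md.1 _ ma.1 ad.symm) (hK'.1 _ ma.2 _ me.1 ae) (hK'.1 _ me.1 _ mb.2 be.symm)
      (hK.1 _ mb.1 _ mc.1 hbc)
      (by simp [ad.symm, de, cd.symm, bd.symm, ae, hac, hab, ce.symm, be.symm, hbc])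
      p hp hpd
    obtain ⟨y, hy, hny⟩ := hnadj p
    have hy' : y ∈ (K ∩ K') ∪ (K \ K') := by
      rw [mem_union, mem_inter, mem_sdiff]
      by_cases h : y ∈ K'
      · exact Or.inl ⟨hy, h⟩
      · exact Or.inr ⟨hy, h⟩
    rw [hs0, hs] at hy'
    simp only [mem_union, mem_insert, mem_singleton] at hy'
    rcases hy' with (rfl | rfl | rfl) | rfl
    · exact hny hpa
    · exact hny hpb
    · exact hny hpc
    · exact hny hpd

include hfree hcl hj in
/-- Different 4-cliques of a layer have no common parent. -/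
theorem no_common_parent {K K' : Finset V} (hK : Cl4 G K) (hKl : K ⊆ lay G v (j + 2))
    (hK' : Cl4 G K') (hKl' : K' ⊆ lay G v (j + 2)) (hne : K ≠ K') {p a e : V}
    (hp : p ∈ lay G v (j + 1)) (ha : a ∈ K) (he : e ∈ K') (hpa : G.Adj p a) (hpe : G.Adj p e) :
    False := by
  have hdis := cl4_disjoint hfree hcl hj hK hKl hK' hKl' hne
  have nn : ∀ {x y : V}, x ∈ K → y ∈ K' → x ≠ y := by
    rintro x y h1 h2 rfl
    exact (disjoint_left.1 hdis) h1 h2
  obtain ⟨b, hb, hpb⟩ := hK.exists_not_adj hcl p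
  obtain ⟨b', hb', hpb'⟩ := hK'.exists_not_adj hcl p
  obtain ⟨q, hq, hqb⟩ := exists_parent (hKl hb)
  obtain ⟨q', hq', hqb'⟩ := exists_parent (hKl' hb')
  have hab : a ≠ b := by rintro rfl; exact hpb hpa
  have heb : b' ≠ e := by rintro rfl; exact hpb' hpe
  have hpq : p ≠ q := by rintro rfl; exact hpb hqb
  have hpq' : p ≠ q' := by rintro rfl; exact hpb' hqb'
  by_cases hqq : q = q'
  · subst hqq
    obtain ⟨x, hx, hxa, hxb⟩ := hK.exists_third a b
    obtain ⟨x', hx', hxe, hxb'⟩ := hK'.exists_third e b'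
    refine no8 hfree (a := p) (b := a) (c := x) (d := b) (e := q) (f := b') (g := x') (i := e)
      hpa (hK.1 _ ha _ hx hxa.symm) (hK.1 _ hx _ hb hxb) hqb.symm hqb' (hK'.1 _ hb' _ hx' hxb'.symm)
      (hK'.1 _ hx' _ he hxe) hpe.symm ?_
    have L1 : ∀ x ∈ K, p ≠ x := fun x hx => lay_ne hp (hKl hx) (by omega)
    have L2 : ∀ x ∈ K', p ≠ x := fun x hx => lay_ne hp (hKl' hx) (by omega)
    have L3 : ∀ x ∈ K, x ≠ q := fun x hx => lay_ne (hKl hx) hq (by omega)
    have L4 : ∀ x ∈ K', q ≠ x := fun x hx => lay_ne hq (hKl' hx) (by omega)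
    simp [L1 a ha, L1 x hx, L1 b hb, hpq, L2 b' hb', L2 x' hx', L2 e he, hxa.symm, hab, L3 a ha,
      nn ha hb', nn ha hx', nn ha he, hxb, L3 x hx, nn hx hb', nn hx hx', nn hx he, L3 b hb,
      nn hb hb', nn hb hx', nn hb he, L4 b' hb', L4 x' hx', L4 e he, hxb'.symm, heb, hxe]
  · obtain ⟨w, hw, hwu⟩ := exists_grand hfree hcl hj hK hKl
    obtain ⟨w', hw', hwu'⟩ := exists_grand hfree hcl hj hK' hKl'
    obtain ⟨g, hg, hgp⟩ := exists_parent hp
    have e1 := hwu p hp a ha hpa g hg hgp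
    have e2 := hwu' p hp e he hpe g hg hgp
    have hww : w' = w := e2.symm.trans e1
    subst hww
    obtain ⟨g1, hg1, hgq⟩ := exists_parent hq
    have e3 := hwu q hq b hb hqb g1 hg1 hgq
    subst e3
    obtain ⟨g2, hg2, hgq'⟩ := exists_parent hq'
    have e4 := hwu' q' hq' b' hb' hqb' g2 hg2 hgq'
    subst e4
    refine no8 hfree (a := p) (b := a) (c := b) (d := q) (e := g2) (f := q') (g := b') (i := e)
      hpa (hK.1 _ ha _ hb hab) hqb.symm hgq.symm hgq' hqb' (hK'.1 _ hb' _ he heb) hpe.symm ?_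
    have L1 : ∀ x ∈ K, p ≠ x := fun x hx => lay_ne hp (hKl hx) (by omega)
    have L2 : ∀ x ∈ K', p ≠ x := fun x hx => lay_ne hp (hKl' hx) (by omega)
    have L3 : ∀ x ∈ K, x ≠ q := fun x hx => lay_ne (hKl hx) hq (by omega)
    have L4 : ∀ x ∈ K', q ≠ x := fun x hx => lay_ne hq (hKl' hx) (by omega)
    have L5 : ∀ x ∈ K, x ≠ q' := fun x hx => lay_ne (hKl hx) hq' (by omega)
    have L6 : ∀ x ∈ K', q' ≠ x := fun x hx => lay_ne hq' (hKl' hx) (by omega)
    have L7 : ∀ x ∈ K, x ≠ g2 := fun x hx => lay_ne (hKl hx) hg2 (by omega)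
    have L8 : ∀ x ∈ K', g2 ≠ x := fun x hx => lay_ne hg2 (hKl' hx) (by omega)
    have L9 : ∀ x ∈ lay G v (j + 1), x ≠ g2 := fun x hx => lay_ne hx hg2 (by omega)
    simp [L1 a ha, L1 b hb, hpq, L9 p hp, hpq', L2 b' hb', L2 e he, hab, L3 a ha, L7 a ha,
      L5 a ha, nn ha hb', nn ha he, L3 b hb, L7 b hb, L5 b hb, nn hb hb', nn hb he, L9 q hq, hqq,
      L4 b' hb', L4 e he, (L9 q' hq').symm, L8 b' hb', L8 e he, L6 b' hb', L6 e he, heb]

include hfree hcl hj in
/-- A parent of a 4-clique has at most one neighbour in its layer, and this is a parent as well. -/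
theorem parent_nb {K : Finset V} (hK : Cl4 G K) (hKl : K ⊆ lay G v (j + 2)) {p a : V}
    (hp : p ∈ lay G v (j + 1)) (ha : a ∈ K) (hpa : G.Adj p a) :
    ∃ q, (∃ b ∈ K, G.Adj q b) ∧ ∀ r ∈ lay G v (j + 1), G.Adj p r → r = q := by
  obtain ⟨b, hb, hpb⟩ := hK.exists_not_adj hcl p
  obtain ⟨q, hq, hqb⟩ := exists_parent (hKl hb)
  refine ⟨q, ⟨b, hb, hqb⟩, ?_⟩
  intro r hr hpr
  by_contra hrq
  have hab : a ≠ b := by rintro rfl; exact hpb hpa
  have hpq : p ≠ q := by rintro rfl; exact hpb hqb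
  obtain ⟨w, hw, hwu⟩ := exists_grand hfree hcl hj hK hKl
  obtain ⟨g1, hg1, hgq⟩ := exists_parent hq
  have e3 := hwu q hq b hb hqb g1 hg1 hgq
  subst e3
  obtain ⟨g, hg, hgr⟩ := exists_parent hr
  obtain ⟨x, hx, y, hy, hxa, hxb, hya, hyb, hxy⟩ := hK.exists_two a b
  have L1 : ∀ z ∈ lay G v (j + 1), ∀ x ∈ K, z ≠ x := fun z hz x hx => lay_ne hz (hKl hx) (by omega)
  have L2 : ∀ z ∈ lay G v (j + 1), z ≠ g1 := fun z hz => lay_ne hz hg1 (by omega)
  have L3 : ∀ x ∈ K, x ≠ g1 := fun x hx => lay_ne (hKl hx) hg1 (by omega)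
  by_cases hgg : g = g1
  · subst hgg
    refine no8 hfree (a := r) (b := p) (c := a) (d := x) (e := y) (f := b) (g := q) (i := g)
      hpr.symm hpa (hK.1 _ ha _ hx hxa.symm) (hK.1 _ hx _ hy hxy) (hK.1 _ hy _ hb hyb) hqb.symm
      hgq.symm hgr ?_
    simp [hpr.ne.symm, L1 r hr a ha, L1 r hr x hx, L1 r hr y hy, L1 r hr b hb, hrq, L2 r hr,
      L1 p hp a ha, L1 p hp x hx, L1 p hp y hy, L1 p hp b hb, hpq, L2 p hp, hxa.symm, hya.symm,
      hab, (L1 q hq a ha).symm, L3 a ha, hxy, hxb, (L1 q hq x hx).symm, L3 x hx, hyb,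
      (L1 q hq y hy).symm, L3 y hy, (L1 q hq b hb).symm, L3 b hb, L2 q hq]
  · have hj1 : j = 1 := by
      rcases Nat.eq_zero_or_pos j with h0 | h0
      · subst h0
        rw [lay_zero, mem_singleton] at hg hg1
        exact absurd (hg.trans hg1.symm) hgg
      · omega
    subst hj1
    have hv : v ∈ lay G v 0 := by simp [lay_zero]
    have L4 : ∀ z ∈ lay G v (1 + 1), z ≠ g := fun z hz => lay_ne hz hg (by omega)
    have L5 : ∀ x ∈ K, x ≠ g := fun x hx => lay_ne (hKl hx) hg (by omega)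
    have L6 : ∀ z ∈ lay G v (1 + 1), z ≠ v := fun z hz => lay_ne hz hv (by omega)
    have L7 : ∀ x ∈ K, x ≠ v := fun x hx => lay_ne (hKl hx) hv (by omega)
    have L8 : ∀ x ∈ lay G v 1, x ≠ v := fun x hx => lay_ne hx hv (by omega)
    refine no8 hfree (a := r) (b := p) (c := a) (d := b) (e := q) (f := g1) (g := v) (i := g)
      hpr.symm hpa (hK.1 _ ha _ hb hab) hqb.symm hgq.symm (mem_lay_one.1 hg1).symm
      (mem_lay_one.1 hg) hgr ?_
    simp [hpr.ne.symm, L1 r hr a ha, L1 r hr b hb, hrq, L2 r hr, L6 r hr, L4 r hr, L1 p hp a ha,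
      L1 p hp b hb, hpq, L2 p hp, L6 p hp, L4 p hp, hab, (L1 q hq a ha).symm, L3 a ha, L7 a ha,
      L5 a ha, (L1 q hq b hb).symm, L3 b hb, L7 b hb, L5 b hb, L2 q hq, L6 q hq, L4 q hq,
      L8 g1 hg1, (Ne.symm hgg), (L8 g hg).symm]

end Fix

/-! ### Counting -/

open Classical in
variable (G) in
/-- The 4-cliques of a layer. -/
noncomputable def KK (v : V) (i : ℕ) : Finset (Finset V) :=
  (lay G v i).powerset.filter (fun K => Cl4 G K)

theorem mem_KK {v : V} {i : ℕ} {K : Finset V} : K ∈ KK G v i ↔ K ⊆ lay G v i ∧ Cl4 G K := by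
  classical
  simp [KK]

/-- Subsets of a layer. -/
theorem card_le_add_KK (hfree : ¬ HasCyc G 8) {v : V} {i : ℕ} (hi : 1 ≤ i) (hi3 : i ≤ 3)
    {Y : Finset V} (hY : Y ⊆ lay G v i) : Y.card ≤ 3 * alp G Y + (KK G v i).card := by
  classical
  have hch : ∀ K : Finset V, ∃ r, K ∈ KK G v i → r ∈ K := by
    intro K
    by_cases hK : K ∈ KK G v i
    · have : K.Nonempty := by rw [← card_pos, (mem_KK.1 hK).2.2]; norm_num
      obtain ⟨r, hr⟩ := this
      exact ⟨r, fun _ => hr⟩
    · exact ⟨v, fun h => absurd h hK⟩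
  choose r hr using hch
  have h1 := layer_bound (k := 7) (c := 6) le_rfl le_rfl hfree (v := v) (i := i) hi (by omega)
    (Z := Y \ (KK G v i).image r) (sdiff_subset.trans hY) (by
      intro Q hQ hQc
      by_contra hcon
      obtain ⟨Q', hQ', hQ4⟩ := exists_subset_card_eq (show 4 ≤ Q.card by omega)
      have hmem : Q' ∈ KK G v i := mem_KK.2 ⟨hQ'.trans (hQ.trans (sdiff_subset.trans hY)),
        fun a ha b hb hab => hQc a (hQ' ha) b (hQ' hb) hab, hQ4⟩
      have h2 := hQ (hQ' (hr Q' hmem))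
      exact (mem_sdiff.1 h2).2 (mem_image_of_mem r hmem))
  have h2 : alp G (Y \ (KK G v i).image r) ≤ alp G Y := alp_mono sdiff_subset
  have h3 : ((KK G v i).image r).card ≤ (KK G v i).card := card_image_le
  have h4 : Y.card ≤ (Y \ (KK G v i).image r).card + ((KK G v i).image r).card := by
    have := card_le_card (show Y ⊆ (Y \ (KK G v i).image r) ∪ (KK G v i).image r by
      intro x hx
      rw [mem_union, mem_sdiff]
      by_cases h : x ∈ (KK G v i).image r
      · exact Or.inr h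
      · exact Or.inl ⟨hx, h⟩)
    exact this.trans (card_union_le _ _)
  omega

/-- The main inequality for a layer. -/
theorem card_layer (hfree : ¬ HasCyc G 8)
    (hcl : ∀ Q : Finset V, (∀ a ∈ Q, ∀ b ∈ Q, a ≠ b → G.Adj a b) → Q.card ≤ 4)
    {v : V} {j : ℕ} (hj : j ≤ 1) :
    (lay G v (j + 1)).card + (KK G v (j + 2)).card ≤
      3 * alp G (lay G v (j + 1)) + (KK G v (j + 1)).card := by
  classical
  have hch : ∀ K : Finset V, ∃ p, K ∈ KK G v (j + 2) →
      p ∈ lay G v (j + 1) ∧ ∃ x ∈ K, G.Adj p x := by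
    intro K
    by_cases hK : K ∈ KK G v (j + 2)
    · have : K.Nonempty := by rw [← card_pos, (mem_KK.1 hK).2.2]; norm_num
      obtain ⟨x, hx⟩ := this
      obtain ⟨p, hp, hpx⟩ := exists_parent ((mem_KK.1 hK).1 hx)
      exact ⟨p, fun _ => ⟨hp, x, hx, hpx⟩⟩
    · exact ⟨v, fun h => absurd h hK⟩
  choose p hp using hch
  have hinj : Set.InjOn p (KK G v (j + 2) : Set (Finset V)) := by
    intro K hK K' hK' heq
    have hK1 := mem_KK.1 (mem_coe.1 hK)
    have hK1' := mem_KK.1 (mem_coe.1 hK')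
    by_contra hne
    obtain ⟨h1, x, hx, h2⟩ := hp K (mem_coe.1 hK)
    obtain ⟨h1', x', hx', h2'⟩ := hp K' (mem_coe.1 hK')
    rw [← heq] at h2'
    exact no_common_parent hfree hcl hj hK1.2 hK1.1 hK1'.2 hK1'.1 hne h1 hx hx' h2 h2'
  set D := (KK G v (j + 2)).image p with hD
  have hDc : D.card = (KK G v (j + 2)).card := card_image_of_injOn hinj
  have hDL : D ⊆ lay G v (j + 1) := by
    intro x hx
    obtain ⟨K, hK, rfl⟩ := mem_image.1 hx
    exact (hp K hK).1
  have hDI : Indep G D := by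
    intro x hx y hy hxy
    obtain ⟨K, hK, rfl⟩ := mem_image.1 hx
    obtain ⟨K', hK', rfl⟩ := mem_image.1 hy
    obtain ⟨h1, a, ha, h2⟩ := hp K hK
    obtain ⟨h1', a', ha', h2'⟩ := hp K' hK'
    obtain ⟨q, ⟨b, hb, hqb⟩, hq⟩ := parent_nb hfree hcl hj (mem_KK.1 hK).2 (mem_KK.1 hK).1 h1 ha h2
    have h3 := hq _ h1' hxy
    rw [← h3] at hqb
    by_cases hKK : K = K'
    · subst hKK
      exact G.loopless.irrefl _ hxy
    · exact no_common_parent hfree hcl hj (mem_KK.1 hK).2 (mem_KK.1 hK).1 (mem_KK.1 hK').2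
        (mem_KK.1 hK').1 hKK h1' hb ha' hqb h2'
  have h1 := alp_sdiff_nbC hDI hDL
  have h2 := card_le_add_KK hfree (v := v) (i := j + 1) (by omega) (by omega)
    (Y := lay G v (j + 1) \ nbC G D) sdiff_subset
  have h3 : (lay G v (j + 1) ∩ nbC G D).card ≤ 2 * (KK G v (j + 2)).card := by
    have hsub : lay G v (j + 1) ∩ nbC G D ⊆
        (KK G v (j + 2)).biUnion (fun K => (lay G v (j + 1)).filter
          (fun x => x = p K ∨ G.Adj (p K) x)) := by
      intro x hx
      rw [mem_inter, mem_nbC] at hx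
      rw [mem_biUnion]
      rcases hx with ⟨hx, hx' | ⟨y, hy, hyx⟩⟩
      · obtain ⟨K, hK, rfl⟩ := mem_image.1 hx'
        exact ⟨K, hK, mem_filter.2 ⟨hx, Or.inl rfl⟩⟩
      · obtain ⟨K, hK, rfl⟩ := mem_image.1 hy
        exact ⟨K, hK, mem_filter.2 ⟨hx, Or.inr hyx⟩⟩
    refine (card_le_card hsub).trans ?_
    refine (card_biUnion_le_card_mul _ _ 2 ?_).trans (by rw [mul_comm])
    intro K hK
    obtain ⟨h1, a, ha, h2⟩ := hp K hK
    obtain ⟨q, -, hq⟩ := parent_nb hfree hcl hj (mem_KK.1 hK).2 (mem_KK.1 hK).1 h1 ha h2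
    have : (lay G v (j + 1)).filter (fun x => x = p K ∨ G.Adj (p K) x) ⊆ {p K, q} := by
      intro x hx
      obtain ⟨hx, hx' | hx'⟩ := mem_filter.1 hx
      · simp [hx']
      · simp [hq x hx hx']
    exact (card_le_card this).trans card_le_two
  have h4 := card_inter_add_card_sdiff (lay G v (j + 1)) (nbC G D)
  omega

end K74

/-- There is no minimal counterexample for `k = 7` with clique number at most four. -/
theorem MinCE.no74 {V : Type u} [Fintype V] {G : SimpleGraph V} (h : MinCE 7 G)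
    (hcl : ∀ Q : Finset V, (∀ a ∈ Q, ∀ b ∈ Q, a ≠ b → G.Adj a b) → Q.card ≤ 4) : False := by
  classical
  have hV : 0 < Fintype.card V := by rw [h.card_eq]; omega
  obtain ⟨v⟩ : Nonempty V := Fintype.card_pos_iff.1 hV
  have ha0 : alp G (ball G v 0) = 1 := by rw [ball_zero, alp_singleton]
  have htop : ∀ i, alp G (ball G v i) ≤ 7 := fun i => (alp_mono (subset_univ _)).trans h.alp_le
  have hN1 : (K74.KK G v 1).card = 0 := by
    rw [card_eq_zero, eq_empty_iff_forall_notMem]
    intro K hK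
    obtain ⟨hK1, hK2, hK3⟩ := K74.mem_KK.1 hK
    obtain ⟨h1, h2⟩ := clique_lay_one hK1 hK2
    have := hcl _ h1
    omega
  have f1 := K74.card_layer h.free hcl (v := v) (j := 0) (by omega)
  have f2 := K74.card_layer h.free hcl (v := v) (j := 1) (by omega)
  have f3 := K74.card_le_add_KK h.free (v := v) (i := 3) (by omega) (by omega) (Y := lay G v 3)
    subset_rfl
  simp only [zero_add, Nat.reduceAdd] at f1 f2 f3
  have g1 := h.growth v 6 0 0 (by simp; omega)
  have g2 := h.growth v 6 0 1 (by simp [sum_range_succ]; omega)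
  have g3 := h.growth v 6 0 2 (by simp [sum_range_succ]; omega)
  have t3 := htop 3
  simp only [zero_add, Nat.reduceAdd] at g1 g2 g3
  omega

end Crest.Agent.R054
end

-- ▼ part R054/ClassifyDone
section

/-! # R054 / ClassifyDone : `ClassifyStmt` holds -/

set_option autoImplicit false

namespace Crest.Agent.R054

universe u

theorem classifyStmt : ClassifyStmt.{u} := by
  intro V _ _ G k w M C hM hw h5 h7 hk hwk hC hlen hMC
  subst hw
  have h : ∃ o, (o = 2 ∨ o = 3) ∧ C.length = k + 1 + o := by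
    rcases hlen with h | h
    · exact ⟨2, Or.inl rfl, by omega⟩
    · exact ⟨3, Or.inr rfl, by omega⟩
  obtain ⟨o, ho, hlen'⟩ := h
  rcases classify hM hC hMC h5 h7 hwk hk ho hlen' with h | ⟨cs, h1, h2, h3⟩
  · exact Or.inl h
  · refine Or.inr ⟨cs, h1, h2, ?_⟩
    revert h3
    generalize (cs.map fun x => decide (x ∈ M)) = Y
    generalize M.card = w at *
    intro h3
    clear hMC hM hC hlen hlen' h1 h2
    unfold templates at h3
    split at h3 <;>
      simp only [List.mem_cons, List.not_mem_nil, or_false] at h3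
    · subst h3; simp [Pat.X3]
    · subst h3; simp [Pat.X4]
    · subst h3; simp [Pat.X11]
    · rcases h3 with rfl | rfl
      · simp [Pat.X5]
      · simp [Pat.X6]
    · rcases h3 with rfl | rfl
      · simp [Pat.X7]
      · simp [Pat.X8]
    · rcases h3 with rfl | rfl
      · simp [Pat.X9]
      · simp [Pat.X10]

end Crest.Agent.R054
end

-- ▼ part R054/Main

/-!
# R054 / Main : there is no minimal counterexample
-/

set_option autoImplicit false

open Finset

namespace Crest.Agent.R054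

universe u

theorem noMinCE_of (hcls : ClassifyStmt.{u}) (k : ℕ) (V : Type u) [Fintype V]
    (G : SimpleGraph V) (h : MinCE k G) : False := by
  classical
  obtain ⟨M, hM, hmaxM⟩ := exists_max_clique G
  have hk3 := h.hk
  have hMk := h.card_clique_le hM
  by_cases hk : k = 3
  · subst hk; exact no_minCE_three h
  rcases Nat.lt_or_ge M.card k with hlt | hge
  · by_cases h4 : k = 4
    · subst h4
      exact no_minCE_four h (fun K hK => (hmaxM K hK).trans (by omega))
    by_cases h5 : k = 5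
    · subst h5
      by_cases h54 : M.card = 4
      · exact h.no_five_four hM h54 (fun K hK => (hmaxM K hK).trans (by omega))
      · exact no_minCE_five h (fun K hK => (hmaxM K hK).trans (by omega))
    rcases Nat.lt_or_ge k (2 * M.card) with h2 | h2
    · rcases Nat.lt_or_ge 4 M.card with h5' | h5'
      · exact h.thmA hcls hM hmaxM h5' h2
      · have hk67 : k = 6 ∨ k = 7 := by omega
        rcases hk67 with rfl | rfl
        · exact no_minCE_six h (fun K hK => (hmaxM K hK).trans h5')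
        · exact h.no74 (fun K hK => (hmaxM K hK).trans h5')
    · exact h.thmB (by omega) (fun Q hQ => by have := hmaxM Q hQ; omega)
  · exact h.no_clique_k (by omega) hM (by omega)

/-- There is no minimal counterexample. -/
theorem noMinCE (k : ℕ) (V : Type u) [Fintype V] (G : SimpleGraph V) : ¬ MinCE k G :=
  fun h => noMinCE_of classifyStmt k V G h

end Crest.Agent.R054
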