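import Crest.Agent.R054.Cyc
import Crest.Agent.R054.Alpha

-- ▼ part R054/PatCore
section

/-!
# R054 / PatCore : certificates in pattern graphs (cyclic list + clique positions + outside path)
and the port-level far lemma.
-/

set_option autoImplicit false

namespace Crest.Agent.R054.Pat

open Crest.Agent.R054

/-! ### Boolean checkers -/

def nodupB : List ℕ → Bool
  | [] => true
  | a :: l => !(l.any (fun b => a == b)) && nodupB l

def chainB (r : ℕ → ℕ → Bool) : List ℕ → Bool
  | [] => true
  | a :: l => (match l with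
    | [] => true
    | b :: _ => r a b) && chainB r l

def certB (n : ℕ) (r : ℕ → ℕ → Bool) (W : List ℕ) : Bool :=
  W.all (fun x => Nat.blt x n) && nodupB W && chainB r (W ++ W.take 1)

def pidx (L u v p t : ℕ) : ℕ := if t == 0 then u else if t == p + 1 then v else L + t - 1

def badj (L : ℕ) (X : List Bool) (i j : ℕ) : Bool :=
  Nat.blt i L && Nat.blt j L &&
    ((i + 1) % L == j || (j + 1) % L == i || (X.getD i false && X.getD j false && !(i == j)))

def pdir (L u v p i j : ℕ) : Bool :=
  (List.range (p + 1)).any (fun t => i == pidx L u v p t && j == pidx L u v p (t + 1))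

def padj (L : ℕ) (X : List Bool) (u v p i j : ℕ) : Bool :=
  badj L X i j || pdir L u v p i j || pdir L u v p j i

/-- certificate `(u, v, p, W)` -/
abbrev Cert := ℕ × ℕ × ℕ × List ℕ

def certOK (k : ℕ) (X : List Bool) (e : Cert) : Bool :=
  Nat.blt e.1 X.length && Nat.blt e.2.1 X.length && e.2.2.2.length == k + 1 &&
    certB (X.length + e.2.2.1) (padj X.length X e.1 e.2.1 e.2.2.1) e.2.2.2

def has (certs : List Cert) (u v p : ℕ) : Bool :=
  certs.any (fun e => ((e.1 == u && e.2.1 == v) || (e.1 == v && e.2.1 == u)) && e.2.2.1 == p)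

/-! ### Soundness -/

theorem nodupB_iff {l : List ℕ} : nodupB l = true ↔ l.Nodup := by
  induction l with
  | nil => simp [nodupB]
  | cons a l ih =>
    simp only [nodupB, Bool.and_eq_true, ih, List.nodup_cons, Bool.not_eq_true',
      List.any_eq_false, beq_iff_eq]
    constructor
    · rintro ⟨h1, h2⟩
      exact ⟨fun ha => h1 a ha rfl, h2⟩
    · rintro ⟨h1, h2⟩
      exact ⟨fun x hx hax => h1 (hax ▸ hx), h2⟩

variable {V : Type*} {G : SimpleGraph V}

theorem chainB_map {n : ℕ} {r : ℕ → ℕ → Bool} {g : ℕ → V}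
    (hadj : ∀ i < n, ∀ j < n, r i j = true → G.Adj (g i) (g j)) :
    ∀ {l : List ℕ}, (∀ x ∈ l, x < n) → chainB r l = true → (l.map g).IsChain G.Adj := by
  intro l
  induction l with
  | nil => intro _ _; simp
  | cons a l ih =>
    intro hl h
    match l, ih, hl, h with
    | [], _, _, _ => simp
    | b :: l, ih, hl, h =>
      rw [chainB, Bool.and_eq_true] at h
      rw [List.map_cons, List.map_cons, List.isChain_cons_cons]
      exact ⟨hadj a (hl a (by simp)) b (hl b (by simp)) h.1,
        ih (fun x hx => hl x (List.mem_cons_of_mem _ hx)) h.2⟩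

theorem cert_isCyc {n : ℕ} {r : ℕ → ℕ → Bool} {g : ℕ → V}
    (hinj : ∀ i < n, ∀ j < n, g i = g j → i = j)
    (hadj : ∀ i < n, ∀ j < n, r i j = true → G.Adj (g i) (g j))
    {W : List ℕ} (h : certB n r W = true) : IsCyc G (W.map g) := by
  simp only [certB, Bool.and_eq_true, List.all_eq_true, nodupB_iff] at h
  obtain ⟨⟨h1, h2⟩, h3⟩ := h
  have h1' : ∀ x ∈ W, x < n := fun x hx => by simpa [Nat.blt_eq] using h1 x hx
  have h4 := chainB_map (G := G) (g := g) hadj (l := W ++ W.take 1) (by
    intro x hx
    rcases List.mem_append.1 hx with hx | hx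
    · exact h1' x hx
    · exact h1' x (List.mem_of_mem_take hx)) h3
  rw [List.map_append, List.isChain_append] at h4
  refine ⟨?_, h4.1, ?_⟩
  · exact List.Nodup.map_on (fun x hx y hy hxy => hinj x (h1' x hx) y (h1' y hy) hxy) h2
  · intro a ha b hb
    refine h4.2.2 a ha b ?_
    cases W with
    | nil => simp at hb
    | cons w W => simpa using hb

/-- Hypotheses: `cs` is a cyclic list, `X` marks (some) clique positions. -/
structure PatHyp (G : SimpleGraph V) (cs : List V) (X : List Bool) : Prop where
  cyc : IsCyc G cs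
  len : cs.length = X.length
  three : 3 ≤ cs.length
  clique : ∀ i (hi : i < cs.length), ∀ j (hj : j < cs.length), X.getD i false = true →
    X.getD j false = true → i ≠ j → G.Adj cs[i] cs[j]

theorem adj_succ {cs : List V} (h : cs.IsChain G.Adj) {i : ℕ} (hi : i + 1 < cs.length) :
    G.Adj cs[i] cs[i + 1] := by
  rw [List.isChain_iff_getElem] at h
  exact h i hi

theorem adj_mod {cs : List V} (h : IsCyc G cs) {i j : ℕ} (hi : i < cs.length)
    (hj : j < cs.length) (hij : (i + 1) % cs.length = j) : G.Adj cs[i] cs[j] := by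
  rcases Nat.lt_or_ge (i + 1) cs.length with h1 | h1
  · rw [Nat.mod_eq_of_lt h1] at hij
    subst hij
    exact adj_succ h.2.1 h1
  · have h2 : i + 1 = cs.length := by omega
    have h3 : i = cs.length - 1 := by omega
    rw [h2, Nat.mod_self] at hij
    subst hij
    refine h.2.2 _ ?_ _ ?_
    · rw [List.getLast?_eq_getElem?]
      simp [h3]
    · rw [List.head?_eq_getElem?]
      simp

theorem padj_sound {cs Q : List V} {X : List Bool} (h : PatHyp G cs X) {u v : ℕ}
    (hu : u < cs.length) (hv : v < cs.length)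
    (hch : (cs[u] :: (Q ++ [cs[v]])).IsChain G.Adj) (v0 : V) {i j : ℕ}
    (hi : i < cs.length + Q.length) (hj : j < cs.length + Q.length)
    (hr : padj X.length X u v Q.length i j = true) :
    G.Adj ((cs ++ Q).getD i v0) ((cs ++ Q).getD j v0) := by
  have key : ∀ i j, pdir X.length u v Q.length i j = true →
      G.Adj ((cs ++ Q).getD i v0) ((cs ++ Q).getD j v0) := by
    intro i j hij
    simp only [pdir, List.any_eq_true, List.mem_range, Bool.and_eq_true, beq_iff_eq] at hij
    obtain ⟨t, ht, rfl, rfl⟩ := hij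
    have hE : ∀ t, (ht : t < Q.length + 2) → (cs ++ Q).getD (pidx X.length u v Q.length t) v0 =
        (cs[u] :: (Q ++ [cs[v]]))[t]'(by simp; omega) := by
      intro t ht
      unfold pidx
      rw [← h.len]
      rcases Nat.eq_zero_or_pos t with rfl | h0
      · simp [List.getD_eq_getElem?_getD, List.getElem?_append_left hu, hu]
      · obtain ⟨t, rfl⟩ : ∃ s, t = s + 1 := ⟨t - 1, by omega⟩
        rcases Nat.lt_or_ge t Q.length with h1 | h1
        · have h2 : ¬ (t + 1 = Q.length + 1) := by omega
          simp only [beq_iff_eq, Nat.add_eq_zero_iff, one_ne_zero, and_false, if_false, h2,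
            List.getElem_cons_succ]
          rw [List.getElem_append_left h1, List.getD_eq_getElem?_getD,
            List.getElem?_append_right (by omega)]
          have : cs.length + (t + 1) - 1 - cs.length = t := by omega
          rw [this]
          simp [h1]
        · have h2 : t = Q.length := by omega
          subst h2
          simp [List.getD_eq_getElem?_getD, List.getElem?_append_left hv, hv]
    rw [hE t (by omega), hE (t + 1) (by omega)]
    exact adj_succ hch (by simp; omega)
  simp only [padj, Bool.or_eq_true] at hr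
  rcases hr with (hr | hr) | hr
  · simp only [badj, Bool.and_eq_true, Nat.blt_eq, Bool.or_eq_true, beq_iff_eq, Bool.not_eq_true',
      beq_eq_false_iff_ne] at hr
    obtain ⟨⟨h1, h2⟩, h3⟩ := hr
    rw [← h.len] at h1 h2 h3
    have e1 : (cs ++ Q).getD i v0 = cs[i] := by
      simp [List.getD_eq_getElem?_getD, List.getElem?_append_left h1, h1]
    have e2 : (cs ++ Q).getD j v0 = cs[j] := by
      simp [List.getD_eq_getElem?_getD, List.getElem?_append_left h2, h2]
    rw [e1, e2]
    rcases h3 with (h3 | h3) | h3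
    · exact adj_mod h.cyc h1 h2 h3
    · exact (adj_mod h.cyc h2 h1 h3).symm
    · exact h.clique i h1 j h2 h3.1.1 h3.1.2 h3.2
  · exact key i j hr
  · exact (key j i hr).symm

theorem cert_sound {k : ℕ} {cs Q : List V} {X : List Bool} (h : PatHyp G cs X) {e : Cert}
    (he : certOK k X e = true) (hu : e.1 < cs.length) (hv : e.2.1 < cs.length)
    (hp : Q.length = e.2.2.1) (hQ : Q.Nodup) (hd : ∀ x ∈ Q, x ∉ cs)
    (hch : (cs[e.1] :: (Q ++ [cs[e.2.1]])).IsChain G.Adj) (hk : 2 ≤ k) : HasCyc G (k + 1) := by
  simp only [certOK, Bool.and_eq_true, beq_iff_eq] at he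
  obtain ⟨⟨⟨-, -⟩, hW⟩, hc⟩ := he
  have v0 : V := cs[e.1]
  have := cert_isCyc (G := G) (g := fun i => (cs ++ Q).getD i v0) (n := X.length + e.2.2.1)
    (r := padj X.length X e.1 e.2.1 e.2.2.1) ?_ ?_ hc
  · exact this.hasCyc' (by simpa using hW) (by omega)
  · intro i hi j hj hij
    have hnd : (cs ++ Q).Nodup := by
      rw [List.nodup_append']
      exact ⟨h.cyc.1, hQ, fun x hx hx' => hd x hx' hx⟩
    have hl : (cs ++ Q).length = X.length + e.2.2.1 := by
      rw [List.length_append, h.len, hp]
    have hi' : i < (cs ++ Q).length := by omega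
    have hj' : j < (cs ++ Q).length := by omega
    simp only [List.getD_eq_getElem?_getD, List.getElem?_eq_getElem hi',
      List.getElem?_eq_getElem hj', Option.getD_some] at hij
    exact (hnd.getElem_inj_iff).1 hij
  · intro i hi j hj hr
    have hl := h.len
    rw [← hp] at hr
    exact padj_sound h hu hv hch v0 (by omega) (by omega) hr

theorem has_symm {certs : List Cert} {u v p : ℕ} (h : has certs u v p = true) :
    has certs v u p = true := by
  simp only [has, List.any_eq_true, Bool.and_eq_true, Bool.or_eq_true, beq_iff_eq] at h ⊢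
  obtain ⟨e, he, h1, h2⟩ := h
  exact ⟨e, he, h1.symm, h2⟩

theorem has_sound {k : ℕ} {cs Q : List V} {X : List Bool} (h : PatHyp G cs X)
    {certs : List Cert} (hc : certs.all (certOK k X) = true) {u v : ℕ}
    (hu : u < cs.length) (hv : v < cs.length) (hh : has certs u v Q.length = true)
    (hQ : Q.Nodup) (hd : ∀ x ∈ Q, x ∉ cs)
    (hch : (cs[u] :: (Q ++ [cs[v]])).IsChain G.Adj) (hk : 2 ≤ k) : HasCyc G (k + 1) := by
  simp only [has, List.any_eq_true, Bool.and_eq_true, Bool.or_eq_true, beq_iff_eq] at hh
  obtain ⟨e, he, h1, h2⟩ := hh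
  rw [List.all_eq_true] at hc
  rcases h1 with ⟨rfl, rfl⟩ | ⟨rfl, rfl⟩
  · exact cert_sound h (hc e he) hu hv h2.symm hQ hd hch hk
  · refine cert_sound (Q := Q.reverse) h (hc e he) hv hu (by simpa using h2.symm)
      (List.nodup_reverse.2 hQ) (fun x hx => hd x (List.mem_reverse.1 hx)) ?_ hk
    have := List.isChain_reverse.2 (hch.imp (fun a b hab => hab.symm))
    simpa using this

end Crest.Agent.R054.Pat
private theorem rz_a5e68e7ba3 : type_of% @_root_.Crest.Agent.R054.Pat.chainB.eq_def := @_root_.Crest.Agent.R054.Pat.chainB.eq_def -- L21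
private theorem rz_198affcaa7 : type_of% @_root_.Crest.Agent.R054.Pat.chainB.eq_1 := @_root_.Crest.Agent.R054.Pat.chainB.eq_1 -- L21
private theorem rz_a8e0e84fbc : type_of% @_root_.Crest.Agent.R054.Pat.nodupB.eq_def := @_root_.Crest.Agent.R054.Pat.nodupB.eq_def -- L17
private theorem rz_9cadb5c9d5 : type_of% @_root_.Crest.Agent.R054.Pat.nodupB.eq_1 := @_root_.Crest.Agent.R054.Pat.nodupB.eq_1 -- L17
end

-- ▼ part R054/PatFar

/-!
# R054 / PatFar : the port-level far lemma
-/

set_option autoImplicit false

namespace Crest.Agent.R054.Pat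

open Crest.Agent.R054 Finset

/-- port with groups -/
abbrev Port := ℕ × List (List ℕ)

def pairB {α : Type} (r : α → α → Bool) : List α → Bool
  | [] => true
  | a :: l => l.all (r a) && pairB r l

def portOK (k w L : ℕ) (certs : List Cert) (a : Port) : Bool :=
  Nat.blt a.1 L && Nat.ble (a.2.length + 1 + w) k &&
  (List.range L).all
    (fun v => v == a.1 || has certs a.1 v 1 || a.2.any (fun g => g.any (fun z => z == v))) &&
  a.2.all (fun g => pairB (fun v v' => has certs v v' 1) g) &&
  a.2.all (fun g => g.all (fun v => Nat.blt v L))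

def chooseB (k L : ℕ) (certs : List Cert) : List Port → Bool
  | [] => true
  | a :: rest =>
    Nat.blt ((List.range L).countP (fun v => !(v == a.1) && !(has certs a.1 v 0)) +
      rest.countP (fun b => !(has certs a.1 b.1 1))) k && chooseB k L certs rest

def farOK (k w : ℕ) (X : List Bool) (certs : List Cert) (ports : List Port) : Bool :=
  Nat.ble 2 k && certs.all (certOK k X) && Nat.ble (k + 1) (2 * ports.length) &&
  ports.all (portOK k w X.length certs) &&
  pairB (fun a b => has certs a.1 b.1 2 && has certs a.1 b.1 3 && has certs a.1 b.1 4) ports &&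
  chooseB k X.length certs ports

theorem pairB_pairwise {α : Type} {r : α → α → Bool} {l : List α} (h : pairB r l = true) :
    l.Pairwise (fun a b => r a b = true) := by
  induction l with
  | nil => exact List.Pairwise.nil
  | cons a l ih =>
    rw [pairB, Bool.and_eq_true, List.all_eq_true] at h
    exact List.Pairwise.cons h.1 (ih h.2)

set_option linter.unusedSectionVars false

variable {V : Type*} {G : SimpleGraph V} [DecidableEq V] [Fintype V]

variable (G) in
noncomputable def nbs (v : V) : Finset V := (nbC G {v}).erase v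

theorem mem_nbs {v x : V} : x ∈ nbs G v ↔ G.Adj v x := by
  rw [nbs, mem_erase, mem_nbC]
  simp only [mem_singleton, exists_eq_left]
  constructor
  · rintro ⟨h1, h2 | h2⟩
    · exact absurd h2 h1
    · exact h2
  · intro h
    exact ⟨h.ne', Or.inr h⟩

theorem card_nbs {k : ℕ} {v : V} (h : k + 1 ≤ (nbC G {v}).card) : k ≤ (nbs G v).card := by
  rw [nbs, card_erase_of_mem (subset_nbC _ (mem_singleton_self v))]
  omega

section

variable {k : ℕ} {cs : List V} {X : List Bool} {certs : List Cert}

theorem no0 (h : PatHyp G cs X) (hc : certs.all (certOK k X) = true) (hk : 2 ≤ k)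
    (hno : ¬ HasCyc G (k + 1)) {u v : ℕ} (hu : u < cs.length) (hv : v < cs.length)
    (hadj : G.Adj cs[u] cs[v]) : has certs u v 0 = false := by
  by_contra hh
  rw [Bool.not_eq_false] at hh
  exact hno (has_sound (Q := []) h hc hu hv hh List.nodup_nil (by simp) (by simpa using hadj) hk)

theorem no1 (h : PatHyp G cs X) (hc : certs.all (certOK k X) = true) (hk : 2 ≤ k)
    (hno : ¬ HasCyc G (k + 1)) {u v : ℕ} (hu : u < cs.length) (hv : v < cs.length)
    {x : V} (hx : x ∉ cs) (h1 : G.Adj cs[u] x) (h2 : G.Adj cs[v] x) :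
    has certs u v 1 = false := by
  by_contra hh
  rw [Bool.not_eq_false] at hh
  exact hno (has_sound (Q := [x]) h hc hu hv hh (by simp) (by simpa using hx)
    (by simpa using ⟨h1, h2.symm⟩) hk)

theorem exists_xs (h : PatHyp G cs X) (hc : certs.all (certOK k X) = true) (hk : 2 ≤ k)
    (hno : ¬ HasCyc G (k + 1)) (hdeg : ∀ v : V, k + 1 ≤ (nbC G {v}).card) :
    ∀ ports : List Port, (∀ a ∈ ports, a.1 < cs.length) →
      chooseB k X.length certs ports = true →
      ∃ xs : List V, List.Forall₂ (fun (a : Port) x => x ∉ cs ∧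
        ∀ hu : a.1 < cs.length, G.Adj cs[a.1] x) ports xs ∧ xs.Nodup := by
  intro ports
  induction ports with
  | nil => intro _ _; exact ⟨[], List.Forall₂.nil, List.nodup_nil⟩
  | cons a rest ih =>
    intro hl hch
    rw [chooseB, Bool.and_eq_true, Nat.blt_eq] at hch
    obtain ⟨xs, hxs, hnd⟩ := ih (fun b hb => hl b (List.mem_cons_of_mem _ hb)) hch.2
    have hu : a.1 < cs.length := hl a (by simp)
    suffices hx : ∃ x, G.Adj cs[a.1] x ∧ x ∉ cs ∧ x ∉ xs by
      obtain ⟨x, h1, h2, h3⟩ := hx
      exact ⟨x :: xs, List.Forall₂.cons ⟨h2, fun _ => h1⟩ hxs, List.nodup_cons.2 ⟨h3, hnd⟩⟩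
    by_contra hcon
    push Not at hcon
    set A : List ℕ := (List.range X.length).filter (fun v => !(v == a.1) && !(has certs a.1 v 0))
      with hA
    classical
    set B : List V := xs.filter (fun x => decide (x ∉ cs ∧ G.Adj cs[a.1] x)) with hB
    have hsub : nbs G cs[a.1] ⊆ (A.map (fun v => cs.getD v cs[a.1])).toFinset ∪ B.toFinset := by
      intro x hx
      rw [mem_nbs] at hx
      rw [mem_union, List.mem_toFinset, List.mem_toFinset]
      by_cases hxc : x ∈ cs
      · left
        obtain ⟨v, hv, rfl⟩ := List.mem_iff_getElem.1 hxc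
        rw [List.mem_map]
        refine ⟨v, ?_, ?_⟩
        · rw [hA, List.mem_filter]
          refine ⟨List.mem_range.2 (by rw [← h.len]; exact hv), ?_⟩
          have := no0 h hc hk hno hu hv hx
          have hne : v ≠ a.1 := by
            rintro rfl
            exact G.loopless.irrefl _ hx
          simp [this, hne]
        · simp [List.getD_eq_getElem?_getD, hv]
      · right
        rw [hB, List.mem_filter]
        exact ⟨hcon x hx hxc, by simp [hxc, hx]⟩
    have hBl : B.length ≤ rest.countP (fun b => !(has certs a.1 b.1 1)) := by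
      rw [hB]
      clear hnd hcon hsub hB B hA A ih hch
      have hl' : ∀ b ∈ rest, b.1 < cs.length := fun b hb => hl b (List.mem_cons_of_mem _ hb)
      clear hl
      induction hxs with
      | nil => simp
      | @cons b x rest xs h1 h2 ih =>
        have hb : b.1 < cs.length := hl' b (by simp)
        have ih' := ih (fun b hb => hl' b (List.mem_cons_of_mem _ hb))
        rw [List.filter_cons, List.countP_cons]
        by_cases hq : x ∉ cs ∧ G.Adj cs[a.1] x
        · have hf := no1 h hc hk hno hu hb h1.1 hq.2 (h1.2 hb)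
          rw [if_pos (by simpa using hq), if_pos (by simp [hf])]
          rw [List.length_cons]
          omega
        · rw [if_neg (by simpa using hq)]
          omega
    have hcard := card_nbs (hdeg cs[a.1])
    have h1 := card_le_card hsub
    have h2 := card_union_le (A.map (fun v => cs.getD v cs[a.1])).toFinset B.toFinset
    have h3 := List.toFinset_card_le (A.map (fun v => cs.getD v cs[a.1]))
    have h4 := List.toFinset_card_le B
    rw [List.length_map] at h3
    have h5 : A.length = (List.range X.length).countP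
        (fun v => !(v == a.1) && !(has certs a.1 v 0)) := by
      rw [hA, List.countP_eq_length_filter]
    omega

theorem card_foldr_le (A : List ℕ → Finset V) :
    ∀ gs : List (List ℕ), (∀ g ∈ gs, (A g).card ≤ 1) →
      (gs.foldr (fun g S => A g ∪ S) ∅).card ≤ gs.length := by
  intro gs
  induction gs with
  | nil => intro _; simp
  | cons g gs ih =>
    intro hg
    have h1 := hg g (by simp)
    have h2 := ih (fun g hg' => hg g (List.mem_cons_of_mem _ hg'))
    rw [List.foldr_cons, List.length_cons]
    have := card_union_le (A g) (gs.foldr (fun g S => A g ∪ S) ∅)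
    omega

theorem mem_foldr (A : List ℕ → Finset V) {x : V} :
    ∀ gs : List (List ℕ), x ∈ gs.foldr (fun g S => A g ∪ S) ∅ ↔ ∃ g ∈ gs, x ∈ A g := by
  intro gs
  induction gs with
  | nil => simp
  | cons g gs ih => simp [ih]

theorem ball (h : PatHyp G cs X) (hc : certs.all (certOK k X) = true) (hk : 2 ≤ k)
    (hno : ¬ HasCyc G (k + 1)) (hdeg : ∀ v : V, k + 1 ≤ (nbC G {v}).card) {w : ℕ}
    (hcl : ∀ S : Finset V, (∀ x ∈ S, ∀ y ∈ S, x ≠ y → G.Adj x y) → S.card ≤ w)
    {a : Port} (ha : portOK k w X.length certs a = true) {x : V} (hx : x ∉ cs)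
    (hu : a.1 < cs.length) (hux : G.Adj cs[a.1] x) :
    ∃ y y' : V, y ≠ y' ∧ ¬ G.Adj y y' ∧ G.Adj x y ∧ G.Adj x y' ∧ y ∉ cs ∧ y' ∉ cs := by
  classical
  simp only [portOK, Bool.and_eq_true, Nat.blt_eq, Nat.ble_eq, List.all_eq_true, List.mem_range,
    Bool.or_eq_true, beq_iff_eq, List.any_eq_true] at ha
  obtain ⟨⟨⟨⟨-, hkw⟩, hcov⟩, hgr⟩, hgl⟩ := ha
  have hgr' : ∀ g ∈ a.2, g.Pairwise (fun v v' => has certs v v' 1 = true) :=
    fun g hg => pairB_pairwise (hgr g hg)
  -- neighbours of `x` on the cycle
  set A : List ℕ → Finset V := fun g => (nbs G x).filter (fun y => ∃ v ∈ g, cs[v]? = some y)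
    with hA
  have hA1 : ∀ g ∈ a.2, (A g).card ≤ 1 := by
    intro g hg
    rw [card_le_one]
    intro y hy y' hy'
    simp only [hA, mem_filter, mem_nbs] at hy hy'
    obtain ⟨hy1, v, hv, hy2⟩ := hy
    obtain ⟨hy1', v', hv', hy2'⟩ := hy'
    by_contra hne
    have hvv : v ≠ v' := by
      rintro rfl
      rw [hy2] at hy2'
      exact hne (by simpa using hy2')
    obtain ⟨hvl, hy3⟩ := List.getElem?_eq_some_iff.1 hy2
    obtain ⟨hvl', hy3'⟩ := List.getElem?_eq_some_iff.1 hy2'
    have hsym : Std.Symm (fun v v' => has certs v v' 1 = true) := ⟨fun _ _ h => has_symm h⟩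
    have hh : has certs v v' 1 = true := List.Pairwise.forall (hgr' g hg) hv hv' hvv
    have := no1 h hc hk hno hvl hvl' hx (by rw [hy3]; exact hy1.symm) (by rw [hy3']; exact hy1'.symm)
    rw [hh] at this
    exact absurd this (by simp)
  have hsub : (nbs G x).filter (fun y => y ∈ cs) ⊆
      insert cs[a.1] (a.2.foldr (fun g S => A g ∪ S) ∅) := by
    intro y hy
    rw [mem_filter, mem_nbs] at hy
    obtain ⟨hy1, hy2⟩ := hy
    obtain ⟨v, hv, rfl⟩ := List.mem_iff_getElem.1 hy2
    rw [mem_insert, mem_foldr]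
    have hf := no1 h hc hk hno hu hv hx hux hy1.symm
    rcases hcov v (by rw [← h.len]; exact hv) with (h1 | h1) | h1
    · left; subst h1; rfl
    · rw [hf] at h1; exact absurd h1 (by simp)
    · right
      obtain ⟨g, hg, z, hz, rfl⟩ := h1
      refine ⟨g, hg, ?_⟩
      simp only [hA, mem_filter, mem_nbs]
      exact ⟨hy1, z, hz, List.getElem?_eq_getElem hv⟩
  have hcard1 := (card_le_card hsub).trans (card_insert_le _ _)
  have hcard2 := card_foldr_le A a.2 hA1
  have hcard3 := card_nbs (hdeg x)
  have hcard4 := card_filter_add_card_filter_not (s := nbs G x) (fun y => y ∈ cs)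
  have hlarge : w + 1 ≤ (insert x ((nbs G x).filter (fun y => ¬ y ∈ cs))).card := by
    rw [card_insert_of_notMem]
    · omega
    · simp [mem_nbs]
  have hnc : ∃ y ∈ insert x ((nbs G x).filter (fun y => ¬ y ∈ cs)),
      ∃ y' ∈ insert x ((nbs G x).filter (fun y => ¬ y ∈ cs)), y ≠ y' ∧ ¬ G.Adj y y' := by
    by_contra hcon
    push Not at hcon
    have := hcl _ hcon
    omega
  obtain ⟨y, hy, y', hy', hne, hnadj⟩ := hnc
  rw [mem_insert, mem_filter, mem_nbs] at hy hy'
  have hyx : y ≠ x := by
    rintro rfl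
    rcases hy' with h1 | h1
    · exact hne h1.symm
    · exact hnadj h1.1
  have hyx' : y' ≠ x := by
    rintro rfl
    rcases hy with h1 | h1
    · exact hne h1
    · exact hnadj h1.1.symm
  rcases hy with hy | hy
  · exact absurd hy hyx
  rcases hy' with hy' | hy'
  · exact absurd hy' hyx'
  exact ⟨y, y', hne, hnadj, hy.1, hy'.1, hy.2, hy'.2⟩

end

theorem far {k w : ℕ} {cs : List V} {X : List Bool} {certs : List Cert} {ports : List Port}
    (hOK : farOK k w X certs ports = true) (h : PatHyp G cs X)
    (hno : ¬ HasCyc G (k + 1)) (hdeg : ∀ v : V, k + 1 ≤ (nbC G {v}).card)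
    (hcl : ∀ S : Finset V, (∀ x ∈ S, ∀ y ∈ S, x ≠ y → G.Adj x y) → S.card ≤ w)
    (hal : alp G univ ≤ k) : False := by
  classical
  simp only [farOK, Bool.and_eq_true, Nat.ble_eq] at hOK
  obtain ⟨⟨⟨⟨⟨hk, hc⟩, hr⟩, hports⟩, hpair⟩, hch⟩ := hOK
  rw [List.all_eq_true] at hports
  have hpl : ∀ a ∈ ports, a.1 < cs.length := by
    intro a ha
    have := hports a ha
    simp only [portOK, Bool.and_eq_true, Nat.blt_eq] at this
    rw [h.len]
    exact this.1.1.1.1
  obtain ⟨xs, hxs, hnd⟩ := exists_xs h hc hk hno hdeg ports hpl hch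
  have hlen := hxs.length_eq
  have hx : ∀ i : Fin ports.length, xs[i.1]'(by have := i.2; omega) ∉ cs ∧
      G.Adj (cs[(ports[i.1]).1]'(hpl _ (List.getElem_mem _))) (xs[i.1]'(by have := i.2; omega)) := by
    intro i
    have := (List.forall₂_iff_get.1 hxs).2 i.1 i.2 (by have := i.2; omega)
    exact ⟨this.1, this.2 (hpl _ (List.getElem_mem _))⟩
  set u : Fin ports.length → ℕ := fun i => (ports[i.1]).1 with hu
  have hul : ∀ i, u i < cs.length := fun i => hpl _ (List.getElem_mem _)
  set x : Fin ports.length → V := fun i => xs[i.1]'(by have := i.2; omega) with hxdef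
  have hxc : ∀ i, x i ∉ cs := fun i => (hx i).1
  have hux : ∀ i, G.Adj (cs[u i]'(hul i)) (x i) := fun i => (hx i).2
  have hxinj : ∀ i j, i ≠ j → x i ≠ x j := by
    intro i j hij hxx
    have := (hnd.getElem_inj_iff).1 hxx
    exact hij (Fin.ext this)
  have hpp := pairB_pairwise hpair
  have hhas : ∀ i j, i ≠ j → has certs (u i) (u j) 2 = true ∧ has certs (u i) (u j) 3 = true ∧
      has certs (u i) (u j) 4 = true := by
    have hlt : ∀ i j : Fin ports.length, i < j → has certs (u i) (u j) 2 = true ∧
        has certs (u i) (u j) 3 = true ∧ has certs (u i) (u j) 4 = true := by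
      intro i j hij
      have := List.pairwise_iff_getElem.1 hpp i.1 j.1 i.2 j.2 hij
      simp only [Bool.and_eq_true] at this
      exact ⟨this.1.1, this.1.2, this.2⟩
    intro i j hij
    rcases lt_or_gt_of_ne hij with h1 | h1
    · exact hlt i j h1
    · have := hlt j i h1
      exact ⟨has_symm this.1, has_symm this.2.1, has_symm this.2.2⟩
  have hb : ∀ i : Fin ports.length, ∃ y y' : V, y ≠ y' ∧ ¬ G.Adj y y' ∧ G.Adj (x i) y ∧
      G.Adj (x i) y' ∧ y ∉ cs ∧ y' ∉ cs := fun i =>
    ball h hc hk hno hdeg hcl (hports _ (List.getElem_mem i.2)) (hxc i) (hul i) (hux i)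
  choose y y' hyne hynadj hxy hxy' hyc hyc' using hb
  set P : Fin ports.length → Finset V := fun i => {y i, y' i} with hP
  have hPmem : ∀ i, ∀ z ∈ P i, G.Adj (x i) z ∧ z ∉ cs := by
    intro i z hz
    simp only [hP, mem_insert, mem_singleton] at hz
    rcases hz with rfl | rfl
    · exact ⟨hxy i, hyc i⟩
    · exact ⟨hxy' i, hyc' i⟩
  have hxx : ∀ i j, i ≠ j → ¬ G.Adj (x i) (x j) := by
    intro i j hij hadj
    refine hno (has_sound (Q := [x i, x j]) h hc (hul i) (hul j) (hhas i j hij).1
      (by simp [hxinj i j hij]) (by simp [hxc]) ?_ hk)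
    simpa using ⟨hux i, hadj, (hux j).symm⟩
  have hfar : ∀ i j, i ≠ j → ∀ z ∈ P i, ∀ z' ∈ P j, z ≠ z' ∧ ¬ G.Adj z z' := by
    intro i j hij z hz z' hz'
    obtain ⟨hz1, hz2⟩ := hPmem i z hz
    obtain ⟨hz1', hz2'⟩ := hPmem j z' hz'
    have hne : z ≠ z' := by
      rintro rfl
      refine hno (has_sound (Q := [x i, z, x j]) h hc (hul i) (hul j) (hhas i j hij).2.1
        (by simp [hxinj i j hij, hz1.ne, hz1'.ne']) (by simp [hxc, hz2]) ?_ hk)
      simpa using ⟨hux i, hz1, hz1'.symm, (hux j).symm⟩
    refine ⟨hne, fun hadj => ?_⟩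
    have h1 : x i ≠ z' := by
      rintro rfl
      exact hxx i j hij hz1'.symm
    have h2 : z ≠ x j := by
      rintro rfl
      exact hxx i j hij hz1
    refine hno (has_sound (Q := [x i, z, z', x j]) h hc (hul i) (hul j) (hhas i j hij).2.2
      (by simp [hxinj i j hij, hz1.ne, hz1'.ne', h1, h2, hne]) (by simp [hxc, hz2, hz2']) ?_ hk)
    simpa using ⟨hux i, hz1, hadj, hz1'.symm, (hux j).symm⟩
  have hind : Indep G (univ.biUnion P) := by
    intro z hz z' hz'
    rw [mem_biUnion] at hz hz'
    obtain ⟨i, -, hi⟩ := hz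
    obtain ⟨j, -, hj⟩ := hz'
    by_cases hij : i = j
    · subst hij
      simp only [hP, mem_insert, mem_singleton] at hi hj
      rcases hi with rfl | rfl <;> rcases hj with rfl | rfl
      · exact G.loopless.irrefl _
      · exact hynadj i
      · exact fun h => hynadj i h.symm
      · exact G.loopless.irrefl _
    · exact (hfar i j hij z hi z' hj).2
  have hcard : (univ.biUnion P).card = 2 * ports.length := by
    rw [card_biUnion]
    · have : ∀ i ∈ (univ : Finset (Fin ports.length)), (P i).card = 2 := by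
        intro i _
        simp only [hP]
        rw [card_pair (hyne i)]
      rw [sum_congr rfl this]
      simp [mul_comm]
    · intro i _ j _ hij
      show Disjoint (P i) (P j)
      rw [disjoint_left]
      intro z hz hz'
      exact (hfar i j hij z hz z hz').1 rfl
  have := hind.card_le_alp (S := univ) (subset_univ _)
  omega

end Crest.Agent.R054.Pat
private theorem rz_afe6868702 : type_of% @_root_.Crest.Agent.R054.Pat.chooseB.eq_def := @_root_.Crest.Agent.R054.Pat.chooseB.eq_def -- L27
private theorem rz_8bdc1ca1e9 : type_of% @_root_.Crest.Agent.R054.Pat.chooseB.eq_1 := @_root_.Crest.Agent.R054.Pat.chooseB.eq_1 -- L27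
private theorem rz_1b242cdd75 : type_of% @_root_.Crest.Agent.R054.Pat.pairB.eq_def := @_root_.Crest.Agent.R054.Pat.pairB.eq_def -- L16
private theorem rz_6074554fae : type_of% @_root_.Crest.Agent.R054.Pat.pairB.eq_1 := @_root_.Crest.Agent.R054.Pat.pairB.eq_1 -- L16
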